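import Mathlib
import Crest.Prelude.Def_MeanCurvatureFlow

/-!
Row 250, leaf G5 (helper58): every time slice of a smooth compact mean curvature flow is compact,
and connected when the initial one is; properness and openness of the time projection.
-/

set_option autoImplicit false

noncomputable section

namespace Crest.Agent.N250.GB

open Crest.GeometryTopology.MCF Set Filter Topology

/-- a function with nonzero spatial gradient, paired with time, is a submersion; small boxes have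
connected slices of the zero set -/
theorem box_slices {φ : E × ℝ → ℝ} {x : E} {t : ℝ} (hφ : ContDiffAt ℝ 1 φ (x, t))
    (hg : gradX φ x t ≠ 0) (h0 : φ (x, t) = 0) {O : Set (E × ℝ)} (hO : O ∈ 𝓝 (x, t)) :
    ∃ V : Set (E × ℝ), IsOpen V ∧ (x, t) ∈ V ∧ V ⊆ O ∧
      ∀ᶠ s in 𝓝 t, IsConnected {y : E | φ (y, s) = 0 ∧ (y, s) ∈ V} := by
  have hd : HasStrictFDerivAt φ (fderiv ℝ φ (x, t)) (x, t) := hφ.hasStrictFDerivAt (by simp)
  set D := fderiv ℝ φ (x, t) with hD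
  have hf : HasStrictFDerivAt (fun p : E × ℝ => (φ p, p.2))
      (D.prod (ContinuousLinearMap.snd ℝ E ℝ)) (x, t) :=
    hd.prodMk hasStrictFDerivAt_snd
  have hv : ∃ v : E, D (v, 0) ≠ 0 := by
    by_contra hn
    push Not at hn
    apply hg
    have h1 : HasFDerivAt (fun y : E => φ (y, t))
        (D.comp (ContinuousLinearMap.inl ℝ E ℝ)) x :=
      hd.hasFDerivAt.comp x (hasFDerivAt_prodMk_left x t)
    have h2 : D.comp (ContinuousLinearMap.inl ℝ E ℝ) = 0 := by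
      ext v
      simpa using hn v
    unfold gradX gradient
    rw [h1.fderiv, h2]
    simp
  obtain ⟨v, hv⟩ := hv
  have hf' : (D.prod (ContinuousLinearMap.snd ℝ E ℝ)).range = ⊤ := by
    rw [LinearMap.range_eq_top]
    rintro ⟨a, b⟩
    refine ⟨((a - D (0, b)) / D (v, 0)) • ((v, 0) : E × ℝ) + (0, b), ?_⟩
    ext
    · simp only [ContinuousLinearMap.coe_coe, ContinuousLinearMap.prod_apply, map_add, map_smul,
        smul_eq_mul, Prod.fst_add, Prod.smul_fst]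
      field_simp
      ring
    · simp
  set e := hf.implicitToOpenPartialHomeomorph _ _ hf' with he
  have hs : (x, t) ∈ e.source := hf.mem_implicitToOpenPartialHomeomorph_source hf'
  have hex : e (x, t) = ((0, t), 0) := by
    rw [he, hf.implicitToOpenPartialHomeomorph_self hf', h0]
  have hfst : ∀ p, (e p).1 = (φ p, p.2) := fun p => hf.implicitToOpenPartialHomeomorph_fst hf' p
  have hT : e.target ∩ e.symm ⁻¹' O ∈ 𝓝 (e (x, t)) := by
    refine inter_mem (e.open_target.mem_nhds (e.map_source hs)) ?_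
    apply (e.continuousAt_symm (e.map_source hs)).preimage_mem_nhds
    rwa [e.left_inv hs]
  obtain ⟨r, hr, hb⟩ := Metric.mem_nhds_iff.1 hT
  refine ⟨e.source ∩ e ⁻¹' Metric.ball (e (x, t)) r,
    e.isOpen_inter_preimage Metric.isOpen_ball, ⟨hs, Metric.mem_ball_self hr⟩, ?_, ?_⟩
  · rintro p ⟨hp, hp2⟩
    have := (hb hp2).2
    rwa [mem_preimage, e.left_inv hp] at this
  · filter_upwards [Metric.ball_mem_nhds t hr] with s hs'
    have hmem : ∀ k ∈ Metric.ball (0 : (D.prod (ContinuousLinearMap.snd ℝ E ℝ)).ker) r,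
        (((0 : ℝ), s), k) ∈ Metric.ball (e (x, t)) r := by
      intro k hk
      rw [hex, ← ball_prod_same, ← ball_prod_same]
      exact ⟨⟨Metric.mem_ball_self hr, hs'⟩, hk⟩
    have heq : {y : E | φ (y, s) = 0 ∧ (y, s) ∈ e.source ∩ e ⁻¹' Metric.ball (e (x, t)) r} =
        (fun k => (e.symm ((0, s), k)).1) '' Metric.ball 0 r := by
      ext y
      constructor
      · rintro ⟨h1, h2, h3⟩
        have h4 : e (y, s) = ((0, s), (e (y, s)).2) := by
          ext1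
          · rw [hfst, h1]
          · rfl
        refine ⟨(e (y, s)).2, ?_, ?_⟩
        · have h5 : e (y, s) ∈ Metric.ball (e (x, t)) r := h3
          rw [hex, ← ball_prod_same] at h5
          exact h5.2
        · show (e.symm ((0, s), (e (y, s)).2)).1 = y
          rw [← h4, e.left_inv h2]
      · rintro ⟨k, hk, rfl⟩
        have h1 := (hb (hmem k hk)).1
        have h2 := hfst (e.symm ((0, s), k))
        rw [e.right_inv h1] at h2
        have h3 : (e.symm ((0, s), k)).2 = s := (congrArg Prod.snd h2).symm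
        have h4 : ((e.symm ((0, s), k)).1, s) = e.symm ((0, s), k) := Prod.ext rfl h3.symm
        show φ (_, s) = 0 ∧ _
        rw [h4]
        refine ⟨(congrArg Prod.fst h2).symm, e.map_target h1, ?_⟩
        rw [mem_preimage, e.right_inv h1]
        exact hmem k hk
    rw [heq]
    refine ((convex_ball _ _).isConnected ⟨0, Metric.mem_ball_self hr⟩).image _ ?_
    refine continuous_fst.comp_continuousOn (e.continuousOn_symm.comp (by fun_prop) ?_)
    intro k hk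
    exact (hb (hmem k hk)).1

variable {M : ℝ → Set E} {T : ℝ}

/-- small spacetime boxes around a point of the flow have connected time slices -/
theorem mcf_box (hM : IsSmoothMCF M T) {t : ℝ} (ht : t ∈ Ico 0 T) {x : E} (hx : x ∈ M t)
    {O : Set (E × ℝ)} (hO : O ∈ 𝓝 (x, t)) :
    ∃ V : Set (E × ℝ), IsOpen V ∧ (x, t) ∈ V ∧ V ⊆ O ∧
      ∀ᶠ s in 𝓝[Ico 0 T] t, IsConnected {y : E | y ∈ M s ∧ (y, s) ∈ V} := by
  obtain ⟨W, φ, hW, ⟨hWo, hφ, hg, hz⟩, -⟩ := hM.2.2 t ht x hx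
  have hWn := hWo.mem_nhds hW
  obtain ⟨V, hVo, hxV, hVO, hV⟩ := box_slices
    ((hφ.contDiffAt hWn).of_le (by exact_mod_cast le_top)) (hg _ hW) ((hz _ hW ht).1 hx)
    (inter_mem hO hWn)
  refine ⟨V, hVo, hxV, fun p hp => (hVO hp).1, ?_⟩
  filter_upwards [mem_nhdsWithin_of_mem_nhds hV, self_mem_nhdsWithin] with s hs hsI
  convert hs using 2
  ext y
  constructor
  · rintro ⟨h1, h2⟩
    exact ⟨(hz (y, s) (hVO h2).2 hsI).1 h1, h2⟩
  · rintro ⟨h1, h2⟩
    exact ⟨(hz (y, s) (hVO h2).2 hsI).2 h1, h2⟩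

/-- openness of the time projection: points of the flow do not disappear -/
theorem mcf_open (hM : IsSmoothMCF M T) {t : ℝ} (ht : t ∈ Ico 0 T) {x : E} (hx : x ∈ M t)
    {O : Set (E × ℝ)} (hO : O ∈ 𝓝 (x, t)) :
    ∀ᶠ s in 𝓝[Ico 0 T] t, ∃ y ∈ M s, (y, s) ∈ O := by
  obtain ⟨V, -, -, hVO, hV⟩ := mcf_box hM ht hx hO
  filter_upwards [hV] with s hs
  obtain ⟨y, h1, h2⟩ := hs.nonempty
  exact ⟨y, h1, hVO h2⟩

/-- the track over a compact set of times is compact -/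
theorem mcf_track_compact (hM : IsSmoothMCF M T) {K : Set ℝ} (hK : IsCompact K)
    (hKI : K ⊆ Ico 0 T) : IsCompact {p : E × ℝ | p.2 ∈ K ∧ p.1 ∈ M p.2} := by
  obtain ⟨R, hR⟩ := hM.2.1
  have h1 : {p : E × ℝ | p.2 ∈ K ∧ p.1 ∈ M p.2} =
      (Metric.closedBall 0 R ×ˢ K) ∩ closure (track M T) := by
    ext p
    constructor
    · rintro ⟨h1, h2⟩
      exact ⟨⟨hR _ (hKI h1) h2, h1⟩, subset_closure ⟨hKI h1, h2⟩⟩
    · rintro ⟨⟨-, h1⟩, h2⟩
      exact ⟨h1, hM.1 p h2 (hKI h1)⟩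
  rw [h1]
  exact ((isCompact_closedBall _ _).prod hK).inter_right isClosed_closure

/-- every slice is compact -/
theorem mcf_compact (hM : IsSmoothMCF M T) {t : ℝ} (ht : t ∈ Ico 0 T) : IsCompact (M t) := by
  have h := (mcf_track_compact hM (isCompact_singleton (x := t))
    (by simpa using ht)).image continuous_fst
  convert h using 1
  ext y
  constructor
  · intro hy
    exact ⟨(y, t), ⟨rfl, hy⟩, rfl⟩
  · rintro ⟨p, ⟨h1, h2⟩, rfl⟩
    rw [mem_singleton_iff] at h1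
    rwa [h1] at h2

/-- properness of the time projection: points of the flow do not appear -/
theorem mcf_proper (hM : IsSmoothMCF M T) {t : ℝ} (ht : t ∈ Ico 0 T)
    {O : Set (E × ℝ)} (hO : IsOpen O) (hMO : ∀ y ∈ M t, (y, t) ∈ O) :
    ∀ᶠ s in 𝓝[Ico 0 T] t, ∀ y ∈ M s, (y, s) ∈ O := by
  obtain ⟨R, hR⟩ := hM.2.1
  have hK : IsCompact (((Metric.closedBall (0 : E) R ×ˢ Icc 0 T) ∩ closure (track M T)) \ O) :=
    (((isCompact_closedBall _ _).prod isCompact_Icc).inter_right isClosed_closure).diff hO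
  have hc := (hK.image continuous_snd).isClosed.isOpen_compl
  have ht' : t ∈ (Prod.snd '' (((Metric.closedBall (0 : E) R ×ˢ Icc 0 T) ∩
      closure (track M T)) \ O))ᶜ := by
    rintro ⟨⟨y, s⟩, ⟨⟨-, h1⟩, h2⟩, rfl⟩
    exact h2 (hMO y (hM.1 _ h1 ht))
  filter_upwards [mem_nhdsWithin_of_mem_nhds (hc.mem_nhds ht'), self_mem_nhdsWithin]
    with s hs hsI y hy
  by_contra hn
  exact hs ⟨(y, s), ⟨⟨⟨hR s hsI hy, hsI.1, hsI.2.le⟩, subset_closure ⟨hsI, hy⟩⟩, hn⟩, rfl⟩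

theorem mcf_conn_near (hM : IsSmoothMCF M T) {t : ℝ} (ht : t ∈ Ico 0 T)
    (hc : IsConnected (M t)) : ∀ᶠ s in 𝓝[Ico 0 T] t, IsConnected (M s) := by
  classical
  have hb := fun x : M t => mcf_box hM ht x.2 (univ_mem (f := 𝓝 ((x : E), t)))
  choose V hVo hxV hVO hV using hb
  obtain ⟨F, hF⟩ := (mcf_compact hM ht).elim_finite_subcover
    (fun x : M t => (fun y : E => (y, t)) ⁻¹' V x)
    (fun x => (hVo x).preimage (by fun_prop)) (fun y hy => mem_iUnion.2 ⟨⟨y, hy⟩, hxV ⟨y, hy⟩⟩)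
  have h1 : ∀ᶠ s in 𝓝[Ico 0 T] t, ∀ i ∈ F, IsConnected {y : E | y ∈ M s ∧ (y, s) ∈ V i} :=
    (F.eventually_all).2 fun i _ => hV i
  have h2 : ∀ᶠ s in 𝓝[Ico 0 T] t, ∀ y ∈ M s, (y, s) ∈ ⋃ i ∈ F, V i :=
    mcf_proper hM ht (isOpen_biUnion fun i _ => hVo i) (fun y hy => by simpa using hF hy)
  have h3 : ∀ᶠ s in 𝓝[Ico 0 T] t, ∀ i ∈ F, ∀ j ∈ F,
      (∃ y ∈ M t, (y, t) ∈ V i ∩ V j) → ∃ y ∈ M s, (y, s) ∈ V i ∩ V j := by
    refine (F.eventually_all).2 fun i _ => (F.eventually_all).2 fun j _ => ?_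
    by_cases h : ∃ y ∈ M t, (y, t) ∈ V i ∩ V j
    · obtain ⟨y, hy, hyV⟩ := h
      filter_upwards [mcf_open hM ht hy (((hVo i).inter (hVo j)).mem_nhds hyV)] with s hs _ using hs
    · exact Eventually.of_forall fun s h' => absurd h' h
  obtain ⟨x₀, hx₀⟩ := hc.nonempty
  filter_upwards [h1, h2, h3, mcf_open hM ht hx₀ univ_mem] with s h1 h2 h3 h4
  refine ⟨by obtain ⟨y, hy, -⟩ := h4; exact ⟨y, hy⟩, ?_⟩
  intro u v hu hv huv ⟨a, haM, hau⟩ ⟨b, hbM, hbv⟩
  by_contra hn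
  have hdisj : ∀ y ∈ M s, y ∈ u → y ∈ v → False := fun y h1 h2 h3 => hn ⟨y, h1, h2, h3⟩
  -- every box has one colour
  have hcol : ∀ i ∈ F, {y : E | y ∈ M s ∧ (y, s) ∈ V i} ⊆ u ∨
      {y : E | y ∈ M s ∧ (y, s) ∈ V i} ⊆ v := by
    intro i hi
    by_contra hcon
    push Not at hcon
    obtain ⟨p, hp, hpu⟩ := not_subset.1 hcon.1
    obtain ⟨q, hq, hqv⟩ := not_subset.1 hcon.2
    obtain ⟨y, hy, hyu, hyv⟩ := (h1 i hi).isPreconnected u v hu hv (fun y hy => huv hy.1)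
      ⟨q, hq, (huv hq.1).resolve_right hqv⟩ ⟨p, hp, (huv hp.1).resolve_left hpu⟩
    exact hdisj y hy.1 hyu hyv
  let A : Set E → Set E := fun w => ⋃ i ∈ {i | i ∈ F ∧ {y : E | y ∈ M s ∧ (y, s) ∈ V i} ⊆ w},
    (fun y : E => (y, t)) ⁻¹' V i
  have hAo : ∀ w, IsOpen (A w) := fun w =>
    isOpen_biUnion fun i _ => (hVo i).preimage (by fun_prop)
  have hne : ∀ w₁ w₂ : Set E, (∀ y ∈ M s, y ∈ w₁ → y ∈ w₂ → False) →
      (∀ i ∈ F, {y : E | y ∈ M s ∧ (y, s) ∈ V i} ⊆ w₁ ∨ {y : E | y ∈ M s ∧ (y, s) ∈ V i} ⊆ w₂) →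
      ∀ a ∈ M s, a ∈ w₁ → (M t ∩ A w₁).Nonempty := by
    intro w₁ w₂ hd hc a ha haw
    obtain ⟨i, hi, hai⟩ : ∃ i ∈ F, (a, s) ∈ V i := by simpa using h2 a ha
    refine ⟨i, i.2, mem_biUnion (x := i) ⟨hi, (hc i hi).resolve_right fun h => ?_⟩ (hxV i)⟩
    exact hd a ha haw (h ⟨ha, hai⟩)
  obtain ⟨y, hy, hyu, hyv⟩ := hc.isPreconnected (A u) (A v) (hAo u) (hAo v) (by
      intro y hy
      obtain ⟨i, hi, hyi⟩ : ∃ i ∈ F, (y, t) ∈ V i := by simpa using hF hy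
      rcases hcol i hi with h | h
      · exact Or.inl (mem_biUnion (x := i) ⟨hi, h⟩ hyi)
      · exact Or.inr (mem_biUnion (x := i) ⟨hi, h⟩ hyi))
    (hne u v hdisj hcol a haM hau)
    (hne v u (fun y h1 h2 h3 => hdisj y h1 h3 h2) (fun i hi => (hcol i hi).symm) b hbM hbv)
  obtain ⟨i, ⟨hi, hiu⟩, hyi⟩ := mem_iUnion₂.1 hyu |>.imp fun i h => (by
    obtain ⟨h1, h2⟩ := h; exact (⟨h1, h2⟩ : _ ∧ _))
  obtain ⟨j, ⟨hj, hjv⟩, hyj⟩ := mem_iUnion₂.1 hyv |>.imp fun i h => (by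
    obtain ⟨h1, h2⟩ := h; exact (⟨h1, h2⟩ : _ ∧ _))
  obtain ⟨z, hz, hzi, hzj⟩ := h3 i hi j hj ⟨y, hy, hyi, hyj⟩
  exact hdisj z hz (hiu ⟨hz, hzi⟩) (hjv ⟨hz, hzj⟩)

theorem mcf_nconn_near (hM : IsSmoothMCF M T) {t : ℝ} (ht : t ∈ Ico 0 T)
    (hc : ¬ IsConnected (M t)) : ∀ᶠ s in 𝓝[Ico 0 T] t, ¬ IsConnected (M s) := by
  rcases (M t).eq_empty_or_nonempty with h | h
  · filter_upwards [mcf_proper hM ht isOpen_empty (by simp [h])] with s hs hcs
    obtain ⟨y, hy⟩ := hcs.nonempty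
    exact hs y hy
  have hp : ¬ IsPreconnected (M t) := fun h' => hc ⟨h, h'⟩
  rw [isPreconnected_iff_subset_of_fully_disjoint_closed (mcf_compact hM ht).isClosed] at hp
  push Not at hp
  obtain ⟨u, v, hu, hv, huv, hd, hnu, hnv⟩ := hp
  obtain ⟨U, W, hU, hW, huU, hvW, hUW⟩ := normal_separation hu hv hd
  obtain ⟨a, ha, hau⟩ := not_subset.1 hnu
  obtain ⟨b, hb, hbv⟩ := not_subset.1 hnv
  have haW : a ∈ W := hvW ((huv ha).resolve_left hau)
  have hbU : b ∈ U := huU ((huv hb).resolve_right hbv)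
  filter_upwards [mcf_proper hM ht ((hU.union hW).preimage continuous_fst)
      (fun y hy => (huv hy).imp (fun h => huU h) fun h => hvW h),
    mcf_open hM ht ha ((hW.preimage continuous_fst).mem_nhds haW),
    mcf_open hM ht hb ((hU.preimage continuous_fst).mem_nhds hbU)] with s h1 h2 h3 hcs
  obtain ⟨p, hp, hpW⟩ := h2
  obtain ⟨q, hq, hqU⟩ := h3
  obtain ⟨y, -, hyU, hyW⟩ := hcs.isPreconnected U W hU hW h1 ⟨q, hq, hqU⟩ ⟨p, hp, hpW⟩
  exact hUW.le_bot ⟨hyU, hyW⟩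

/-- **G5**: all slices are connected -/
theorem mcf_connected (hM : IsSmoothMCF M T) (hconn : IsConnected (M 0)) {t : ℝ}
    (ht : t ∈ Ico 0 T) : IsConnected (M t) := by
  have h0 : (0 : ℝ) ∈ Ico 0 T := ⟨le_rfl, ht.1.trans_lt ht.2⟩
  refine isPreconnected_Ico.induction₂' (fun s s' => IsConnected (M s) → IsConnected (M s'))
    ?_ (fun _ _ _ _ _ _ h1 h2 h => h2 (h1 h)) h0 ht hconn
  intro s hs
  by_cases hc : IsConnected (M s)
  · filter_upwards [mcf_conn_near hM hs hc] with s' hs' using ⟨fun _ => hs', fun _ => hc⟩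
  · filter_upwards [mcf_nconn_near hM hs hc] with s' hs'
      using ⟨fun h => absurd h hc, fun h => absurd h hs'⟩

end Crest.Agent.N250.GB
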