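import Crest.Agent.N250.GB.Defs
import Crest.Agent.N222.F.Ker

/-!
# Row 250, local Gauss-Bonnet: the assembly `IdxS`, `IntS`, `LgbS` (helper61)
-/

set_option autoImplicit false
set_option linter.unusedSectionVars false
set_option linter.unusedVariables false
set_option maxHeartbeats 400000
open MeasureTheory Set Filter Topology Function
open scoped ContDiff RealInnerProductSpace

noncomputable section

namespace Crest.Agent.N250.GB

open Crest.Agent.N222

namespace Asm

variable {X : Type} [TopologicalSpace X] [T2Space X] [CompactSpace X] [SecondCountableTopology X]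
  [MeasurableSpace X] [BorelSpace X] {M : Imm 2 (Fin 3) X} {f : X → ℝ}

lemma mu_pt (M : Imm 2 (Fin 3) X) (p : X) : M.mu {p} = 0 := by
  rw [Imm.mu_chart (M.isChart p) (singleton_subset_iff.2 (M.mem p)) (measurableSet_singleton p),
    image_singleton]
  exact setLIntegral_measure_zero _ _ (measure_singleton _)

lemma intg (hf : Continuous f) : Integrable f M.mu :=
  hf.integrable_of_hasCompactSupport (HasCompactSupport.of_compactSpace f)

lemma cont_a2 (M : Imm 2 (Fin 3) X) : Continuous (a2 M) :=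
  continuous_finsetSum _ fun a _ => continuous_finsetSum _ fun b _ =>
    continuous_finsetSum _ fun c _ => (M.sm_II a b c).continuous.pow 2

lemma cont_h2 (M : Imm 2 (Fin 3) X) : Continuous (h2 M) :=
  continuous_finsetSum _ fun c _ => (M.sm_H c).continuous.pow 2

lemma cont_nS (hf : M.Sm f) : Continuous (nS M f) :=
  (continuous_finsetSum _ fun a _ => continuous_finsetSum _ fun b _ =>
    (hf.hess a b).continuous.pow 2).sqrt

lemma cont_Gf (hf : M.Sm f) : Continuous (Gf M f) :=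
  (cont_nS hf).add ((cont_a2 M).sqrt.mul hf.grad.continuous.norm)

lemma a2_nonneg (p : X) : 0 ≤ a2 M p := by unfold a2; positivity

lemma h2_nonneg (p : X) : 0 ≤ h2 M p := by unfold h2; positivity

lemma scal_eq (p : X) : M.pre.scal p = h2 M p - a2 M p := by
  have := congrArg M.val M.isDS.scal_eq
  simp only [map_sub, map_sum, map_mul, M.hom.scal, M.hom.H, M.hom.II] at this
  simpa [h2, a2, sq] using congrFun this p

lemma kap_nonneg : 0 ≤ kap :=
  mul_nonneg zero_le_two (integral_nonneg fun y => by positivity)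

lemma norm_grad_sq (y : E (Fin 3)) (p : X) :
    ‖M.grad (fun q => ‖M.x q - y‖ ^ 2) p‖ ≤ 2 * ‖M.x p - y‖ := by
  have e : M.grad (fun q => ‖M.x q - y‖ ^ 2) p = (2 : ℝ) • M.PL p (M.x p - y) := by
    ext c
    exact Imm.D_normSq y c p
  rw [e, norm_smul, Real.norm_two]
  exact mul_le_mul_of_nonneg_left (M.norm_PL_le _ _) two_pos.le

lemma hess_sq (y : E (Fin 3)) (p : X) (a b : Fin 3) :
    M.pre.hess (fun q => ‖M.x q - y‖ ^ 2) a b p =
      2 * ⟪M.PL p (ee a), M.PL p (ee b)⟫ + 2 * ∑ c, (M.x p - y) c * M.pre.II a b c p := by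
  have h1 : fderiv ℝ (fun w : E (Fin 3) => ‖w - y‖ ^ 2) =
      fun w => (2 : ℝ) • innerSL ℝ (w - y) := funext fun w => by
    have := ((hasFDerivAt_id w).sub_const y).norm_sq.fderiv
    simpa [two_smul] using this
  have h2 : HasFDerivAt (fun w : E (Fin 3) => (2 : ℝ) • innerSL ℝ (w - y))
      ((2 : ℝ) • (innerSL ℝ (E := E (Fin 3))).toLinearMap.toContinuousLinearMap) (M.x p) := by
    have := ((innerSL ℝ (E := E (Fin 3))).toLinearMap.toContinuousLinearMap.hasFDerivAt.comp (M.x p)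
      ((hasFDerivAt_id (M.x p)).sub_const y)).const_smul (2 : ℝ)
    rwa [ContinuousLinearMap.comp_id] at this
  rw [Imm.hess_amb (φ := fun w => ‖w - y‖ ^ 2)
    ((contDiff_id.sub contDiff_const).norm_sq ℝ).contDiffAt, h1, h2.fderiv, Finset.mul_sum]
  congr 1
  refine Finset.sum_congr rfl fun c _ => ?_
  simp [EuclideanSpace.inner_single_right, mul_assoc]

lemma nS_sq (y : E (Fin 3)) (p : X) :
    nS M (fun q => ‖M.x q - y‖ ^ 2) p ≤ 9 + 3 * ‖M.x p - y‖ * √(a2 M p) := by
  have h1 : ∀ a b, M.pre.hess (fun q => ‖M.x q - y‖ ^ 2) a b p ^ 2 ≤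
      8 + 8 * ‖M.x p - y‖ ^ 2 * ∑ c, M.pre.II a b c p ^ 2 := fun a b => by
    have e : ∀ a, ‖M.PL p (ee a)‖ ≤ 1 := fun a => (M.norm_PL_le _ _).trans (by simp)
    have h2 : |⟪M.PL p (ee a), M.PL p (ee b)⟫| ≤ 1 :=
      (abs_real_inner_le_norm _ _).trans (mul_le_one₀ (e a) (norm_nonneg _) (e b))
    have h3 := Finset.sum_mul_sq_le_sq_mul_sq Finset.univ (fun c => (M.x p - y) c)
      fun c => M.pre.II a b c p
    rw [← EuclideanSpace.real_norm_sq_eq] at h3
    rw [hess_sq]
    nlinarith [sq_le_one_iff_abs_le_one _ |>.2 h2, sq_nonneg (⟪M.PL p (ee a), M.PL p (ee b)⟫ -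
      ∑ c, (M.x p - y) c * M.pre.II a b c p)]
  have h2 : ∑ a, ∑ b, M.pre.hess (fun q => ‖M.x q - y‖ ^ 2) a b p ^ 2 ≤
      72 + 8 * ‖M.x p - y‖ ^ 2 * a2 M p := by
    refine (Finset.sum_le_sum fun a _ => Finset.sum_le_sum fun b _ => h1 a b).trans (le_of_eq ?_)
    simp only [Finset.sum_add_distrib, ← Finset.mul_sum, a2]
    norm_num
  have h3 := Real.sq_sqrt (a2_nonneg (M := M) p)
  have h4 : 0 ≤ ‖M.x p - y‖ * √(a2 M p) := by positivity
  refine Real.sqrt_le_iff.2 ⟨by positivity, h2.trans ?_⟩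
  nlinarith [sq_nonneg (‖M.x p - y‖ * √(a2 M p))]

end Asm

open Asm

theorem idxS_of (hB : BoS) (hL : BlS) : IdxS := by
  intro X _ _ _ _ _ _ M f C hM ψ hψ
  have hc : Continuous fun p => ψ (f p) := hψ.continuous.comp hM.sm.continuous
  have hs := hc.mul M.sm_scal.continuous
  have hg := hM.sm.grad.continuous
  have h1 := hL.2 X M f C hM _ hc
  have h2 : Tendsto (fun ε : ℝ => ∫ p, ψ (f p) * M.pre.scal p *
      (‖M.grad f p‖ ^ 2 / (‖M.grad f p‖ ^ 2 + ε ^ 2)) ∂M.mu) (𝓝[>] 0)
      (𝓝 (∫ p, ψ (f p) * M.pre.scal p ∂M.mu)) := by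
    refine tendsto_integral_filter_of_dominated_convergence (fun p => |ψ (f p) * M.pre.scal p|)
      (.of_forall fun ε => (hs.measurable.mul ((hg.norm.pow 2).measurable.div
        ((hg.norm.pow 2).add continuous_const).measurable)).aestronglyMeasurable)
      (.of_forall fun ε => .of_forall fun p => ?_) (intg hs.abs) ?_
    · rw [Real.norm_eq_abs, abs_mul _ (_ / _)]
      refine mul_le_of_le_one_right (abs_nonneg _) ?_
      rw [abs_of_nonneg (by positivity)]
      exact div_le_one_of_le₀ (by nlinarith [sq_nonneg ε]) (by positivity)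
    · have h0 : M.mu (C : Set X) = 0 := by
        rw [← biUnion_of_singleton (C : Set X)]
        exact (measure_biUnion_null_iff C.countable_toSet).2 fun p _ => mu_pt M p
      filter_upwards [compl_mem_ae_iff.2 h0] with p hp
      have h3 : ‖M.grad f p‖ ^ 2 ≠ 0 :=
        pow_ne_zero 2 (norm_ne_zero_iff.2 fun h => hp ((hM.crit p).2 h))
      have h4 : ContinuousAt (fun ε : ℝ => ψ (f p) * M.pre.scal p *
          (‖M.grad f p‖ ^ 2 / (‖M.grad f p‖ ^ 2 + ε ^ 2))) 0 :=
        continuousAt_const.mul (continuousAt_const.div (by fun_prop) (by simpa using h3))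
      have h5 := h4.tendsto.mono_left (nhdsWithin_le_nhds (s := Ioi 0))
      simpa [div_self h3] using h5
  rw [mul_assoc]
  exact le_of_tendsto (h2.sub (h1.const_mul 2)).abs
    (eventually_nhdsWithin_of_forall fun ε hε => hB X M f hM.sm ψ hψ ε hε)

theorem intS_of (hI : IdxS) (hS : SardS) : IntS := by
  intro X _ _ _ _ _ _ M
  obtain ⟨y, C, -, hM⟩ := hS X M 0 1 one_pos
  have h := hI X M _ C hM (fun _ => 1) contDiff_const
  simp only [one_mul, mul_one, deriv_const', abs_zero, zero_mul, integral_zero, mul_zero,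
    abs_nonpos_iff, sub_eq_zero] at h
  classical
  refine ⟨∑ p ∈ C, if 0 < dS M (fun p => ‖M.x p - y‖ ^ 2) p then 1 else -1, ?_⟩
  rw [h]
  simp [sg]

theorem lgbS_of (hI : IdxS) (hX : IxS) (hS : SardS) (hP : SepS) : LgbS := by
  obtain ⟨c, hc, hX⟩ := hX
  obtain ⟨L, hL, hΦ⟩ := exists_deriv_Phi_le
  have hk := kap_nonneg
  set K := (2 * kap * c + 20) * L with hK
  have K0 : 0 < K := by positivity
  refine ⟨2 * (1 + 10 * K + 72 * K ^ 2), by positivity, fun X _ _ _ _ _ _ M hconn y r hr => ?_⟩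
  have hx := M.continuous_x
  have mB : ∀ s : ℝ, MeasurableSet {p | ‖M.x p - y‖ < s} := fun s =>
    (isOpen_lt (by fun_prop) continuous_const).measurableSet
  set A := ∫ p in {p | ‖M.x p - y‖ < 2 * r}, h2 M p ∂M.mu with hA
  set V := M.mu.real {p | ‖M.x p - y‖ < 2 * r} / r ^ 2 with hV
  have A0 : 0 ≤ A := integral_nonneg h2_nonneg
  have V0 : 0 ≤ V := by positivity
  rcases eq_empty_or_nonempty {p | ‖M.x p - y‖ < r} with h0 | ⟨p0, hp0⟩
  · rw [h0, setIntegral_empty]
    positivity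
  obtain ⟨y', C, hy, hM⟩ := hS X M y (r / 20) (by positivity)
  obtain ⟨g, hg, hinj, hη⟩ := hP X M _ C hM (min (r ^ 2 / 4) (min r 1)) (by positivity)
  have e1 : min (r ^ 2 / 4) (min r 1) ≤ r ^ 2 / 4 := min_le_left _ _
  have e2 : min (r ^ 2 / 4) (min r 1) ≤ r := (min_le_right _ _).trans (min_le_left _ _)
  have e3 : min (r ^ 2 / 4) (min r 1) ≤ 1 := (min_le_right _ _).trans (min_le_right _ _)
  have d1 : ∀ p, ‖M.x p - y'‖ ≤ ‖M.x p - y‖ + r / 20 := fun p => by
    have := norm_sub_le_norm_sub_add_norm_sub (M.x p) y y'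
    rw [norm_sub_rev y] at this
    linarith
  have d2 : ∀ p, ‖M.x p - y‖ ≤ ‖M.x p - y'‖ + r / 20 := fun p => by
    have := norm_sub_le_norm_sub_add_norm_sub (M.x p) y' y
    linarith
  have g1 : ∀ p, ‖M.x p - y‖ < r → g p < 3 / 2 * r ^ 2 := fun p hp => by
    have := (abs_le.1 (hη p).1).2
    nlinarith [d1 p, norm_nonneg (M.x p - y')]
  have g2 : ∀ p, 2 * r ≤ ‖M.x p - y‖ → 3 * r ^ 2 ≤ g p := fun p hp => by
    have := (abs_le.1 (hη p).1).1
    nlinarith [d2 p]
  have R0 : 0 < 3 * r ^ 2 := by positivity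
  set ψ : ℝ → ℝ := fun s => 1 - Phi (s / (3 * r ^ 2)) ^ 2 with hψ
  have sψ : ContDiff ℝ ∞ ψ :=
    contDiff_const.sub ((contDiff_Phi.comp (contDiff_id.div_const _)).pow 2)
  have dψ : ∀ s, deriv ψ s =
      2 * Phi (s / (3 * r ^ 2)) * -deriv Phi (s / (3 * r ^ 2)) / (3 * r ^ 2) := fun s => by
    have := (((hasDerivAt_Phi _).comp s ((hasDerivAt_id s).div_const (3 * r ^ 2))).pow 2).const_sub 1
    refine (this.congr_deriv ?_).deriv
    simp only [Function.comp_apply, id]
    norm_num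
    ring
  have ψ0 : ∀ s, 0 ≤ deriv ψ s := fun s => by
    rw [dψ]
    exact div_nonneg (mul_nonneg (mul_nonneg zero_le_two (Phi_nonneg _))
      (neg_nonneg.2 (deriv_Phi_nonpos _))) R0.le
  have l1 : ∀ s ≤ 3 / 2 * r ^ 2, Phi (s / (3 * r ^ 2)) = 1 := fun s hs =>
    Phi_eq_one (by rw [div_le_iff₀ R0]; linarith)
  have l0 : ∀ p, ¬‖M.x p - y‖ < 2 * r → Phi (g p / (3 * r ^ 2)) = 0 := fun p hp =>
    Phi_eq_zero (by rw [le_div_iff₀ R0]; linarith [g2 p (not_lt.1 hp)])
  have i1 := hI X M g C hg ψ sψ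
  have i2 := hX X M hconn g C hg hinj ψ sψ ψ0
    ⟨p0, _, g1 p0 hp0, fun s hs => by simp only [hψ, l1 s hs]; norm_num⟩
  have cg := hg.sm.continuous
  have cl : Continuous fun p => Phi (g p / (3 * r ^ 2)) ^ 2 :=
    (contDiff_Phi.continuous.comp (cg.div_const _)).pow 2
  have cd : Continuous fun p => deriv ψ (g p) := (sψ.continuous_deriv (by simp)).comp cg
  set W := ∫ p, deriv ψ (g p) * Gf M g p ∂M.mu with hW
  set Q := ∫ p, Phi (g p / (3 * r ^ 2)) ^ 2 * a2 M p ∂M.mu with hQ
  have iQ : Integrable (fun p => Phi (g p / (3 * r ^ 2)) ^ 2 * a2 M p) M.mu :=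
    intg (cl.mul (cont_a2 M))
  have iH : Integrable (fun p => Phi (g p / (3 * r ^ 2)) ^ 2 * h2 M p) M.mu :=
    intg (cl.mul (cont_h2 M))
  have iW : Integrable (fun p => deriv ψ (g p) * Gf M g p) M.mu := intg (cd.mul (cont_Gf hg.sm))
  have j1 : ∫ p, |deriv ψ (g p)| * nS M g p ∂M.mu ≤ W :=
    integral_mono (intg (cd.abs.mul (cont_nS hg.sm))) iW fun p => by
      simp only [abs_of_nonneg (ψ0 _), Gf]
      exact mul_le_mul_of_nonneg_left (le_add_of_nonneg_right (by positivity)) (ψ0 _)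
  have j2 : ∫ p, ψ (g p) * M.pre.scal p ∂M.mu = (∫ p, M.pre.scal p ∂M.mu) -
      (∫ p, Phi (g p / (3 * r ^ 2)) ^ 2 * h2 M p ∂M.mu) + Q := by
    have i4 : Integrable (fun p => M.pre.scal p - Phi (g p / (3 * r ^ 2)) ^ 2 * h2 M p) M.mu :=
      (intg M.sm_scal.continuous).sub iH
    rw [← integral_sub (intg M.sm_scal.continuous) iH, hQ, ← integral_add i4 iQ]
    refine integral_congr_ae (.of_forall fun p => ?_)
    simp only [hψ, scal_eq]
    ring
  have j3 : ∫ p, Phi (g p / (3 * r ^ 2)) ^ 2 * h2 M p ∂M.mu ≤ A := by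
    rw [hA, ← integral_indicator (mB _)]
    refine integral_mono iH ((intg (cont_h2 M)).indicator (mB _)) fun p => ?_
    by_cases hp : ‖M.x p - y‖ < 2 * r
    · rw [indicator_of_mem (by exact hp)]
      exact mul_le_of_le_one_left (h2_nonneg p) (pow_le_one₀ (Phi_nonneg _) (Phi_le_one _))
    · rw [indicator_of_notMem (by exact hp)]
      simp [l0 p hp]
  have j4 : ∫ p in {p | ‖M.x p - y‖ < r}, a2 M p ∂M.mu ≤ Q := by
    rw [← integral_indicator (mB _)]
    refine integral_mono ((intg (cont_a2 M)).indicator (mB _)) iQ fun p => ?_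
    by_cases hp : ‖M.x p - y‖ < r
    · rw [indicator_of_mem (by exact hp)]
      simp [l1 _ (g1 p hp).le]
    · rw [indicator_of_notMem (by exact hp)]
      exact mul_nonneg (sq_nonneg _) (a2_nonneg p)
  have j5 : (2 * kap * c + 20) * W ≤ (10 * K + 72 * K ^ 2) * V + 1 / 2 * Q := by
    have i3 : Integrable (indicator {p | ‖M.x p - y‖ < 2 * r}
        fun _ => (10 * K + 72 * K ^ 2) / r ^ 2) M.mu := (integrable_const _).indicator (mB _)
    have e : (10 * K + 72 * K ^ 2) * V = ∫ p, indicator {p | ‖M.x p - y‖ < 2 * r}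
        (fun _ => (10 * K + 72 * K ^ 2) / r ^ 2) p ∂M.mu := by
      rw [integral_indicator (mB _), setIntegral_const, smul_eq_mul, hV]
      ring
    rw [e, hW, hQ, ← integral_const_mul, ← integral_const_mul, ← integral_add i3 (iQ.const_mul _)]
    refine integral_mono (iW.const_mul _) (i3.add (iQ.const_mul _)) fun p => ?_
    by_cases hp : ‖M.x p - y‖ < 2 * r
    · simp only [indicator_of_mem (show p ∈ {p | ‖M.x p - y‖ < 2 * r} from hp)]
      have s0 := Real.sqrt_nonneg (a2 M p)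
      have s2 := Real.sq_sqrt (a2_nonneg (M := M) p)
      have hG : Gf M g p ≤ 10 + 12 * r * √(a2 M p) := by
        have b1 := (hη p).2.1
        have b2 := (hη p).2.2
        have b3 := norm_grad_sq (M := M) y' p
        have b4 := nS_sq (M := M) y' p
        have b5 : ‖M.grad g p‖ + 3 * ‖M.x p - y'‖ ≤ 12 * r := by linarith [d1 p]
        have b6 := mul_le_mul_of_nonneg_left b5 s0
        unfold Gf
        linarith
      have G0 : 0 ≤ Gf M g p := add_nonneg (Real.sqrt_nonneg _) (by positivity)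
      have p0 := Phi_nonneg (g p / (3 * r ^ 2))
      have p1 := Phi_le_one (g p / (3 * r ^ 2))
      have hD : deriv ψ (g p) ≤ Phi (g p / (3 * r ^ 2)) * L / r ^ 2 := by
        rw [dψ, div_le_div_iff₀ R0 (by positivity)]
        have := mul_le_mul_of_nonneg_left ((neg_le_abs _).trans (hΦ (g p / (3 * r ^ 2)))) p0
        nlinarith [mul_nonneg p0 hL.le]
      generalize Phi (g p / (3 * r ^ 2)) = l at *
      generalize √(a2 M p) = s at *
      rw [← s2]
      refine (mul_le_mul_of_nonneg_left (mul_le_mul hD hG G0 (by positivity))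
        (by positivity)).trans ?_
      have e : (2 * kap * c + 20) * (l * L / r ^ 2 * (10 + 12 * r * s)) =
          (10 * K * l + 12 * K * (l * s * r)) / r ^ 2 := by
        rw [hK]; ring
      rw [e, div_add' _ _ _ (by positivity), div_le_div_iff_of_pos_right (by positivity)]
      nlinarith [sq_nonneg (l * s * r - 12 * K), mul_le_mul_of_nonneg_left p1 K0.le]
    · simp [indicator_of_notMem (show p ∉ {p | ‖M.x p - y‖ < 2 * r} from hp), dψ, l0 p hp]
  have j6 := mul_le_mul_of_nonneg_left i2 (mul_nonneg zero_le_two hk)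
  have j7 := (abs_le.1 i1).2
  have j8 := neg_abs_le (∫ p, M.pre.scal p ∂M.mu)
  have j9 := abs_nonneg (∫ p, M.pre.scal p ∂M.mu)
  have K1 : 0 ≤ 10 * K + 72 * K ^ 2 := by positivity
  nlinarith [mul_nonneg K1 A0, mul_nonneg K1 j9]

end Crest.Agent.N250.GB

end
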