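import Crest.Agent.N250.GB.Defs
import Crest.Agent.N222.F.Bump

/-!
Row 250, local Gauss-Bonnet, leaf G2 (helper58): concentration at the critical points.
-/

set_option autoImplicit false
set_option linter.unusedSectionVars false
open MeasureTheory Set Filter Topology Function
open scoped ContDiff InnerProductSpace RealInnerProductSpace

noncomputable section

namespace Crest.Agent.N250.GB

open Crest.Agent.N222

namespace Bl

theorem exists_iso {J : E (Fin 2) →L[ℝ] E (Fin 3)} (hJ : Injective J) :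
    ∃ (U : E (Fin 2) →L[ℝ] E (Fin 3)) (J' : E (Fin 2) →L[ℝ] E (Fin 2)),
      (∀ x, ‖U x‖ = ‖x‖) ∧ J = U ∘L J' ∧ Surjective J' := by
  set R : Submodule ℝ (E (Fin 3)) := LinearMap.range (J : E (Fin 2) →ₗ[ℝ] E (Fin 3)) with hR
  have hr : Module.finrank ℝ R = 2 := by
    rw [hR, LinearMap.finrank_range_of_inj hJ]
    simp
  let φ : R ≃ₗᵢ[ℝ] E (Fin 2) := ((stdOrthonormalBasis ℝ R).reindex (finCongr hr)).repr
  refine ⟨R.subtypeL ∘L (φ.symm : E (Fin 2) →L[ℝ] R),
    (φ : R →L[ℝ] E (Fin 2)) ∘L J.codRestrict R (fun x => ⟨x, rfl⟩), fun x => ?_, ?_, fun y => ?_⟩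
  · exact φ.symm.norm_map x
  · ext1 x
    exact (congrArg Subtype.val (φ.symm_apply_apply (J.codRestrict R (fun x => ⟨x, rfl⟩) x))).symm
  · obtain ⟨x, hx⟩ := (φ.symm y).2
    refine ⟨x, ?_⟩
    have : J.codRestrict R (fun x => ⟨x, rfl⟩) x = φ.symm y := Subtype.ext hx
    simp [this]

theorem jac_iso {U : E (Fin 2) →L[ℝ] E (Fin 3)} (hU : ∀ x, ‖U x‖ = ‖x‖)
    (T : E (Fin 2) →L[ℝ] E (Fin 2)) : jac (U ∘L T) = |T.det| := by
  rw [jac_comp, jac, U.norm_map_iff_adjoint_comp_self.1 hU]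
  simp [ContinuousLinearMap.det]

theorem det_two (T : E (Fin 2) →L[ℝ] E (Fin 2)) :
    T.det = T (ee 0) 0 * T (ee 1) 1 - T (ee 1) 0 * T (ee 0) 1 := by
  rw [ContinuousLinearMap.det, ← LinearMap.det_toMatrix (EuclideanSpace.basisFun (Fin 2) ℝ).toBasis,
    Matrix.det_fin_two]
  simp [LinearMap.toMatrix_apply]

theorem int_lin {T : E (Fin 2) →L[ℝ] E (Fin 2)} (h : T.det ≠ 0) {g : E (Fin 2) → ℝ}
    (hg : Continuous g) : ∫ y, g (T y) = |T.det|⁻¹ * ∫ y, g y := by
  have h1 := Measure.map_linearMap_addHaar_eq_smul_addHaar (volume : Measure (E (Fin 2)))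
    (f := (T : E (Fin 2) →ₗ[ℝ] E (Fin 2))) h
  have h2 := integral_map (μ := (volume : Measure (E (Fin 2)))) (φ := T) (f := g)
    T.continuous.aemeasurable hg.aestronglyMeasurable
  rw [← h2]
  change ∫ y, g y ∂(Measure.map (T : E (Fin 2) →ₗ[ℝ] E (Fin 2)) volume) = _
  rw [h1, integral_smul_measure, ENNReal.toReal_ofReal (abs_nonneg _), abs_inv, smul_eq_mul]

theorem cont_ker : Continuous fun y : E (Fin 2) => ((‖y‖ ^ 2 + 1) ^ 2)⁻¹ :=
  Continuous.inv₀ (by fun_prop) fun y => by positivity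

theorem int_ker : Integrable fun y : E (Fin 2) => ((‖y‖ ^ 2 + 1) ^ 2)⁻¹ := by
  have h := integrable_rpow_neg_one_add_norm_sq (E := E (Fin 2)) (μ := volume) (r := 4)
    (by simp; norm_num)
  refine h.congr (Eventually.of_forall fun y => ?_)
  have : (-4 / 2 : ℝ) = -((2 : ℕ) : ℝ) := by norm_num
  simp only
  rw [this, Real.rpow_neg (by positivity), Real.rpow_natCast, add_comm]

theorem kap_pos : 0 < kap := by
  refine mul_pos two_pos (integral_pos_of_integrable_nonneg_nonzero (x := 0) cont_ker int_ker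
    (fun y => by positivity) (by simp))

theorem lower {G : E (Fin 2) → E (Fin 3)} {K : Set (E (Fin 2))} (hK : IsCompact K)
    {z₀ : E (Fin 2)} {T : E (Fin 2) →L[ℝ] E (Fin 3)} (hG : ContinuousOn G K) (h0 : G z₀ = 0)
    (hT : HasFDerivAt G T z₀) (hinj : Injective T) (hne : ∀ z ∈ K, z ≠ z₀ → G z ≠ 0) :
    ∃ c : ℝ, 0 < c ∧ ∀ z ∈ K, ‖z - z₀‖ ≤ c * ‖G z‖ := by
  obtain ⟨k, hk, hA⟩ := (T : E (Fin 2) →ₗ[ℝ] E (Fin 3)).exists_antilipschitzWith
    (LinearMap.ker_eq_bot.2 hinj)
  have hk' : (0 : ℝ) < k := hk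
  have hA' : ∀ y, ‖y‖ ≤ k * ‖T y‖ := fun y => by
    simpa using hA.le_mul_dist y 0
  obtain ⟨δ, hδ, hb⟩ := Metric.eventually_nhds_iff_ball.1
    (hT.isLittleO.bound (c := 1 / (2 * k)) (by positivity))
  have hK' : IsCompact (K \ Metric.ball z₀ δ) := hK.diff Metric.isOpen_ball
  have hne' : ∀ z ∈ K \ Metric.ball z₀ δ, ‖G z‖ ≠ 0 := fun z hz =>
    norm_ne_zero_iff.2 (hne z hz.1 fun h => hz.2 (h ▸ Metric.mem_ball_self hδ))
  obtain ⟨B, hB⟩ := hK'.exists_bound_of_continuousOn (f := fun z => ‖z - z₀‖ / ‖G z‖)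
    (ContinuousOn.div (by fun_prop) (hG.mono sdiff_subset).norm hne')
  refine ⟨2 * k + |B|, by positivity, fun z hz => ?_⟩
  by_cases hz' : z ∈ Metric.ball z₀ δ
  · have h1 := hb z hz'
    rw [h0, sub_zero] at h1
    have h2 : ‖T (z - z₀)‖ ≤ ‖G z‖ + ‖G z - T (z - z₀)‖ := by
      calc ‖T (z - z₀)‖ = ‖G z - (G z - T (z - z₀))‖ := by congr 1; abel
        _ ≤ _ := norm_sub_le _ _
    have h3 := hA' (z - z₀)
    have h4 : k * (1 / (2 * k) * ‖z - z₀‖) = ‖z - z₀‖ / 2 := by field_simp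
    have h5 : (k : ℝ) * ‖T (z - z₀)‖ ≤ k * (‖G z‖ + 1 / (2 * k) * ‖z - z₀‖) := by
      gcongr
      linarith
    have h6 := mul_nonneg (abs_nonneg B) (norm_nonneg (G z))
    nlinarith
  · have h1 := hB z ⟨hz, hz'⟩
    have h2 : 0 < ‖G z‖ := (norm_nonneg _).lt_of_ne' (hne' z ⟨hz, hz'⟩)
    rw [Real.norm_eq_abs, abs_of_nonneg (by positivity), div_le_iff₀ h2] at h1
    have h3 := le_abs_self B
    nlinarith

theorem blow {G : E (Fin 2) → E (Fin 3)} {w : E (Fin 2) → ℝ} {O : Set (E (Fin 2))}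
    (hO : IsOpen O) (hw : Continuous w) (hc : HasCompactSupport w) (hs : tsupport w ⊆ O)
    {z₀ : E (Fin 2)} {T : E (Fin 2) →L[ℝ] E (Fin 3)} (hG : ContinuousOn G O) (h0 : G z₀ = 0)
    (hT : HasFDerivAt G T z₀) (hinj : Injective T) (hne : ∀ z ∈ tsupport w, z ≠ z₀ → G z ≠ 0) :
    Tendsto (fun ε : ℝ => ∫ z, w z * (ε ^ 2 / (‖G z‖ ^ 2 + ε ^ 2) ^ 2)) (𝓝[>] 0)
      (𝓝 (w z₀ * ∫ y, ((‖T y‖ ^ 2 + 1) ^ 2)⁻¹)) := by
  obtain ⟨c, hc0, hl⟩ := lower hc.isCompact (hG.mono hs) h0 hT hinj hne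
  obtain ⟨B, hB⟩ := hw.bounded_above_of_compact_support hc
  let g : ℝ → E (Fin 2) → ℝ := fun ε z => w z * (ε ^ 2 / (‖G z‖ ^ 2 + ε ^ 2) ^ 2)
  let F : ℝ → E (Fin 2) → ℝ := fun ε y =>
    w (z₀ + ε • y) * ((‖ε⁻¹ • (G (z₀ + ε • y) - G z₀)‖ ^ 2 + 1) ^ 2)⁻¹
  have hFg : ∀ ε : ℝ, 0 < ε → ∀ y, F ε y = ε ^ 2 * g ε (z₀ + ε • y) := by
    intro ε hε y
    simp only [F, g, h0, sub_zero, norm_smul, norm_inv, Real.norm_eq_abs, abs_of_pos hε]
    field_simp
  have hgc : ∀ ε : ℝ, 0 < ε → Continuous (g ε) := by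
    intro ε hε
    refine ContinuousOn.continuous_of_tsupport_subset (s := O) ?_ hO
      (tsupport_mul_subset_left.trans hs)
    refine hw.continuousOn.mul (continuousOn_const.div (((hG.norm.pow 2).add
      continuousOn_const).pow 2) fun z _ => by positivity)
  have hint : ∀ ε : ℝ, 0 < ε → ∫ z, g ε z = ∫ y, F ε y := by
    intro ε hε
    simp only [hFg ε hε]
    rw [integral_const_mul, Measure.integral_comp_smul volume (fun z => g ε (z₀ + z)) ε,
      integral_add_left_eq_self]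
    simp only [finrank_euclideanSpace, Fintype.card_fin, smul_eq_mul]
    rw [abs_of_pos (by positivity)]
    field_simp
  rw [← integral_const_mul]
  refine Tendsto.congr' (f₁ := fun ε => ∫ y, F ε y) ?_ ?_
  · filter_upwards [self_mem_nhdsWithin] with ε hε using (hint ε hε).symm
  refine tendsto_integral_filter_of_dominated_convergence
    (fun y => B * ((‖c⁻¹ • y‖ ^ 2 + 1) ^ 2)⁻¹) ?_ ?_ ?_ ?_
  · filter_upwards [self_mem_nhdsWithin] with ε hε
    have : F ε = fun y => ε ^ 2 * g ε (z₀ + ε • y) := funext (hFg ε hε)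
    rw [this]
    exact (continuous_const.mul ((hgc ε hε).comp (by fun_prop))).aestronglyMeasurable
  · filter_upwards [self_mem_nhdsWithin] with ε hε
    have hε' : 0 < ε := hε
    refine Eventually.of_forall fun y => ?_
    have hB0 : 0 ≤ B := (norm_nonneg _).trans (hB 0)
    by_cases hz : z₀ + ε • y ∈ tsupport w
    · have h1 := hl _ hz
      rw [add_sub_cancel_left, norm_smul, Real.norm_eq_abs, abs_of_pos hε'] at h1
      have h2 : ‖c⁻¹ • y‖ ≤ ‖ε⁻¹ • (G (z₀ + ε • y) - G z₀)‖ := by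
        rw [h0, sub_zero, norm_smul, norm_smul, norm_inv, norm_inv, Real.norm_eq_abs,
          Real.norm_eq_abs, abs_of_pos hε', abs_of_pos hc0, inv_mul_eq_div, inv_mul_eq_div,
          div_le_div_iff₀ hc0 hε']
        linarith
      simp only [F]
      rw [norm_mul, Real.norm_of_nonneg (r := _⁻¹) (by positivity)]
      gcongr
      exact hB _
    · simp only [F]
      rw [image_eq_zero_of_notMem_tsupport hz, zero_mul, norm_zero]
      positivity
  · exact (int_ker.comp_smul (inv_ne_zero hc0.ne')).const_mul B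
  · refine Eventually.of_forall fun y => ?_
    have h1 := (hT.hasLineDerivAt y).tendsto_slope_zero_right
    have h2 : Tendsto (fun ε : ℝ => w (z₀ + ε • y)) (𝓝[>] 0) (𝓝 (w z₀)) := by
      have : Continuous fun ε : ℝ => w (z₀ + ε • y) := by fun_prop
      simpa using (this.tendsto 0).mono_left nhdsWithin_le_nhds
    exact h2.mul ((((h1.norm.pow 2).add_const 1).pow 2).inv₀ (by positivity))

section Geo

variable {X : Type} [TopologicalSpace X] {M : Imm 2 (Fin 3) X} {f : X → ℝ} {p : X}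

theorem td_grad (hf : M.Sm f) (h0 : M.grad f p = 0) (w : E (Fin 3)) (c : Fin 3) :
    M.td (M.grad f) p w c = ∑ a, w a * M.pre.hess f a c p := by
  have h := Imm.td_comp (hf.grad.diffAt p) (g := EuclideanSpace.proj (𝕜 := ℝ) c)
    (EuclideanSpace.proj (𝕜 := ℝ) c).differentiableAt
  rw [ContinuousLinearMap.fderiv] at h
  have h1 : M.td (M.grad f) p w c = M.td (M.pre.D c f) p w :=
    (congrArg (fun T : E (Fin 3) →L[ℝ] ℝ => T w) h).symm
  rw [h1, Imm.td_apply]
  refine Finset.sum_congr rfl fun a _ => ?_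
  have h2 : ∀ c, M.pre.D c f p = 0 := fun c => congrArg (fun v : E (Fin 3) => v c) h0
  rw [Imm.DD hf]
  simp [h2]

/-- the linearised gradient at a critical point -/
theorem lin (hf : M.Sm f) (h0 : M.grad f p = 0) (hd : dS M f p ≠ 0) :
    Injective (M.td (M.grad f) p ∘L M.J p) ∧
    jac (M.J p) * dS M f p * ∫ y, ((‖(M.td (M.grad f) p ∘L M.J p) y‖ ^ 2 + 1) ^ 2)⁻¹ =
      kap * sg M f p := by
  obtain ⟨U, J', hU, hJ, hsurj⟩ := exists_iso (M.J_inj p)
  have hUU := U.norm_map_iff_adjoint_comp_self.1 hU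
  have hUi := U.inner_map_map_iff_adjoint_comp_self.2 hUU
  have hPL : ∀ w, M.PL p w = U (ContinuousLinearMap.adjoint U w) := by
    intro w
    obtain ⟨u, hu⟩ := hsurj (ContinuousLinearMap.adjoint U w)
    have h1 : M.J p u = U (ContinuousLinearMap.adjoint U w) := by rw [hJ]; simp [hu]
    rw [Imm.PL_eq, adj_Lam_eq_of (M.J_inj p) (u := u), h1]
    intro v
    rw [h1, hJ, ContinuousLinearMap.comp_apply, inner_sub_right, hUi,
      ContinuousLinearMap.adjoint_inner_right, sub_self]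
  set S := M.td (M.grad f) p with hS
  have hSc : ∀ w c, S w c = ∑ a, w a * M.pre.hess f a c p := td_grad hf h0
  have hsym : ∀ w w', ⟪S w, w'⟫ = ⟪w, S w'⟫ := by
    intro w w'
    simp only [PiLp.inner_apply, hSc, Fin.sum_univ_three, RCLike.inner_apply, conj_trivial,
      Imm.hess_symm hf 1 0, Imm.hess_symm hf 2 0, Imm.hess_symm hf 2 1]
    ring
  have hSP : ∀ w, S (M.PL p w) = S w := Imm.td_PL _ _
  have hPS : ∀ w, M.PL p (S w) = S w := fun w => by
    refine ext_inner_right ℝ fun w' => ?_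
    rw [M.PL_symm, hsym, hSP, hsym]
  set S' := ContinuousLinearMap.adjoint U ∘L S ∘L U with hS'
  have hSU : ∀ y, S (U y) = U (S' y) := fun y => by rw [← hPS, hPL]; rfl
  have hT : S ∘L M.J p = U ∘L (S' ∘L J') := by
    ext1 y
    rw [hJ]
    simp [hSU]
  have hadj : ∀ a i, ContinuousLinearMap.adjoint U (ee a) i = U (ee i) a := by
    intro a i
    have := ContinuousLinearMap.adjoint_inner_right U (ee i) (ee a)
    simpa [EuclideanSpace.inner_single_left, EuclideanSpace.inner_single_right] using this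
  have hh : ∀ a b, M.pre.hess f a b p =
      U (ee 0) a * (S' (ee 0) 0 * U (ee 0) b + S' (ee 0) 1 * U (ee 1) b) +
      U (ee 1) a * (S' (ee 1) 0 * U (ee 0) b + S' (ee 1) 1 * U (ee 1) b) := by
    intro a b
    have h1 : S (ee a) b = M.pre.hess f a b p := by
      rw [hSc]
      simp
    rw [← h1, ← hSP, hPL, hSU, eq_sum_ee (ContinuousLinearMap.adjoint U (ee a))]
    simp only [Fin.sum_univ_two, map_add, map_smul, hadj]
    rw [eq_sum_ee (S' (ee 0)), eq_sum_ee (S' (ee 1))]
    simp [Fin.sum_univ_two]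
    ring
  have hs01 : S' (ee 1) 0 = S' (ee 0) 1 := by
    have h1 := hsym (U (ee 1)) (U (ee 0))
    rw [hSU, hSU, hUi, hUi] at h1
    simpa [EuclideanSpace.inner_single_left, EuclideanSpace.inner_single_right] using h1
  have h00 := hUi (ee 0) (ee 0)
  have h01 := hUi (ee 0) (ee 1)
  have h11 := hUi (ee 1) (ee 1)
  rw [PiLp.inner_apply] at h00 h01 h11
  simp only [Fin.sum_univ_three, RCLike.inner_apply, conj_trivial,
    EuclideanSpace.inner_single_left, map_one, one_mul, PiLp.single_apply] at h00 h01 h11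
  norm_num at h00 h01 h11
  have hdS : dS M f p = 2 * S'.det := by
    rw [dS, ← Imm.tr_hess hf, det_two, hs01]
    simp only [hh, Fin.sum_univ_three, hs01]
    set s0 := S' (ee 0) 0
    set s1 := S' (ee 0) 1
    set s2 := S' (ee 1) 1
    set u0 := U (ee 0) 0
    set u1 := U (ee 0) 1
    set u2 := U (ee 0) 2
    set v0 := U (ee 1) 0
    set v1 := U (ee 1) 1
    set v2 := U (ee 1) 2
    have e : ∀ A B C : ℝ, A = u0 * u0 + u1 * u1 + u2 * u2 → B = v0 * u0 + v1 * u1 + v2 * u2 →
        C = v0 * v0 + v1 * v1 + v2 * v2 → A = 1 → B = 0 → C = 1 →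
        2 * (s0 * s2 - s1 * s1) * (A * C - B ^ 2) = 2 * (s0 * s2 - s1 * s1) := by
      rintro A B C - - - rfl rfl rfl
      ring
    rw [← e _ _ _ rfl rfl rfl h00 h01 h11]
    ring
  have hS0 : S'.det ≠ 0 := fun h => hd (by rw [hdS, h, mul_zero])
  have hJ0 : 0 < |J'.det| := by
    rw [← jac_iso hU, ← hJ]
    exact jac_pos (M.J_inj p)
  have hdet : (S' ∘L J').det = S'.det * J'.det := by
    simp [ContinuousLinearMap.det]
  have hdet0 : (S' ∘L J').det ≠ 0 := by
    rw [hdet]
    exact mul_ne_zero hS0 (abs_pos.1 hJ0)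
  constructor
  · rw [hT]
    have h1 : Injective U := fun a b h => by
      rw [← sub_eq_zero, ← norm_eq_zero, ← hU, map_sub, h, sub_self, norm_zero]
    have h2 : Injective (S' ∘L J') := by
      have := (LinearMap.equivOfDetNeZero (S' ∘L J' : E (Fin 2) →L[ℝ] E (Fin 2)).toLinearMap
        hdet0).injective
      exact this
    exact h1.comp h2
  · have h1 : ∀ y, ‖(S ∘L M.J p) y‖ = ‖(S' ∘L J') y‖ := fun y => by
      rw [hT, ContinuousLinearMap.comp_apply, hU]
    simp only [h1]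
    rw [int_lin hdet0 cont_ker, hdet, abs_mul, kap, sg, hdS]
    have h2 : jac (M.J p) = |J'.det| := by rw [← jac_iso hU, ← hJ]
    rw [h2]
    split_ifs with h
    · rw [abs_of_pos (by linarith : 0 < S'.det)]
      field_simp
    · rw [abs_of_neg (lt_of_le_of_ne (by linarith) hS0)]
      field_simp

end Geo

section Glob

variable {X : Type} [TopologicalSpace X] [T2Space X] [CompactSpace X] [SecondCountableTopology X]
  [MeasurableSpace X] [BorelSpace X] {M : Imm 2 (Fin 3) X} {f : X → ℝ} {C : Finset X}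

theorem cont_dS (hf : M.Sm f) : Continuous (dS M f) := by
  unfold dS
  refine (hf.lap.continuous.pow 2).sub (continuous_finsetSum _ fun a _ =>
    continuous_finsetSum _ fun b _ => (hf.hess a b).continuous.pow 2)

/-- the statement for one test function -/
def Q (M : Imm 2 (Fin 3) X) (f : X → ℝ) (C : Finset X) (φ : X → ℝ) : Prop :=
  Tendsto (fun ε : ℝ => ∫ p, φ p * dS M f p * (ε ^ 2 / (‖M.grad f p‖ ^ 2 + ε ^ 2) ^ 2) ∂M.mu)
    (𝓝[>] 0) (𝓝 (kap * ∑ p ∈ C, sg M f p * φ p))

theorem Q_reg (hf : Morse M f C) {φ : X → ℝ} (hφ : Continuous φ)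
    (hs : ∀ p ∈ tsupport φ, p ∉ C) : Q M f C φ := by
  have h0 : ∑ p ∈ C, sg M f p * φ p = 0 := Finset.sum_eq_zero fun p hp => by
    rw [image_eq_zero_of_notMem_tsupport (fun h => hs p h hp), mul_zero]
  have hK : IsCompact (tsupport φ) := (isClosed_tsupport φ).isCompact
  have hne : ∀ p ∈ tsupport φ, ‖M.grad f p‖ ^ 4 ≠ 0 := fun p hp =>
    pow_ne_zero _ (norm_ne_zero_iff.2 fun h => hs p hp ((hf.crit p).2 h))
  obtain ⟨B, hB⟩ := hK.exists_bound_of_continuousOn
    (f := fun p => φ p * dS M f p / ‖M.grad f p‖ ^ 4)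
    ((hφ.mul (cont_dS hf.sm)).continuousOn.div
      (hf.sm.grad.continuous.norm.pow 4).continuousOn hne)
  unfold Q
  rw [h0, mul_zero]
  have hl : Tendsto (fun ε : ℝ => |B| * ε ^ 2 * M.mu.real univ) (𝓝[>] 0) (𝓝 0) := by
    have : Continuous fun ε : ℝ => |B| * ε ^ 2 * M.mu.real univ := by fun_prop
    simpa using (this.tendsto 0).mono_left nhdsWithin_le_nhds
  refine squeeze_zero_norm (fun ε => ?_) hl
  refine norm_integral_le_of_norm_le_const (Eventually.of_forall fun p => ?_)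
  by_cases hp : p ∈ tsupport φ
  · have h1 := (hB p hp).trans (le_abs_self B)
    have h2 : 0 < ‖M.grad f p‖ ^ 4 := lt_of_le_of_ne (by positivity) (hne p hp).symm
    rw [norm_div, Real.norm_of_nonneg h2.le, div_le_iff₀ h2] at h1
    rw [norm_mul, Real.norm_of_nonneg (r := _ / _) (by positivity)]
    have h3 : ε ^ 2 / (‖M.grad f p‖ ^ 2 + ε ^ 2) ^ 2 ≤ ε ^ 2 / ‖M.grad f p‖ ^ 4 := by
      apply div_le_div_of_nonneg_left (by positivity) h2
      nlinarith [sq_nonneg ε, sq_nonneg ‖M.grad f p‖, sq_nonneg (ε ^ 2)]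
    calc _ ≤ |B| * ‖M.grad f p‖ ^ 4 * (ε ^ 2 / ‖M.grad f p‖ ^ 4) := by gcongr
      _ = _ := by rw [mul_assoc, mul_div_cancel₀ _ h2.ne']
  · rw [image_eq_zero_of_notMem_tsupport hp]
    simp only [zero_mul, norm_zero]
    positivity

theorem Q_crit (hf : Morse M f C) {φ : X → ℝ} (hφ : Continuous φ) {p : X} (hp : p ∈ C)
    (hs : tsupport φ ⊆ (M.ch p).source) (hs' : ∀ q ∈ tsupport φ, q ≠ p → q ∉ C) :
    Q M f C φ := by
  classical
  set e := M.ch p with he
  have hch : IsChart M.x e := M.isChart p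
  have hK : IsCompact (tsupport φ) := (isClosed_tsupport φ).isCompact
  have hK' : IsCompact (e '' tsupport φ) := hK.image_of_continuousOn (e.continuousOn.mono hs)
  have hKt : e '' tsupport φ ⊆ e.target := by
    rintro _ ⟨q, hq, rfl⟩
    exact e.map_source (hs hq)
  let w : E (Fin 2) → ℝ := e.target.indicator fun z =>
    jac (fderiv ℝ (M.x ∘ e.symm) z) * (φ (e.symm z) * dS M f (e.symm z))
  have hsupp : support w ⊆ e '' tsupport φ := by
    intro z hz
    have h1 : z ∈ e.target := by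
      by_contra h
      exact hz (indicator_of_notMem h _)
    refine ⟨e.symm z, subset_tsupport _ fun h => hz ?_, e.right_inv h1⟩
    simp only [w, indicator_of_mem h1, h, zero_mul, mul_zero]
  have hts : tsupport w ⊆ e '' tsupport φ := closure_minimal hsupp hK'.isClosed
  have hwc : Continuous w := by
    refine ContinuousOn.continuous_of_tsupport_subset (s := e.target) ?_ e.open_target
      (hts.trans hKt)
    refine ContinuousOn.congr ?_ (fun z hz => indicator_of_mem hz _)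
    exact (Imm.continuousOn_jac hch).mul
      ((hφ.mul (cont_dS hf.sm)).comp_continuousOn e.continuousOn_symm)
  have hg0 := (hf.crit p).1 hp
  have hT : HasFDerivAt (M.grad f ∘ e.symm) (M.td (M.grad f) p ∘L M.J p) (e p) := by
    have h1 : DifferentiableAt ℝ (M.grad f ∘ e.symm) (e p) := hf.sm.grad.diffAt p
    have h2 := h1.hasFDerivAt
    rwa [Imm.fderiv_chart _ hch (M.mem p)] at h2
  obtain ⟨hinj, hval⟩ := lin hf.sm hg0 (hf.nd p hp)
  have hpe : e.symm (e p) = p := e.left_inv (M.mem p)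
  have hb := blow e.open_target hwc (hK'.of_isClosed_subset (isClosed_tsupport w) hts)
    (hts.trans hKt) (hf.sm.grad.continuous.comp_continuousOn e.continuousOn_symm)
    (by simp [hpe, hg0]) hT hinj (by
      intro z hz hne h
      obtain ⟨q, hq, rfl⟩ := hts hz
      rw [comp_apply, e.left_inv (hs hq)] at h
      exact hs' q hq (fun h' => hne (by rw [h'])) ((hf.crit q).2 h))
  have h1 : ∑ q ∈ C, sg M f q * φ q = sg M f p * φ p :=
    Finset.sum_eq_single_of_mem p hp fun q hq hne => by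
      rw [image_eq_zero_of_notMem_tsupport (fun h => hs' q h hne hq), mul_zero]
  have h2 : w (e p) = jac (M.J p) * (φ p * dS M f p) := by
    simp only [w, indicator_of_mem (e.map_source (M.mem p)), hpe]
    rfl
  unfold Q
  rw [h1, ← mul_assoc, ← hval]
  convert hb using 2 with ε
  · rw [Imm.integral_chart hch, ← integral_indicator e.open_target.measurableSet]
    · congr 1
      ext z
      by_cases hz : z ∈ e.target
      · simp only [w, indicator_of_mem hz, smul_eq_mul, comp_apply]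
        ring
      · simp only [w, indicator_of_notMem hz, zero_mul]
    · intro q hq
      refine hs (subset_tsupport _ fun h => hq ?_)
      simp only [h, zero_mul]
  · rw [h2]
    ring

theorem Q_all (hf : Morse M f C) {φ : X → ℝ} (hφ : Continuous φ) : Q M f C φ := by
  classical
  obtain ⟨n, χ, i, hχ, -, h1⟩ := M.exists_partition (K := univ) isCompact_univ
    (fun p : X => (M.ch p).source \ (C.erase p : Set X))
    (fun p => (M.ch p).open_source.sdiff (C.erase p).finite_toSet.isClosed)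
    (fun p _ => mem_iUnion.2 ⟨p, M.mem p, by simp⟩)
  have h1' : ∀ p, ∑ k, χ k p = 1 := by simpa using h1
  have hc : ∀ k, Continuous fun p => χ k p * φ p := fun k => (hχ k).1.sm.continuous.mul hφ
  have hQ : ∀ k, Q M f C fun p => χ k p * φ p := by
    intro k
    have hts : tsupport (fun p => χ k p * φ p) ⊆ (M.ch (i k)).source \ (C.erase (i k) : Set X) :=
      tsupport_mul_subset_left.trans (hχ k).2.1
    have hn : ∀ q ∈ tsupport (fun p => χ k p * φ p), q ≠ i k → q ∉ C := fun q hq hne h =>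
      (hts hq).2 (by simp [hne, h])
    by_cases hk : i k ∈ C
    · exact Q_crit hf (hc k) hk (hts.trans sdiff_subset) hn
    · exact Q_reg hf (hc k) fun q hq h => hn q hq (fun h' => hk (h' ▸ h)) h
  have h2 := tendsto_finsetSum Finset.univ fun k _ => hQ k
  unfold Q
  have h3 : kap * ∑ p ∈ C, sg M f p * φ p = ∑ k, kap * ∑ p ∈ C, sg M f p * (χ k p * φ p) := by
    rw [← Finset.mul_sum, Finset.sum_comm]
    congr 1
    refine Finset.sum_congr rfl fun p _ => ?_
    rw [← Finset.mul_sum, ← Finset.sum_mul, h1', one_mul]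
  rw [h3]
  refine h2.congr' ?_
  filter_upwards [self_mem_nhdsWithin] with ε hε
  have hε' : 0 < ε := hε
  rw [← integral_finsetSum]
  · congr 1
    ext p
    rw [← Finset.sum_mul, ← Finset.sum_mul, ← Finset.sum_mul, h1', one_mul]
  · intro k _
    refine Continuous.integrable_of_hasCompactSupport ?_ (HasCompactSupport.of_compactSpace _)
    refine ((hc k).mul (cont_dS hf.sm)).mul (continuous_const.div
      (((hf.sm.grad.continuous.norm.pow 2).add continuous_const).pow 2) fun q => by positivity)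

end Glob

end Bl

/-- **G2** -/
theorem blS : BlS := ⟨Bl.kap_pos, fun _ _ _ _ _ _ _ _ _ _ hf _ hφ => Bl.Q_all hf hφ⟩

end Crest.Agent.N250.GB
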