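import Crest.Agent.N250.GB.Fr
import Crest.Agent.N222.G.Sim0

/-!
# Row 250, local Gauss-Bonnet: the Bochner identity (helper27)

The field is `Z = (S V - Δf V) / (|V|² + ε²)`, `V = ∇f`, `S = Hess f`.
-/

set_option autoImplicit false
open MeasureTheory Set Filter Topology Function
open scoped ContDiff RealInnerProductSpace

noncomputable section

namespace Crest.Agent.N250.GB

open Crest.Agent.N222

/-! ### the algebraic Bochner formula -/

section Alg

variable {R : Type} [CommRing R] {ι : Type} [Fintype ι]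

/-- `S V - Δf V` -/
def bW (S : Pre R ι) (f : R) (a : ι) : R := ∑ b, S.hess f a b * S.D b f - S.lap f * S.D a f

theorem hom_bW {R' : Type} [CommRing R'] {S : Pre R ι} {S' : Pre R' ι} {φ : R →+* R'}
    (h : S.Hom S' φ) (f : R) (a : ι) : φ (bW S f a) = bW S' (φ f) a := by
  simp only [bW, map_sub, map_sum, map_mul, h.hess, h.D, h.lap]

variable [Algebra ℝ R] [DecidableEq ι] {S : Pre R ι} (h : S.IsDS)
include h

theorem tan_bW (f : R) : S.Tan (bW S f) :=
  Pre.Sim.tan_sub (Pre.Sim.tan_sum fun b => Pre.Sim.tan_mul' _ (h.tan_hess' f b))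
    (Pre.Sim.tan_mul _ (h.tan f))

theorem D_gam (f : R) (a : ι) : S.D a (S.gam f f) = 2 * ∑ b, S.hess f a b * S.D b f := by
  have e := h.tan_DD (h.tan f) f a
  simp only [mul_comm _ (S.hess _ _ _)] at e
  rw [← e, Pre.gam, h.D_sum, Finset.mul_sum]
  exact Finset.sum_congr rfl fun b _ => by rw [h.mul]; ring

theorem dv_bW (f : R) : S.dv (bW S f) = ∑ a, ∑ b, S.hess f a b ^ 2 - S.lap f ^ 2 +
    ∑ a, ∑ b, S.Ric a b * (S.D a f * S.D b f) := by
  have hA : S.SymT (S.hess f) := ⟨h.tan_hess' f, h.hess f⟩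
  have e1 : ∀ b, ∑ a, S.nab2 (S.hess f) a a b = S.D b (S.lap f) + ∑ e, S.Ric b e * S.D e f := by
    intro b
    have e : ∀ a, S.nab2 (S.hess f) a a b =
        S.nab2 (S.hess f) b a a + ∑ e, S.Rm a b e a * S.D e f := fun a => by
      rw [h.T_symm hA a a b, ← h.ricci_hess]; ring
    simp only [e, Finset.sum_add_distrib]
    rw [h.tr_T hA, h.tr_hess, Finset.sum_comm]
    simp only [Pre.Ric, Finset.sum_mul]
  have e2 : ∑ b, (∑ a, S.sB (S.hess f) a b a) * S.D b f = 0 := by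
    simp only [Finset.sum_mul]
    rw [Finset.sum_comm]
    exact Finset.sum_eq_zero fun a _ => h.B_nor _ a a (h.tan f)
  have e3 : ∑ a, ∑ b, S.D a (S.hess f a b) * S.D b f =
      ∑ b, S.D b (S.lap f) * S.D b f + ∑ a, ∑ b, S.Ric a b * (S.D a f * S.D b f) := by
    rw [Finset.sum_comm]
    simp only [← Finset.sum_mul, h.dv_A hA, e1, add_mul, Finset.sum_add_distrib, e2, add_zero]
    congr 1
    exact Finset.sum_congr rfl fun a _ => by
      rw [Finset.sum_mul]; exact Finset.sum_congr rfl fun b _ => by ring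
  have e4 : ∀ a, ∑ b, S.hess f a b * S.D a (S.D b f) = ∑ b, S.hess f a b ^ 2 := fun a => by
    rw [h.tan_DD (h.tan_hess f a)]; simp only [sq]
  simp only [Pre.dv, bW, h.D_sub, h.D_sum, h.mul, Finset.sum_sub_distrib, Finset.sum_add_distrib,
    e3, e4, ← Finset.mul_sum]
  change _ - (S.lap f * S.lap f + _) = _
  ring

end Alg

/-! ### pointwise identities on a surface -/

variable {X : Type} [TopologicalSpace X] {M : Imm 2 (Fin 3) X} {f : X → ℝ}

theorem ric_alg (T : Fin 3 → Fin 3 → Fin 3 → ℝ) (hs : ∀ a b k, T a b k = T b a k)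
    (V : Fin 3 → ℝ) :
    ∑ b, ∑ c, (∑ a, ∑ k, (T a a k * T b c k - T a c k * T b a k)) * (V b * V c) =
      ∑ k, ((∑ a, T a a k) * (∑ a, ∑ b, T a b k * (V a * V b)) - ∑ a, (∑ b, T a b k * V b) ^ 2) := by
  simp only [Fin.sum_univ_three, hs 1 0, hs 2 0, hs 2 1]
  ring

theorem scal_alg (T : Fin 3 → Fin 3 → Fin 3 → ℝ) (hs : ∀ a b k, T a b k = T b a k) :
    ∑ b, ∑ a, ∑ k, (T a a k * T b b k - T a b k * T b a k) =
      ∑ k, ((∑ a, T a a k) ^ 2 - ∑ a, ∑ b, T a b k ^ 2) := by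
  simp only [Fin.sum_univ_three, hs 1 0, hs 2 0, hs 2 1]
  ring

/-- on a surface `Ric = scal / 2` -/
theorem two_ric (M : Imm 2 (Fin 3) X) (p : X) {V : Fin 3 → ℝ}
    (hV : ∀ a, ∑ b, M.pre.P a b p * V b = V a) :
    2 * ∑ a, ∑ b, M.pre.Ric a b p * (V a * V b) = M.pre.scal p * ∑ a, V a ^ 2 := by
  obtain ⟨u, v, h⟩ := exists_frm M p
  have hs : ∀ a b k, M.pre.II a b k p = M.pre.II b a k p := fun a b k =>
    congrFun (Imm.hess_symm (M.sm_coord k) a b) p
  simp only [Pre.scal, Pre.Ric, Pre.Rm, Finset.sum_apply, Pi.sub_apply, Pi.mul_apply]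
  rw [ric_alg (fun a b k => M.pre.II a b k p) hs, scal_alg (fun a b k => M.pre.II a b k p) hs,
    Finset.mul_sum, Finset.sum_mul]
  exact Finset.sum_congr rfl fun k _ =>
    h.ch (T := fun a b => M.pre.II a b k p) (fun a b => hs a b k) (fun a b => P_hess a b p) hV

theorem bW_apply (a : Fin 3) (p : X) : bW M.pre f a p =
    ∑ b, M.pre.hess f a b p * M.pre.D b f p - M.pre.lap f p * M.pre.D a f p := by
  simp [bW]

theorem sm_bW (hf : M.Sm f) (a : Fin 3) : M.Sm (bW M.pre f a) :=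
  (hom_bW M.hom ⟨f, hf⟩ a ▸ Imm.sm_val _ : M.Sm (bW M.pre (M.val ⟨f, hf⟩) a))

theorem P_bW (hf : M.Sm f) (a : Fin 3) (p : X) :
    ∑ b, M.pre.P a b p * bW M.pre f b p = bW M.pre f a p := by
  have := congrArg M.val (tan_bW M.isDS ⟨f, hf⟩ a)
  simp only [map_sum, map_mul, M.hom.P, hom_bW M.hom] at this
  simpa using congrFun this p

theorem dv_bW_apply (hf : M.Sm f) (p : X) :
    2 * M.pre.dv (bW M.pre f) p = M.pre.scal p * ‖M.grad f p‖ ^ 2 - 2 * dS M f p := by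
  have := congrArg M.val (dv_bW M.isDS ⟨f, hf⟩)
  simp only [map_add, map_sub, map_sum, map_mul, map_pow, M.hom.dv, M.hom.hess, M.hom.lap,
    M.hom.Ric, M.hom.D, hom_bW M.hom] at this
  have h1 := congrFun this p
  simp only [Imm.val_apply, Finset.sum_apply, Pi.add_apply, Pi.sub_apply, Pi.mul_apply,
    Pi.pow_apply] at h1
  have h2 := two_ric M p (V := fun a => M.pre.D a f p) fun a => P_D f a p
  rw [norm_grad_sq, ← h2, dS]
  linear_combination 2 * h1

theorem D_normSq_grad (hf : M.Sm f) (a : Fin 3) (p : X) :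
    M.pre.D a (fun q => ‖M.grad f q‖ ^ 2) p = 2 * ∑ b, M.pre.hess f a b p * M.pre.D b f p := by
  have := congrArg M.val (D_gam M.isDS ⟨f, hf⟩ a)
  simp only [map_sum, map_mul, M.hom.gam, M.hom.hess, M.hom.D, map_ofNat] at this
  simp only [← Imm.gam_self_eq]
  simpa using congrFun this p

theorem sm_normSq_grad (hf : M.Sm f) : M.Sm fun q => ‖M.grad f q‖ ^ 2 := by
  simp only [← Imm.gam_self_eq]
  exact hf.gam hf

/-- the field of the Bochner identity -/
def bZ (M : Imm 2 (Fin 3) X) (f : X → ℝ) (ε : ℝ) (a : Fin 3) (p : X) : ℝ :=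
  (‖M.grad f p‖ ^ 2 + ε ^ 2)⁻¹ * bW M.pre f a p

theorem sm_den (hf : M.Sm f) {ε : ℝ} (hε : 0 < ε) :
    M.Sm fun p => (‖M.grad f p‖ ^ 2 + ε ^ 2)⁻¹ :=
  ((sm_normSq_grad hf).add (Imm.sm_const _)).inv fun p => by positivity

theorem dv_bZ (hf : M.Sm f) {ε : ℝ} (hε : 0 < ε) (p : X) : 2 * M.pre.dv (bZ M f ε) p =
    M.pre.scal p * (‖M.grad f p‖ ^ 2 / (‖M.grad f p‖ ^ 2 + ε ^ 2)) -
      2 * (dS M f p * (ε ^ 2 / (‖M.grad f p‖ ^ 2 + ε ^ 2) ^ 2)) := by
  have h0 : ‖M.grad f p‖ ^ 2 + ε ^ 2 ≠ 0 := by positivity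
  have h1 := Imm.dv_mul (sm_den hf hε) (sm_bW hf) p
  have h2 : ∀ a, M.pre.D a (fun p => (‖M.grad f p‖ ^ 2 + ε ^ 2)⁻¹) p =
      -((‖M.grad f p‖ ^ 2 + ε ^ 2) ^ 2)⁻¹ * (2 * ∑ b, M.pre.hess f a b p * M.pre.D b f p) := by
    intro a
    have hd : HasDerivAt (fun s : ℝ => (s + ε ^ 2)⁻¹) (-((‖M.grad f p‖ ^ 2 + ε ^ 2) ^ 2)⁻¹)
        (‖M.grad f p‖ ^ 2) := by
      have := (hasDerivAt_inv h0).comp_add_const (‖M.grad f p‖ ^ 2) (ε ^ 2)
      exact this
    rw [← D_normSq_grad hf]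
    exact Imm.D_comp ((sm_normSq_grad hf).diffAt p) hd a
  obtain ⟨u, v, h⟩ := exists_frm M p
  have h3 := h.ch (T := fun a b => M.pre.hess f a b p) (V := fun a => M.pre.D a f p)
    (fun a b => congrFun (Imm.hess_symm hf a b) p) (fun a b => P_hess a b p) fun a => P_D f a p
  rw [Imm.tr_hess hf, ← norm_grad_sq, ← dS] at h3
  have h4 : ∑ a, bW M.pre f a p * (2 * ∑ b, M.pre.hess f a b p * M.pre.D b f p) =
      -(dS M f p * ‖M.grad f p‖ ^ 2) := by
    rw [← h3]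
    simp only [bW_apply, Fin.sum_univ_three]
    ring
  have h5 : M.pre.dir (bW M.pre f) (fun p => (‖M.grad f p‖ ^ 2 + ε ^ 2)⁻¹) p =
      ((‖M.grad f p‖ ^ 2 + ε ^ 2) ^ 2)⁻¹ * (dS M f p * ‖M.grad f p‖ ^ 2) := by
    rw [Imm.dir_apply, ← neg_mul_neg, ← h4, Finset.mul_sum]
    exact Finset.sum_congr rfl fun a _ => by rw [h2]; ring
  have h6 := dv_bW_apply hf p
  rw [show M.pre.dv (bZ M f ε) p = _ from h1, h5, mul_add, mul_left_comm, h6]
  field_simp
  ring

theorem abs_bZ_le (hf : M.Sm f) {ε : ℝ} (hε : 0 < ε) (p : X) :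
    |∑ a, bZ M f ε a p * M.pre.D a f p| ≤ nS M f p := by
  have h0 : 0 < ‖M.grad f p‖ ^ 2 + ε ^ 2 := by positivity
  obtain ⟨u, v, h⟩ := exists_frm M p
  have h3 := h.abs_le (T := fun a b => M.pre.hess f a b p) (V := fun a => M.pre.D a f p)
    (fun a b => congrFun (Imm.hess_symm hf a b) p) (fun a b => P_hess a b p) fun a => P_D f a p
  rw [Imm.tr_hess hf, ← nS] at h3
  have h4 : ∑ a, bZ M f ε a p * M.pre.D a f p = (‖M.grad f p‖ ^ 2 + ε ^ 2)⁻¹ *
      (∑ a, ∑ b, M.pre.hess f a b p * (M.pre.D a f p * M.pre.D b f p) -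
        M.pre.lap f p * ∑ a, M.pre.D a f p ^ 2) := by
    simp only [bZ, bW_apply, Fin.sum_univ_three]
    ring
  rw [h4, abs_mul, abs_of_pos (inv_pos.2 h0), inv_mul_le_iff₀ h0]
  refine h3.trans ?_
  rw [← norm_grad_sq]
  have : 0 ≤ nS M f p := Real.sqrt_nonneg _
  nlinarith [sq_nonneg ε]

theorem continuous_nS (hf : M.Sm f) : Continuous (nS M f) :=
  (continuous_finsetSum _ fun a _ => continuous_finsetSum _ fun b _ =>
    (hf.hess a b).continuous.pow 2).sqrt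

theorem sm_dS (hf : M.Sm f) : M.Sm (dS M f) :=
  (hf.lap.pow 2).sub (Imm.sm_sum _ fun a _ => Imm.sm_sum _ fun b _ => (hf.hess a b).pow 2)

/-- **G1** -/
theorem boS : BoS := by
  intro X _ _ _ _ _ _ M f hf ψ hψ ε hε
  have hi : ∀ {g : X → ℝ}, Continuous g → Integrable g M.mu := fun hg =>
    hg.integrable_of_hasCompactSupport (HasCompactSupport.of_compactSpace _)
  have hZ : ∀ a, M.Sm (bZ M f ε a) := fun a => (sm_den hf hε).mul (sm_bW hf a)
  have ht : M.pre.Tan (bZ M f ε) := fun a => funext fun p => by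
    simp only [Finset.sum_apply, Pi.mul_apply, bZ, mul_left_comm (M.pre.P _ _ p),
      ← Finset.mul_sum, P_bW hf]
  have hψf : M.Sm fun p => ψ (f p) := hf.comp hψ
  have h1 := Imm.integral_mul_dv hψf.c1 (HasCompactSupport.of_compactSpace _)
    (fun a => (hZ a).c1) ht
  have hn := (sm_normSq_grad hf).continuous
  have h0 : ∀ p, ‖M.grad f p‖ ^ 2 + ε ^ 2 ≠ 0 := fun p => by positivity
  have c1 : Continuous fun p =>
      ψ (f p) * M.pre.scal p * (‖M.grad f p‖ ^ 2 / (‖M.grad f p‖ ^ 2 + ε ^ 2)) :=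
    (hψf.continuous.mul M.sm_scal.continuous).mul (hn.div (hn.add continuous_const) h0)
  have c2 : Continuous fun p =>
      ψ (f p) * dS M f p * (ε ^ 2 / (‖M.grad f p‖ ^ 2 + ε ^ 2) ^ 2) :=
    (hψf.continuous.mul (sm_dS hf).continuous).mul
      (continuous_const.div ((hn.add continuous_const).pow 2) fun p => pow_ne_zero 2 (h0 p))
  have c3 : Continuous fun p => |deriv ψ (f p)| * nS M f p :=
    ((hψ.continuous_deriv (by simp)).comp hf.continuous).abs.mul (continuous_nS hf)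
  have h2 : (∫ p, ψ (f p) * M.pre.scal p * (‖M.grad f p‖ ^ 2 / (‖M.grad f p‖ ^ 2 + ε ^ 2)) ∂M.mu) -
      2 * ∫ p, ψ (f p) * dS M f p * (ε ^ 2 / (‖M.grad f p‖ ^ 2 + ε ^ 2) ^ 2) ∂M.mu =
      2 * ∫ p, ψ (f p) * M.pre.dv (bZ M f ε) p ∂M.mu := by
    rw [← integral_const_mul, ← integral_const_mul, ← integral_sub (hi c1) ((hi c2).const_mul 2)]
    refine integral_congr_ae (Eventually.of_forall fun p => ?_)
    linear_combination (-ψ (f p)) * dv_bZ hf hε p
  have h3 : ∀ p, ‖M.pre.dir (bZ M f ε) (fun p => ψ (f p)) p‖ ≤ |deriv ψ (f p)| * nS M f p := by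
    intro p
    have hd := (hψ.differentiable (by simp) (f p)).hasDerivAt
    simp only [Imm.dir_apply, Imm.D_comp (hf.diffAt p) hd, mul_left_comm _ (deriv ψ _),
      ← Finset.mul_sum]
    rw [Real.norm_eq_abs, abs_mul]
    exact mul_le_mul_of_nonneg_left (abs_bZ_le hf hε p) (abs_nonneg _)
  have h4 := norm_integral_le_of_norm_le (hi c3) (Eventually.of_forall h3)
  rw [h2, h1, abs_mul, abs_neg, abs_two]
  rw [Real.norm_eq_abs] at h4
  linarith [abs_nonneg (∫ p, M.pre.dir (bZ M f ε) (fun p => ψ (f p)) p ∂M.mu)]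

end Crest.Agent.N250.GB

end
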