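import Crest.Agent.N250.GB.Sl
import Crest.Agent.N250.Br.Stm

/-!
# Row 250 (helper69): local Gauss-Bonnet along a compact flow
-/

set_option autoImplicit false
open MeasureTheory Set Filter Topology Function
open scoped ContDiff InnerProductSpace
open Crest.GeometryTopology.MCF

noncomputable section

namespace Crest.Agent.N250.GB

open N222

namespace Flow

variable {F : Mv} {a b Λ ρ : ℝ}

theorem track_compact (hF : Fl F (Ioo a b) Λ) (hρ : ∀ p ∈ F.M, ‖p.1‖ ≤ ρ) {K : Set ℝ}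
    (hK : IsCompact K) (hs : K ⊆ Ioo a b) : IsCompact (F.M ∩ univ ×ˢ K) := by
  refine ((isCompact_closedBall (0 : E) ρ).prod hK).of_isClosed_subset ?_
    fun p hp => ⟨mem_closedBall_zero_iff.2 (hρ p hp.1), hp.2.2⟩
  refine isClosed_of_closure_subset fun p hp => ?_
  have h1 : p ∈ univ ×ˢ K :=
    (isClosed_univ.prod hK.isClosed).closure_subset (closure_mono inter_subset_right hp)
  exact ⟨hF.proper p (closure_mono inter_subset_left hp) ⟨trivial, hs h1.2⟩, h1⟩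

theorem sl_compact (hF : Fl F (Ioo a b) Λ) (hρ : ∀ p ∈ F.M, ‖p.1‖ ≤ ρ) {t : ℝ}
    (ht : t ∈ Ioo a b) : IsCompact (F.sl t) := by
  have h := (track_compact hF hρ isCompact_singleton (singleton_subset_iff.2 ht)).image
    continuous_fst
  convert h using 1
  ext x
  exact ⟨fun hx => ⟨(x, t), ⟨hx, trivial, rfl⟩, rfl⟩, fun ⟨p, hp, e⟩ => by
    obtain ⟨y, s⟩ := p
    obtain rfl : s = t := hp.2.2
    obtain rfl : y = x := e
    exact hp.1⟩

/-- total curvature is bounded (constant) along the flow -/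
theorem total (hI : IntS) (hC : MuContS) (hF : Fl F (Ioo a b) Λ) (hρ : ∀ p ∈ F.M, ‖p.1‖ ≤ ρ) :
    ∃ B : ℝ, ∀ t ∈ Ioo a b, |∫ x, (F.H (x, t) ^ 2 - F.A2 (x, t)) ∂F.mu t| ≤ B := by
  have hR := hF.mcf.1
  set k : ℝ → ℝ := fun t => ∫ x, (F.H (x, t) ^ 2 - F.A2 (x, t)) ∂F.mu t with hk
  have h1 : ContinuousOn k (Ioo a b) := fun t ht => by
    obtain ⟨a', ha, ha'⟩ := exists_between ht.1
    obtain ⟨b', hb, hb'⟩ := exists_between ht.2
    have h := hC F hR (fun p => F.H p ^ 2 - F.A2 p) (Ioo a' b') isOpen_Ioo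
      ((hR.sm_H.continuousOn.pow 2).sub hR.sm_A2.continuousOn)
      ⟨_, track_compact hF hρ isCompact_Icc (Icc_subset_Ioo ha hb'), inter_subset_left,
        fun p hp h1 h2 => absurd ⟨hp, trivial, Ioo_subset_Icc_self h1⟩ h2⟩
    exact (h.continuousAt (Ioo_mem_nhds ha' hb)).continuousWithinAt
  have h2 : k '' Ioo a b ⊆ range fun n : ℤ => 2 * kap * n := by
    rintro _ ⟨t, ht, rfl⟩
    obtain ⟨M, hx⟩ := Sl.exists_imm hR t
    have := isCompact_iff_compactSpace.1 (sl_compact hF hρ ht)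
    obtain ⟨n, hn⟩ := hI _ M
    refine ⟨n, ?_⟩
    simp only [hk, Sl.integral_eq hR hx, ← hn, Sl.scal_eq hR hx]
  have h3 := (countable_range _).isTotallyDisconnected _ h2 (isPreconnected_Ioo.image k h1)
  rcases (Ioo a b).eq_empty_or_nonempty with h | ⟨s, hs⟩
  · exact ⟨0, fun t ht => by simp [h] at ht⟩
  · exact ⟨|k s|, fun t ht => by rw [← h3 (mem_image_of_mem k ht) (mem_image_of_mem k hs)]⟩

end Flow

theorem lgbFlowS_of (hL : LgbS) (hI : IntS) (hC : MuContS) : Br.LgbFlowS := by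
  rintro F a b Λ hF ⟨ρ, hρ⟩ hcon
  obtain ⟨c, hc, hL⟩ := hL
  obtain ⟨B, hB⟩ := Flow.total hI hC hF hρ
  have hR := hF.mcf.1
  refine ⟨c * (1 + 4 * |Λ| + |B|), fun t y r hr => ?_⟩
  by_cases ht : t ∈ Ioo a b
  swap
  · have : F.sl t = ∅ := eq_empty_of_forall_notMem fun x hx => ht (hF.time (x, t) hx)
    simp [Mv.mu, this]
  obtain ⟨M, hx⟩ := Sl.exists_imm hR t
  have := isCompact_iff_compactSpace.1 (Flow.sl_compact hF hρ ht)
  have h1 := hL _ M (isConnected_iff_connectedSpace.1 (hcon t ht)) y r hr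
  have e : ∀ s, {p | ‖M.x p - y‖ < s} = Subtype.val ⁻¹' Metric.ball y s := fun s => by
    ext p
    simp [hx, dist_eq_norm]
  have h2 := hB t ht
  rw [Sl.integral_eq hR hx] at h2
  simp only [← Sl.scal_eq hR hx] at h2
  have h3 : M.mu.real (Subtype.val ⁻¹' Metric.ball y (2 * r)) / r ^ 2 ≤ 4 * |Λ| := by
    rw [div_le_iff₀ (by positivity), Measure.real, ← Sl.mu_eq hR hx]
    refine ENNReal.toReal_le_of_le_ofReal (by positivity) ((hF.ar t y _ (by positivity)).trans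
      (ENNReal.ofReal_le_ofReal ?_))
    nlinarith [le_abs_self Λ, sq_nonneg r]
  rw [e, e] at h1
  rw [Sl.setLIntegral_eq hR hx, Sl.setLIntegral_eq hR hx]
  simp only [← Sl.a2_eq hR hx, ← Sl.h2_eq hR hx]
  rw [← ofReal_integral_eq_lintegral_ofReal (Asm.intg (Asm.cont_a2 M)).integrableOn
      (ae_of_all _ Asm.a2_nonneg),
    ← ofReal_integral_eq_lintegral_ofReal (Asm.intg (Asm.cont_h2 M)).integrableOn
      (ae_of_all _ Asm.h2_nonneg)]
  have h4 : 0 ≤ ∫ p in Subtype.val ⁻¹' Metric.ball y (2 * r), GB.h2 M p ∂M.mu :=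
    integral_nonneg Asm.h2_nonneg
  rw [← ENNReal.ofReal_one, ← ENNReal.ofReal_add zero_le_one h4,
    ← ENNReal.ofReal_mul (by positivity)]
  refine ENNReal.ofReal_le_ofReal (h1.trans ?_)
  rw [mul_assoc]
  gcongr
  nlinarith [le_abs_self B, abs_nonneg B, abs_nonneg Λ, mul_nonneg (abs_nonneg B) h4,
    mul_nonneg (abs_nonneg Λ) h4]

end Crest.Agent.N250.GB

end
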