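import Crest.Agent.N250.GB.Defs

/-!
# Row 250, local Gauss-Bonnet: the orthonormal frame and two-dimensional algebra (helper27)
-/

set_option autoImplicit false
open MeasureTheory Set Filter Topology Function
open scoped ContDiff RealInnerProductSpace

noncomputable section

namespace Crest.Agent.N250.GB

open Crest.Agent.N222

/-! ### algebra in a frame -/

/-- an orthonormal pair that spans the range of `P` -/
structure Frm {ι : Type} [Fintype ι] (P : ι → ι → ℝ) (u v : ι → ℝ) : Prop where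
  uu : ∑ a, u a * u a = 1
  vv : ∑ a, v a * v a = 1
  uv : ∑ a, u a * v a = 0
  eq : ∀ a b, P a b = u a * u b + v a * v b

namespace Frm

variable {ι : Type} [Fintype ι] {P : ι → ι → ℝ} {u v : ι → ℝ} (h : Frm P u v)
include h

theorem dot (p q r s : ℝ) : ∑ a, (p * u a + q * v a) * (r * u a + s * v a) = p * r + q * s := by
  have e : ∀ a, (p * u a + q * v a) * (r * u a + s * v a) =
      p * r * (u a * u a) + (p * s + q * r) * (u a * v a) + q * s * (v a * v a) :=
    fun a => by ring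
  simp only [e, Finset.sum_add_distrib, ← Finset.mul_sum, h.uu, h.vv, h.uv]
  ring

theorem vec {V : ι → ℝ} (hV : ∀ a, ∑ b, P a b * V b = V a) :
    ∃ x y : ℝ, ∀ a, V a = x * u a + y * v a := by
  refine ⟨∑ b, u b * V b, ∑ b, v b * V b, fun a => ?_⟩
  rw [← hV a, Finset.sum_mul, Finset.sum_mul, ← Finset.sum_add_distrib]
  exact Finset.sum_congr rfl fun b _ => by rw [h.eq]; ring

theorem ten {T : ι → ι → ℝ} (hs : ∀ a b, T a b = T b a) (hT : ∀ a b, ∑ c, P b c * T a c = T a b) :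
    ∃ α β γ : ℝ, ∀ a b, T a b = (α * u a + β * v a) * u b + (β * u a + γ * v a) * v b := by
  have h1 : ∀ a b, T a b = (∑ c, u c * T a c) * u b + (∑ c, v c * T a c) * v b := fun a b => by
    rw [← hT a b, Finset.sum_mul, Finset.sum_mul, ← Finset.sum_add_distrib]
    exact Finset.sum_congr rfl fun c _ => by rw [h.eq]; ring
  have h2 : ∀ (w : ι → ℝ) (a : ι), ∑ c, w c * T a c =
      (∑ c, w c * ∑ e, u e * T c e) * u a + (∑ c, w c * ∑ e, v e * T c e) * v a := fun w a => by
    rw [Finset.sum_mul, Finset.sum_mul, ← Finset.sum_add_distrib]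
    exact Finset.sum_congr rfl fun c _ => by rw [hs a c, h1 c a]; ring
  have h3 : ∑ c, v c * ∑ e, u e * T c e = ∑ c, u c * ∑ e, v e * T c e := by
    simp only [Finset.mul_sum]
    rw [Finset.sum_comm]
    exact Finset.sum_congr rfl fun c _ => Finset.sum_congr rfl fun e _ => by rw [hs e c]; ring
  refine ⟨∑ c, u c * ∑ e, u e * T c e, ∑ c, u c * ∑ e, v e * T c e,
    ∑ c, v c * ∑ e, v e * T c e, fun a b => ?_⟩
  rw [h1 a b, h2 u a, h2 v a, h3]

variable {T : ι → ι → ℝ} {α β γ : ℝ}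
  (hT : ∀ a b, T a b = (α * u a + β * v a) * u b + (β * u a + γ * v a) * v b)
include hT

theorem tr : ∑ a, T a a = α + γ := by
  have e : ∀ a, T a a = (α * u a + β * v a) * (1 * u a + 0 * v a) +
      (β * u a + γ * v a) * (0 * u a + 1 * v a) := fun a => by rw [hT]; ring
  simp only [e, Finset.sum_add_distrib, h.dot]
  ring

theorem nrm : ∑ a, ∑ b, T a b ^ 2 = α ^ 2 + 2 * β ^ 2 + γ ^ 2 := by
  have e : ∀ a, ∑ b, T a b ^ 2 = (α * u a + β * v a) * (α * u a + β * v a) +
      (β * u a + γ * v a) * (β * u a + γ * v a) := fun a => by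
    simp only [hT, sq, h.dot]
  simp only [e, Finset.sum_add_distrib, h.dot]
  ring

theorem app (x y : ℝ) (a : ι) : ∑ b, T a b * (x * u b + y * v b) =
    (α * x + β * y) * u a + (β * x + γ * y) * v a := by
  simp only [hT, h.dot]
  ring

theorem form (x y x' y' : ℝ) : ∑ a, ∑ b, T a b * ((x * u a + y * v a) * (x' * u b + y' * v b)) =
    x * (α * x' + β * y') + y * (β * x' + γ * y') := by
  have e : ∀ a, ∑ b, T a b * ((x * u a + y * v a) * (x' * u b + y' * v b)) =
      (x * u a + y * v a) * ((α * x' + β * y') * u a + (β * x' + γ * y') * v a) := fun a => by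
    rw [← h.app hT, Finset.mul_sum]
    exact Finset.sum_congr rfl fun b _ => by ring
  simp only [e, h.dot]

omit hT

/-- Cayley-Hamilton on the plane -/
theorem ch {V : ι → ℝ} (hs : ∀ a b, T a b = T b a) (hT : ∀ a b, ∑ c, P b c * T a c = T a b)
    (hV : ∀ a, ∑ b, P a b * V b = V a) :
    2 * ((∑ a, T a a) * (∑ a, ∑ b, T a b * (V a * V b)) - ∑ a, (∑ b, T a b * V b) ^ 2) =
      ((∑ a, T a a) ^ 2 - ∑ a, ∑ b, T a b ^ 2) * ∑ a, V a ^ 2 := by
  obtain ⟨α, β, γ, hT⟩ := h.ten hs hT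
  obtain ⟨x, y, hV⟩ := h.vec hV
  simp only [hV]
  rw [h.tr hT, h.nrm hT, h.form hT]
  simp only [h.app hT, sq, h.dot]
  ring

/-- the trace and the quadratic form are bounded by the norm -/
theorem abs_le {V : ι → ℝ} (hs : ∀ a b, T a b = T b a) (hT : ∀ a b, ∑ c, P b c * T a c = T a b)
    (hV : ∀ a, ∑ b, P a b * V b = V a) :
    |∑ a, ∑ b, T a b * (V a * V b) - (∑ a, T a a) * ∑ a, V a ^ 2| ≤
      √(∑ a, ∑ b, T a b ^ 2) * ∑ a, V a ^ 2 := by
  obtain ⟨α, β, γ, hT⟩ := h.ten hs hT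
  obtain ⟨x, y, hV⟩ := h.vec hV
  simp only [hV]
  rw [h.tr hT, h.nrm hT, h.form hT]
  simp only [sq (_ + _), h.dot]
  have h0 : 0 ≤ x * x + y * y := add_nonneg (mul_self_nonneg x) (mul_self_nonneg y)
  rw [← Real.sqrt_sq h0, ← Real.sqrt_mul (by positivity)]
  refine Real.abs_le_sqrt ?_
  rw [Real.sqrt_sq h0]
  nlinarith [sq_nonneg (α * x * x - γ * y * y), sq_nonneg (α * x * y + β * y * y),
    sq_nonneg (β * x * x + γ * x * y)]

end Frm

/-! ### the frame of a surface -/

variable {X : Type} [TopologicalSpace X] (M : Imm 2 (Fin 3) X)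

theorem exists_frame (p : X) : ∃ u v : E (Fin 3), ‖u‖ = 1 ∧ ‖v‖ = 1 ∧ inner ℝ u v = 0 ∧
    ∀ a b, M.pre.P a b p = u a * u b + v a * v b := by
  set K : Submodule ℝ (E (Fin 3)) := LinearMap.range (M.J p : E (Fin 2) →ₗ[ℝ] E (Fin 3)) with hK
  have h2 : Module.finrank ℝ K = 2 := by
    rw [hK, LinearMap.finrank_range_of_inj (M.J_inj p)]
    simp
  set b := (stdOrthonormalBasis ℝ K).reindex (finCongr h2) with hb
  have hP : ∀ w : K, M.PL p w = w := by
    rintro ⟨w, z, rfl⟩
    exact Imm.PL_chart (M.isChart p) (M.mem p) z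
  refine ⟨b 0, b 1, b.orthonormal.1 0, b.orthonormal.1 1, b.orthonormal.2 (by decide), ?_⟩
  intro a c
  have h3 : M.PL p (ee a) ∈ K := ⟨_, rfl⟩
  have h4 := congrArg (fun w : K => (w : E (Fin 3)) c) (b.sum_repr' ⟨_, h3⟩)
  have h5 : ∀ i, ⟪b i, (⟨_, h3⟩ : K)⟫ = (b i : E (Fin 3)) a := fun i => by
    rw [Submodule.coe_inner, ← M.PL_symm, hP]
    simp [EuclideanSpace.inner_single_right]
  simp only [Fin.sum_univ_two, h5] at h4
  rw [Imm.P_apply]
  simpa using h4.symm

theorem exists_frm (p : X) : ∃ u v : Fin 3 → ℝ, Frm (fun a b => M.pre.P a b p) u v := by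
  obtain ⟨u, v, hu, hv, huv, h⟩ := exists_frame M p
  have e : ∀ w w' : E (Fin 3), ∑ a, w a * w' a = ⟪w, w'⟫ := fun w w' => by
    simp [PiLp.inner_apply, mul_comm]
  exact ⟨u, v, by rw [e, real_inner_self_eq_norm_sq, hu, one_pow],
    by rw [e, real_inner_self_eq_norm_sq, hv, one_pow], by rw [e, huv], h⟩

variable {M}

theorem P_hess {f : X → ℝ} (a b : Fin 3) (p : X) :
    ∑ c, M.pre.P b c p * M.pre.hess f a c p = M.pre.hess f a b p := by
  simp only [Imm.hess_apply, Finset.mul_sum, ← mul_assoc]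
  rw [Finset.sum_comm]
  exact Finset.sum_congr rfl fun c _ => by rw [← Finset.sum_mul, M.PP]

theorem P_D (f : X → ℝ) (a : Fin 3) (p : X) :
    ∑ b, M.pre.P a b p * M.pre.D b f p = M.pre.D a f p := by
  simpa using congrFun (Imm.tan_D (M := M) f a) p

theorem norm_grad_sq (f : X → ℝ) (p : X) : ‖M.grad f p‖ ^ 2 = ∑ a, M.pre.D a f p ^ 2 := by
  rw [← Imm.gam_self_eq, Imm.gam_apply]
  simp only [sq]

theorem jac_sq (J : E (Fin 2) →L[ℝ] E (Fin 3)) : jac J ^ 2 =
    max ((∑ a, J (ee 0) a * J (ee 0) a) * (∑ a, J (ee 1) a * J (ee 1) a)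
      - (∑ a, J (ee 0) a * J (ee 1) a) ^ 2) 0 := by
  have e : ∀ i j : Fin 2, (ContinuousLinearMap.adjoint J ∘L J) (ee i) j =
      ∑ a, J (ee j) a * J (ee i) a := fun i j => by
    have h := ContinuousLinearMap.adjoint_inner_right J (ee j) (J (ee i))
    simp only [EuclideanSpace.inner_single_left, map_one, one_mul] at h
    rw [ContinuousLinearMap.comp_apply, h]
    simp [PiLp.inner_apply, mul_comm]
  rw [jac, Real.sq_sqrt', ContinuousLinearMap.det,
    ← LinearMap.det_toMatrix (EuclideanSpace.basisFun (Fin 2) ℝ).toBasis, Matrix.det_fin_two]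
  simp only [LinearMap.toMatrix_apply, OrthonormalBasis.coe_toBasis,
    OrthonormalBasis.coe_toBasis_repr_apply, EuclideanSpace.basisFun_apply,
    EuclideanSpace.basisFun_repr, ContinuousLinearMap.coe_coe, e]
  congr 2
  rw [sq]
  congr 1
  exact Finset.sum_congr rfl fun a _ => mul_comm _ _

/-- **G0** -/
theorem frS : FrS := by
  intro X _ _ _ _ _ _ M p
  refine ⟨exists_frame M p, ?_⟩
  rintro f hf h0 g rfl z rfl
  obtain ⟨u, v, h⟩ := exists_frm M p
  obtain ⟨α, β, γ, hT⟩ := h.ten (T := fun a b => M.pre.hess f a b p)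
    (fun a b => congrFun (Imm.hess_symm hf a b) p) fun a b => P_hess a b p
  have hJ : ∀ w : E (Fin 2), ∃ x y : ℝ, ∀ a, M.J p w a = x * u a + y * v a := fun w =>
    h.vec fun a => by
      rw [← M.PL_apply]
      exact congrArg (fun y : E (Fin 3) => y a) (Imm.PL_chart (M.isChart p) (M.mem p) w)
  choose x y hxy using hJ
  have hH : ∀ w w' : E (Fin 2), fderiv ℝ (fderiv ℝ (f ∘ (M.ch p).symm)) (M.ch p p) w w' =
      x w * (α * x w' + β * y w') + y w * (β * x w' + γ * y w') := fun w w' => by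
    rw [Imm.hess_chart hf (M.isChart p) (M.mem p), Imm.td_eq_inner, h0, inner_zero_left, add_zero,
      ← h.form hT]
    exact Finset.sum_congr rfl fun a _ => Finset.sum_congr rfl fun b _ => by
      rw [← hxy, ← hxy]; rfl
  rw [hH, hH, hH, jac_sq, dS, ← Imm.tr_hess hf, h.tr hT, h.nrm hT]
  simp only [hxy, h.dot]
  rw [max_eq_left (by nlinarith [sq_nonneg (x (ee 0) * y (ee 1) - x (ee 1) * y (ee 0))])]
  ring

end Crest.Agent.N250.GB

end
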