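import Crest.Agent.N250.GB.Defs

/-!
# Row 250, local Gauss-Bonnet, G4 (helper62): `IxS` from `TopS`, `MorS`, `FrS`, `PcS`
-/

set_option autoImplicit false
open MeasureTheory Set Filter Topology Function
open scoped ContDiff Manifold

noncomputable section

namespace Crest.Agent.N250.GB

open Crest.Agent.N222

namespace Ix

/-- gluing a local inequality between additive functionals by a partition of unity -/
theorem glue {K : Set ℝ} (hK : IsCompact K) (Q : (ℝ → ℝ) → ℝ) (h0 : Q 0 = 0)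
    (hadd : ∀ a b : ℝ → ℝ, Continuous a → HasCompactSupport a → Continuous b →
      HasCompactSupport b → Q (a + b) = Q a + Q b)
    (hloc : ∀ t ∈ K, ∃ δ : ℝ, 0 < δ ∧ ∀ θ : ℝ → ℝ, ContDiff ℝ ∞ θ → (∀ s, 0 ≤ θ s) →
      (∀ s, δ ≤ |s - t| → θ s = 0) → 0 ≤ Q θ)
    {θ : ℝ → ℝ} (hθ : ContDiff ℝ ∞ θ) (hn : ∀ s, 0 ≤ θ s) (hs : ∀ s, s ∉ K → θ s = 0) :
    0 ≤ Q θ := by
  classical
  choose! δ hδ hQ using hloc
  obtain ⟨T, hT, hc⟩ := hK.elim_nhds_subcover (fun t => Metric.ball t (δ t))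
    fun t ht => Metric.ball_mem_nhds t (hδ t ht)
  obtain ⟨ρ, hρ⟩ := SmoothPartitionOfUnity.exists_isSubordinate (I := 𝓘(ℝ, ℝ)) hK.isClosed
    (fun i : T => Metric.ball (i : ℝ) (δ i)) (fun _ => Metric.isOpen_ball)
    (fun s hs => by
      obtain ⟨t, ht, h⟩ := mem_iUnion₂.1 (hc hs)
      exact mem_iUnion.2 ⟨⟨t, ht⟩, h⟩)
  have cs : HasCompactSupport θ := HasCompactSupport.intro hK hs
  have sm : ∀ i : T, ContDiff ℝ ∞ (fun s => ρ i s * θ s) := fun i =>
    (ρ i).contMDiff.contDiff.mul hθ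
  have cs' : ∀ i : T, HasCompactSupport (fun s => ρ i s * θ s) := fun i => cs.mul_left
  have key : ∀ S : Finset T, Continuous (∑ i ∈ S, fun s => ρ i s * θ s) ∧
      HasCompactSupport (∑ i ∈ S, fun s => ρ i s * θ s) ∧
      0 ≤ Q (∑ i ∈ S, fun s => ρ i s * θ s) := by
    intro S
    induction S using Finset.induction_on with
    | empty =>
      simp only [Finset.sum_empty, h0, le_refl, and_true]
      exact ⟨continuous_const, HasCompactSupport.zero⟩
    | insert i S hi ih =>
      rw [Finset.sum_insert hi]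
      refine ⟨(sm i).continuous.add ih.1, (cs' i).add ih.2.1, ?_⟩
      rw [hadd _ _ (sm i).continuous (cs' i) ih.1 ih.2.1]
      refine add_nonneg (hQ i (hT i i.2) _ (sm i) (fun s => mul_nonneg (ρ.nonneg i s) (hn s))
        fun s h => ?_) ih.2.2
      have : ρ i s = 0 := by
        by_contra h'
        have := hρ i (subset_tsupport _ h')
        rw [Metric.mem_ball, Real.dist_eq] at this
        linarith
      rw [this, zero_mul]
  have e : (∑ i : T, fun s => ρ i s * θ s) = θ := by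
    funext s
    rw [Finset.sum_apply, ← Finset.sum_mul]
    by_cases h : s ∈ K
    · have := ρ.sum_eq_one h
      rw [finsum_eq_sum_of_fintype] at this
      rw [this, one_mul]
    · rw [hs s h, mul_zero]
  exact e ▸ (key Finset.univ).2.2

/-- the cut-off -/
def cut {X : Type} (f : X → ℝ) (C : Finset X) (B : ℝ) (n : ℕ) (s : ℝ) : ℝ :=
  Real.smoothTransition (B + 1 - s) * ∏ p ∈ C, Real.smoothTransition (n * (s - f p) ^ 2 - 1)

theorem cut_sm {X : Type} (f : X → ℝ) (C : Finset X) (B : ℝ) (n : ℕ) :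
    ContDiff ℝ ∞ (cut f C B n) := by
  refine (Real.smoothTransition.contDiff.comp (by fun_prop)).mul
    (contDiff_prod fun p _ => Real.smoothTransition.contDiff.comp (by fun_prop))

theorem cut_nonneg {X : Type} (f : X → ℝ) (C : Finset X) (B : ℝ) (n : ℕ) (s : ℝ) :
    0 ≤ cut f C B n s :=
  mul_nonneg (Real.smoothTransition.nonneg _)
    (Finset.prod_nonneg fun _ _ => Real.smoothTransition.nonneg _)

theorem cut_le {X : Type} (f : X → ℝ) (C : Finset X) (B : ℝ) (n : ℕ) (s : ℝ) :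
    cut f C B n s ≤ 1 :=
  mul_le_one₀ (Real.smoothTransition.le_one _)
    (Finset.prod_nonneg fun _ _ => Real.smoothTransition.nonneg _)
    (Finset.prod_le_one (fun _ _ => Real.smoothTransition.nonneg _)
      fun _ _ => Real.smoothTransition.le_one _)

theorem cut_lim {X : Type} (f : X → ℝ) (C : Finset X) (B : ℝ) {s : ℝ} (hB : s ≤ B)
    (hs : ∀ p ∈ C, s ≠ f p) : ∀ᶠ n in atTop, cut f C B n s = 1 := by
  have h : ∀ᶠ n : ℕ in atTop, ∀ p ∈ C, 2 ≤ n * (s - f p) ^ 2 := by
    refine (eventually_all_finset C).2 fun p hp => ?_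
    have h1 : 0 < (s - f p) ^ 2 := pow_pos (abs_pos.2 (sub_ne_zero.2 (hs p hp))) 2 |>.trans_eq
      (sq_abs _)
    exact (tendsto_natCast_atTop_atTop.atTop_mul_const h1).eventually_ge_atTop 2
  filter_upwards [h] with n hn
  rw [cut, Real.smoothTransition.one_of_one_le (by linarith), one_mul]
  exact Finset.prod_eq_one fun p hp =>
    Real.smoothTransition.one_of_one_le (by linarith [hn p hp])

/-- the measure-theoretic globalisation -/
theorem glob {X : Type} [TopologicalSpace X] [CompactSpace X] [MeasurableSpace X] [BorelSpace X]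
    (μ : Measure X) [IsFiniteMeasureOnCompacts μ] {f G : X → ℝ} (hf : Continuous f)
    (hG : Continuous G) (hG0 : ∀ p, 0 ≤ G p) (C : Finset X) (σ : X → ℝ) {c : ℝ} (hc : 0 ≤ c)
    (hloc : ∀ t : ℝ, (∀ p ∈ C, f p ≠ t) → (∃ p, f p < t) → ∃ δ : ℝ, 0 < δ ∧
      (∀ p ∈ C, δ ≤ |f p - t|) ∧ ∀ θ : ℝ → ℝ, ContDiff ℝ ∞ θ → (∀ s, 0 ≤ θ s) →
      (∀ s, δ ≤ |s - t| → θ s = 0) →
      (∑ p ∈ C with t < f p, σ p) * ∫ s, θ s ≤ c * ∫ p, θ (f p) * G p ∂μ)
    {ψ : ℝ → ℝ} (hψ : ContDiff ℝ ∞ ψ) (hd : ∀ s, 0 ≤ deriv ψ s)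
    (h0 : ∃ p, ∃ t, f p < t ∧ ∀ s ≤ t, ψ s = 0) :
    ∑ p ∈ C, σ p * ψ (f p) ≤ c * ∫ p, deriv ψ (f p) * G p ∂μ := by
  classical
  obtain ⟨p0, t0, hp0, ht0⟩ := h0
  obtain ⟨B, hB⟩ : ∃ B, ∀ p, f p ≤ B := by
    obtain ⟨B, hB⟩ := (isCompact_range hf).bddAbove
    exact ⟨B, fun p => hB ⟨p, rfl⟩⟩
  have hψ' : ContDiff ℝ ∞ (deriv ψ) := (contDiff_infty_iff_deriv.1 hψ).2
  have hz : ∀ s < t0, deriv ψ s = 0 := fun s hs => by
    have : ψ =ᶠ[𝓝 s] fun _ => 0 := by
      filter_upwards [Iio_mem_nhds hs] with r hr using ht0 r (le_of_lt hr)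
    rw [this.deriv_eq, deriv_const]
  have ig : ∀ θ : ℝ → ℝ, Continuous θ → Integrable (fun p => θ (f p) * G p) μ := fun θ hθ =>
    ((hθ.comp hf).mul hG).integrable_of_hasCompactSupport (HasCompactSupport.of_compactSpace _)
  have iψ : ∀ a, IntegrableOn (deriv ψ) (Iic a) := fun a =>
    (hψ'.continuous.integrableOn_Icc (a := t0) (b := a)).of_forall_sdiff_eq_zero measurableSet_Iic
      fun s hs => hz s (by
        by_contra h
        exact hs.2 ⟨not_lt.1 h, hs.1⟩)
  have eψ : ∀ a, ∫ s in Iic a, deriv ψ s = ψ a := fun a => by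
    rw [integral_Iic_of_hasDerivAt_of_tendsto' (f := ψ) (m := 0)
      (fun s _ => (hψ.differentiable (by simp) s).hasDerivAt) (iψ a), sub_zero]
    refine tendsto_const_nhds.congr' ?_
    filter_upwards [eventually_le_atBot t0] with s hs using (ht0 s hs).symm
  have step : ∀ n : ℕ, ∑ p ∈ C, σ p * ∫ s in Iic (f p), cut f C B n s * deriv ψ s ≤
      c * ∫ p, deriv ψ (f p) * G p ∂μ := by
    intro n
    have hK : IsCompact (Icc t0 (B + 1) ∩ ⋂ p ∈ C, {s : ℝ | 1 ≤ n * (s - f p) ^ 2}) :=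
      isCompact_Icc.inter_right (isClosed_biInter fun p _ =>
        isClosed_le continuous_const (by fun_prop))
    have := glue hK (fun θ => c * ∫ p, θ (f p) * G p ∂μ - ∑ p ∈ C, σ p * ∫ s in Iic (f p), θ s)
      (by simp) ?_ ?_ ((cut_sm f C B n).mul hψ')
      (fun s => mul_nonneg (cut_nonneg f C B n s) (hd s)) ?_
    · refine (sub_nonneg.1 this).trans (mul_le_mul_of_nonneg_left (integral_mono
        (ig _ ((cut_sm f C B n).mul hψ').continuous) (ig _ hψ'.continuous) fun p => ?_) hc)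
      exact mul_le_mul_of_nonneg_right
        (mul_le_of_le_one_left (hd _) (cut_le f C B n _)) (hG0 p)
    · intro a b ha ha' hb hb'
      have e1 : ∫ p, (a + b) (f p) * G p ∂μ =
          (∫ p, a (f p) * G p ∂μ) + ∫ p, b (f p) * G p ∂μ := by
        rw [← integral_add (ig a ha) (ig b hb)]
        simp only [Pi.add_apply, add_mul]
      have e2 : ∀ p, ∫ s in Iic (f p), (a + b) s =
          (∫ s in Iic (f p), a s) + ∫ s in Iic (f p), b s := fun p =>
        integral_add (ha.integrable_of_hasCompactSupport ha').integrableOn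
          (hb.integrable_of_hasCompactSupport hb').integrableOn
      simp only [e1, e2, mul_add, Finset.sum_add_distrib]
      ring
    · rintro t ⟨ht1, ht2⟩
      simp only [mem_iInter, mem_ofPred_eq] at ht2
      obtain ⟨δ, hδ, hδC, h⟩ := hloc t (fun p hp e => by
        have := ht2 p hp
        rw [e, sub_self] at this
        norm_num at this) ⟨p0, hp0.trans_le ht1.1⟩
      refine ⟨δ, hδ, fun θ hθ hn hs => sub_nonneg.2 (le_trans (le_of_eq ?_) (h θ hθ hn hs))⟩
      rw [Finset.sum_mul, Finset.sum_filter]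
      refine Finset.sum_congr rfl fun p hp => ?_
      have h1 := hδC p hp
      split_ifs with h2
      · rw [setIntegral_eq_integral_of_forall_compl_eq_zero]
        intro s hs'
        rw [mem_Iic, not_le] at hs'
        rw [abs_of_pos (by linarith)] at h1
        exact hs s (by rw [abs_of_pos (by linarith)]; linarith)
      · rw [setIntegral_eq_zero_of_forall_eq_zero, mul_zero]
        intro s hs'
        rw [mem_Iic] at hs'
        rw [abs_of_nonpos (by linarith)] at h1
        exact hs s (by rw [abs_of_nonpos (by linarith)]; linarith)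
    · intro s hs
      simp only [mem_inter_iff, mem_Icc, mem_iInter, mem_ofPred_eq, not_and_or, not_forall,
        not_le] at hs
      rcases hs with (hs | hs) | ⟨p, hp, hs⟩
      · rw [hz s hs, mul_zero]
      · rw [cut, Real.smoothTransition.zero_of_nonpos (by linarith), zero_mul, zero_mul]
      · rw [cut, Finset.prod_eq_zero hp (Real.smoothTransition.zero_of_nonpos (by linarith)),
          mul_zero, zero_mul]
  refine le_of_tendsto' (x := atTop) ?_ step
  refine tendsto_finsetSum _ fun p _ => Tendsto.const_mul _ ?_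
  rw [← eψ]
  refine tendsto_integral_of_dominated_convergence (deriv ψ)
    (fun n => ((cut_sm f C B n).mul hψ').continuous.aestronglyMeasurable) (iψ _)
    (fun n => Eventually.of_forall fun s => ?_) ?_
  · rw [Real.norm_eq_abs, abs_of_nonneg (mul_nonneg (cut_nonneg f C B n s) (hd s))]
    exact mul_le_of_le_one_left (hd _) (cut_le f C B n _)
  · have h1 : ∀ᵐ s ∂(volume : Measure ℝ), s ∉ ((C.image f : Finset ℝ) : Set ℝ) :=
      (C.image f).finite_toSet.countable.ae_notMem _
    filter_upwards [ae_restrict_of_ae h1, ae_restrict_mem measurableSet_Iic] with s hs hs'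
    refine tendsto_const_nhds.congr' ?_
    filter_upwards [cut_lim f C B (le_trans hs' (hB p)) fun q hq e =>
      hs (Finset.mem_coe.2 (Finset.mem_image.2 ⟨q, hq, e.symm⟩))] with n hn
    rw [hn, one_mul]

/-- transfer of a normal form through a chart -/
theorem nf_chart {X Y : Type} [TopologicalSpace X] [TopologicalSpace Y] {f : X → ℝ} {p : X}
    {k : Fin 4} (e : OpenPartialHomeomorph X Y) (hp : p ∈ e.source)
    (h : NF (f ∘ e.symm) (e p) k) : NF f p k := by
  obtain ⟨e', h1, h2, h3⟩ := h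
  refine ⟨e.trans e', ⟨hp, h1⟩, h2, fun q hq => ?_⟩
  have := h3 (e q) hq.2
  simp only [comp_apply, e.left_inv hq.1, e.left_inv hp] at this
  exact this

section

variable {X : Type} [TopologicalSpace X] [T2Space X] [CompactSpace X] [SecondCountableTopology X]
  [MeasurableSpace X] [BorelSpace X] (M : Imm 2 (Fin 3) X)

/-- normal forms of a Morse function -/
theorem nf_morse (hM : MorS) (hF : FrS) {f : X → ℝ} {C : Finset X} (h : Morse M f C) (p : X) :
    ∃ k : Fin 4, NF f p k ∧ (p ∈ C ↔ k ≠ 0) ∧ (p ∈ C → ind k = sg M f p) := by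
  have hs : ContDiffAt ℝ ∞ (f ∘ (M.ch p).symm) (M.ch p p) :=
    (h.sm p).contDiffAt ((M.ch p).open_target.mem_nhds ((M.ch p).map_source (M.mem p)))
  obtain ⟨m1, m2⟩ := hM _ _ hs
  by_cases hp : p ∈ C
  · have g0 := (h.crit p).1 hp
    have t0 : M.td f p = 0 := by rw [← norm_eq_zero, Imm.norm_td, g0, norm_zero]
    have f0 : fderiv ℝ (f ∘ (M.ch p).symm) (M.ch p p) = 0 := by
      rw [Imm.fderiv_chart f (M.isChart p) (M.mem p), t0, ContinuousLinearMap.zero_comp]
    obtain ⟨a1, a2⟩ := m2 f0 _ rfl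
    have e := (hF X M p).2 f h.sm g0 _ rfl _ rfl
    have jp : 0 < jac (M.J p) ^ 2 := pow_pos (jac_pos (M.J_inj p)) 2
    by_cases hd : 0 < dS M f p
    · have := mul_pos hd jp
      rcases a1 (by linarith) with a | a
      · exact ⟨1, nf_chart _ (M.mem p) a, by simp [hp], fun _ => by simp [ind, sg, hd]⟩
      · exact ⟨2, nf_chart _ (M.mem p) a, by simp [hp], fun _ => by simp [ind, sg, hd]⟩
    · have := mul_neg_of_neg_of_pos (lt_of_le_of_ne (not_lt.1 hd) (h.nd p hp)) jp
      exact ⟨3, nf_chart _ (M.mem p) (a2 (by linarith)), by simp [hp],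
        fun _ => by simp [ind, sg, hd]⟩
  · refine ⟨0, nf_chart _ (M.mem p) (m1 fun f0 => hp ((h.crit p).2 ?_)), by simp [hp],
      fun h' => absurd h' hp⟩
    rw [← norm_eq_zero, ← Imm.norm_td, Imm.td, f0, ContinuousLinearMap.zero_comp, norm_zero]

omit [T2Space X] [CompactSpace X] [SecondCountableTopology X] [MeasurableSpace X]
  [BorelSpace X] in
theorem gf_cont {f : X → ℝ} (hf : M.Sm f) : Continuous (Gf M f) := by
  refine Continuous.add (Continuous.sqrt ?_) ((Continuous.sqrt ?_).mul hf.grad.continuous.norm)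
  · exact continuous_finsetSum _ fun a _ => continuous_finsetSum _ fun b _ =>
      (hf.hess a b).continuous.pow 2
  · exact continuous_finsetSum _ fun a _ => continuous_finsetSum _ fun b _ =>
      continuous_finsetSum _ fun c _ => (M.sm_II a b c).continuous.pow 2

omit [T2Space X] [CompactSpace X] [SecondCountableTopology X] [MeasurableSpace X]
  [BorelSpace X] in
theorem gf_nonneg (f : X → ℝ) (p : X) : 0 ≤ Gf M f p :=
  add_nonneg (Real.sqrt_nonneg _) (mul_nonneg (Real.sqrt_nonneg _) (norm_nonneg _))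

end

end Ix

theorem ixS_of (hT : TopS) (hM : MorS) (hF : FrS) (hP : PcS) : IxS := by
  classical
  obtain ⟨c, hc, hP⟩ := hP
  refine ⟨c, hc, fun X _ _ _ _ _ _ M hX f C h hi ψ hψ hd h0 => ?_⟩
  choose ty h1 h2 h3 using Ix.nf_morse M hM hF h
  have fc : Continuous f := h.sm.continuous
  have gc := Ix.gf_cont M h.sm
  refine Ix.glob M.mu fc gc (Ix.gf_nonneg M f) C (sg M f) hc.le (fun t ht ht' => ?_) hψ hd h0
  obtain ⟨δ, k, U, hδ, hδC, hU, hdj, hcov, hq, hk⟩ := hT X f ty C fc h1 h2 hi t ht ht'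
  choose q hqU hqt using hq
  have := fun i => hP X M f h.sm (q i) (fun e => ht _ ((h.crit _).2 e) (hqt i)) (U i) δ (hU i)
    (hqU i) hδ fun p hp hp' => by
      rw [hqt i] at hp'
      obtain ⟨j, hj⟩ := hcov p (by linarith [(abs_lt.1 hp').1])
      by_cases e : j = i
      · exact e ▸ hj
      · obtain ⟨r, hr⟩ := mem_closure_iff.1 hp _ (hU j) hj
        exact absurd hr.2 (disjoint_left.1 (hdj e) hr.1)
  choose δ' hδ' hθ using this
  obtain ⟨ε, hε, hε1, hε2⟩ : ∃ ε : ℝ, 0 < ε ∧ ε ≤ δ ∧ ∀ i, ε ≤ δ' i := by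
    have e1 : ∀ᶠ ε in 𝓝[>] (0 : ℝ), ε ≤ δ ∧ ∀ i, ε ≤ δ' i :=
      ((eventually_le_nhds hδ).and (eventually_all.2 fun i => eventually_le_nhds (hδ' i))).filter_mono
        nhdsWithin_le_nhds
    obtain ⟨ε, h1, h2⟩ := (e1.and self_mem_nhdsWithin).exists
    exact ⟨ε, h2, h1⟩
  refine ⟨ε, hε, fun p hp => hε1.trans (hδC p hp).le, fun θ hθ1 hθ2 hθ3 => ?_⟩
  have ig : Integrable (fun p => θ (f p) * Gf M f p) M.mu :=
    ((hθ1.continuous.comp fc).mul gc).integrable_of_hasCompactSupport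
      (HasCompactSupport.of_compactSpace _)
  have e : ∑ p ∈ C with t < f p, sg M f p = ∑ p ∈ C with t < f p, ind (ty p) :=
    Finset.sum_congr rfl fun p hp => (h3 p (Finset.mem_filter.1 hp).1).symm
  calc (∑ p ∈ C with t < f p, sg M f p) * ∫ s, θ s ≤ k * ∫ s, θ s :=
        mul_le_mul_of_nonneg_right (e ▸ hk) (integral_nonneg hθ2)
    _ = ∑ _i : Fin k, ∫ s, θ s := by simp
    _ ≤ ∑ i : Fin k, c * ∫ p in U i, θ (f p) * Gf M f p ∂M.mu :=
        Finset.sum_le_sum fun i _ => hθ i θ hθ1 hθ2 fun s hs =>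
          hθ3 s ((hε2 i).trans (hqt i ▸ hs))
    _ = c * ∫ p in ⋃ i, U i, θ (f p) * Gf M f p ∂M.mu := by
        rw [integral_iUnion_fintype (fun i => (hU i).measurableSet) hdj fun i => ig.integrableOn,
          Finset.mul_sum]
    _ ≤ c * ∫ p, θ (f p) * Gf M f p ∂M.mu :=
        mul_le_mul_of_nonneg_left (setIntegral_le_integral ig
          (Eventually.of_forall fun p => mul_nonneg (hθ2 _) (Ix.gf_nonneg M f p))) hc.le

end Crest.Agent.N250.GB

end
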