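import Crest.Agent.N250.GB.Defs

/-!
# Row 250, local Gauss-Bonnet: a level curve through a regular point has mass (helper20)
-/

set_option autoImplicit false
open MeasureTheory Set Filter Topology Function
open scoped ContDiff RealInnerProductSpace

noncomputable section

namespace Crest.Agent.N250.GB

open Crest.Agent.N222

namespace Lv

theorem plane {G ρ : ℝ × ℝ → ℝ} {T : Set (ℝ × ℝ)} (hT : IsOpen T) (h0 : (0 : ℝ × ℝ) ∈ T)
    (hG : ContDiffOn ℝ 1 G T) (hρ : ContinuousOn ρ T) {c : ℝ} (hc : 0 < c)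
    (hd : fderiv ℝ G 0 = c • ContinuousLinearMap.snd ℝ ℝ ℝ) (hρ0 : ρ 0 = c) :
    ∃ r : ℝ, 0 < r ∧ ∀ σ : ℝ, 0 < σ → σ ≤ r → Icc (-σ) σ ×ˢ Icc (-σ) σ ⊆ T ∧
      ∀ θ : ℝ → ℝ, Continuous θ → (∀ s, 0 ≤ θ s) → (∀ s, c * σ / 2 ≤ |s - G 0| → θ s = 0) →
      σ / 2 * ∫ s, θ s ≤ ∫ p in Icc (-σ) σ ×ˢ Icc (-σ) σ, θ (G p) * ρ p := by
  have hcf : ContinuousOn (fderiv ℝ G) T := hG.continuousOn_fderiv_of_isOpen hT le_rfl
  have hn := hT.mem_nhds h0
  have e1 : ∀ᶠ p in 𝓝 (0 : ℝ × ℝ), ‖fderiv ℝ G p - fderiv ℝ G 0‖ ≤ c / 4 := by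
    have := Metric.tendsto_nhds.1 (hcf.continuousAt hn) (c / 4) (by positivity)
    filter_upwards [this] with p hp
    rw [dist_eq_norm] at hp
    exact hp.le
  have e2 : ∀ᶠ p in 𝓝 (0 : ℝ × ℝ), c / 2 ≤ ρ p := by
    have : c / 2 < ρ 0 := by rw [hρ0]; linarith
    exact ((hρ.continuousAt hn).eventually (lt_mem_nhds this)).mono fun p hp => hp.le
  obtain ⟨r, hr, hb⟩ := Metric.nhds_basis_closedBall.eventually_iff.1 ((e1.and e2).and hn)
  refine ⟨r, hr, fun σ hσ hσr => ?_⟩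
  have hbox : Icc (-σ) σ ×ˢ Icc (-σ) σ = Metric.closedBall (0 : ℝ × ℝ) σ := by
    rw [← closedBall_prod_same]
    simp only [Prod.fst_zero, Prod.snd_zero, Real.closedBall_eq_Icc, zero_sub, zero_add]
  have hsub : Icc (-σ) σ ×ˢ Icc (-σ) σ ⊆ Metric.closedBall (0 : ℝ × ℝ) r :=
    hbox ▸ Metric.closedBall_subset_closedBall hσr
  have hsT : Icc (-σ) σ ×ˢ Icc (-σ) σ ⊆ T := fun p hp => (hb (hsub hp)).2
  refine ⟨hsT, fun θ hθ hθ0 hθs => ?_⟩
  have hdf : ∀ p ∈ T, DifferentiableAt ℝ G p := fun p hp =>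
    (hG.contDiffAt (hT.mem_nhds hp)).differentiableAt one_ne_zero
  have hmv : ∀ p ∈ Metric.closedBall (0 : ℝ × ℝ) r, |G p - G 0 - c * p.2| ≤ c / 4 * ‖p‖ := by
    intro p hp
    have := (convex_closedBall (0 : ℝ × ℝ) r).norm_image_sub_le_of_norm_fderiv_le'
      (fun x hx => hdf x (hb hx).2) (fun x hx => (hb hx).1.1)
      (Metric.mem_closedBall_self hr.le) hp
    simpa [hd] using this
  set D : ℝ × ℝ → ℝ := fun p => fderiv ℝ G p (0, 1) with hD
  have hDc : ContinuousOn D T := hcf.clm_apply continuousOn_const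
  have hDle : ∀ p ∈ Metric.closedBall (0 : ℝ × ℝ) r, D p ≤ 2 * c := by
    intro p hp
    have h1 := (fderiv ℝ G p - fderiv ℝ G 0).le_opNorm ((0, 1) : ℝ × ℝ)
    have h2 : ‖((0, 1) : ℝ × ℝ)‖ = 1 := by simp [Prod.norm_def]
    rw [h2, mul_one] at h1
    have h3 := h1.trans (hb hp).1.1
    simp only [sub_apply, hd, smul_apply,
      ContinuousLinearMap.coe_snd', smul_eq_mul, mul_one, Real.norm_eq_abs] at h3
    have := (abs_le.1 h3).2
    simp only [hD]
    linarith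
  have hK : IsCompact (Icc (-σ) σ ×ˢ Icc (-σ) σ) := isCompact_Icc.prod isCompact_Icc
  have hθG : ContinuousOn (fun p => θ (G p)) T := hθ.comp_continuousOn hG.continuousOn
  have i1 : IntegrableOn (fun p => θ (G p) * D p) (Icc (-σ) σ ×ˢ Icc (-σ) σ) :=
    ((hθG.mul hDc).mono hsT).integrableOn_compact hK
  have i2 : IntegrableOn (fun p => θ (G p) * ρ p) (Icc (-σ) σ ×ˢ Icc (-σ) σ) :=
    ((hθG.mul hρ).mono hsT).integrableOn_compact hK
  have hin : ∀ s ∈ Icc (-σ) σ, ∫ u in Icc (-σ) σ, θ (G (s, u)) * D (s, u) = ∫ t, θ t := by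
    intro s hs
    have hle : -σ ≤ σ := by linarith
    have hm : ∀ u ∈ uIcc (-σ) σ, (s, u) ∈ Icc (-σ) σ ×ˢ Icc (-σ) σ := fun u hu =>
      ⟨hs, by rwa [uIcc_of_le hle] at hu⟩
    have hder : ∀ u ∈ uIcc (-σ) σ, HasDerivAt (fun u => G (s, u)) (D (s, u)) u := by
      intro u hu
      have h1 : HasDerivAt (fun u : ℝ => ((s, u) : ℝ × ℝ)) (0, 1) u :=
        (hasDerivAt_const u s).prodMk (hasDerivAt_id u)
      exact (hdf _ (hsT (hm u hu))).hasFDerivAt.comp_hasDerivAt u h1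
    have hco : ContinuousOn (fun u => D (s, u)) (uIcc (-σ) σ) :=
      hDc.comp (Continuous.prodMk_right s).continuousOn fun u hu => hsT (hm u hu)
    have h1 := intervalIntegral.integral_comp_mul_deriv hder hco hθ
    rw [integral_Icc_eq_integral_Ioc, ← intervalIntegral.integral_of_le hle]
    refine Eq.trans h1 ?_
    have hn1 : ∀ u ∈ Icc (-σ) σ, ‖((s, u) : ℝ × ℝ)‖ ≤ σ := by
      intro u hu
      have : (s, u) ∈ Metric.closedBall (0 : ℝ × ℝ) σ := hbox ▸ ⟨hs, hu⟩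
      simpa using this
    have hcs : 0 < c * σ := mul_pos hc hσ
    have a1 := abs_le.1 (hmv (s, σ) (hsub ⟨hs, hle, le_rfl⟩))
    have a2 := abs_le.1 (hmv (s, -σ) (hsub ⟨hs, le_rfl, hle⟩))
    have b1 := mul_le_mul_of_nonneg_left (hn1 σ ⟨hle, le_rfl⟩) (by positivity : 0 ≤ c / 4)
    have b2 := mul_le_mul_of_nonneg_left (hn1 (-σ) ⟨le_rfl, hle⟩) (by positivity : 0 ≤ c / 4)
    refine intervalIntegral.integral_eq_integral_of_support_subset fun t ht => ?_
    have : |t - G 0| < c * σ / 2 := by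
      by_contra h
      exact ht (hθs t (not_lt.1 h))
    have := abs_lt.1 this
    constructor <;> nlinarith [this.1, this.2, a1.1, a2.2]
  have hfub : ∫ p in Icc (-σ) σ ×ˢ Icc (-σ) σ, θ (G p) * D p = 2 * σ * ∫ t, θ t := by
    rw [Measure.volume_eq_prod] at i1 ⊢
    rw [setIntegral_prod _ i1, setIntegral_congr_fun measurableSet_Icc hin, setIntegral_const]
    simp only [Real.volume_real_Icc, smul_eq_mul]
    rw [max_eq_left (by linarith)]
    ring
  have hcmp : ∫ p in Icc (-σ) σ ×ˢ Icc (-σ) σ, θ (G p) * D p ≤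
      ∫ p in Icc (-σ) σ ×ˢ Icc (-σ) σ, 4 * (θ (G p) * ρ p) := by
    refine setIntegral_mono_on i1 (i2.const_mul 4) hK.measurableSet fun p hp => ?_
    have h1 := hDle p (hsub hp)
    have h2 := (hb (hsub hp)).1.2
    nlinarith [hθ0 (G p)]
  rw [integral_const_mul, hfub] at hcmp
  linarith

/-- the plane as a Euclidean space -/
def kk (p : ℝ × ℝ) : E (Fin 2) := WithLp.toLp 2 ![p.1, p.2]

theorem kk_eq (p : ℝ × ℝ) : kk p = p.1 • ee 0 + p.2 • ee 1 := by
  ext i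
  fin_cases i <;> simp [kk]

/-- as a linear map -/
def kL : (ℝ × ℝ) →L[ℝ] E (Fin 2) :=
  (ContinuousLinearMap.fst ℝ ℝ ℝ).smulRight (ee 0) + (ContinuousLinearMap.snd ℝ ℝ ℝ).smulRight (ee 1)

theorem kL_apply (p : ℝ × ℝ) : kL p = kk p := by
  simp [kL, kk_eq]

theorem kk_emb : MeasurableEmbedding kk :=
  ((MeasurableEquiv.finTwoArrow (α := ℝ)).symm.trans (MeasurableEquiv.toLp 2 _)).measurableEmbedding

theorem kk_mp : MeasurePreserving kk :=
  (PiLp.volume_preserving_toLp (Fin 2)).comp ((volume_preserving_finTwoArrow ℝ).symm _)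

theorem norm_kk (p : ℝ × ℝ) : ‖kk p‖ ^ 2 = p.1 ^ 2 + p.2 ^ 2 := by
  rw [EuclideanSpace.real_norm_sq_eq, Fin.sum_univ_two]
  simp [kk]

variable {X : Type} [TopologicalSpace X]

/-- an isometric chart adapted to a tangent vector -/
theorem exists_chart (M : Imm 2 (Fin 3) X) (q : X) {V : E (Fin 3)} (hV : V ≠ 0)
    (hPV : M.PL q V = V) : ∃ e : OpenPartialHomeomorph X (E (Fin 2)), IsChart M.x e ∧
      q ∈ e.source ∧ e q = 0 ∧ (∀ v, ‖fderiv ℝ (M.x ∘ e.symm) 0 v‖ = ‖v‖) ∧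
      jac (fderiv ℝ (M.x ∘ e.symm) 0) = 1 ∧
      ∀ v, ⟪V, fderiv ℝ (M.x ∘ e.symm) 0 v⟫ = ‖V‖ * v 1 := by
  have he := M.isChart q
  have hq := M.mem q
  set J := fderiv ℝ (M.x ∘ (M.ch q).symm) (M.ch q q) with hJ
  have hinj : Injective J := M.J_inj q
  obtain ⟨b, hb⟩ := Imm.PL_mem_range he hq V
  rw [hPV, ← hJ] at hb
  have hVn : 0 < ‖V‖ := norm_pos_iff.2 hV
  set w0 := ⟪V, J (ee 0)⟫ with hw0
  set w1 := ⟪V, J (ee 1)⟫ with hw1
  have hJs : ∀ v : E (Fin 2), J v = v 0 • J (ee 0) + v 1 • J (ee 1) := by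
    intro v
    conv_lhs => rw [eq_sum_ee v]
    simp [Fin.sum_univ_two]
  set a : E (Fin 2) := kk (-w1, w0) with ha
  have ha0 : a ≠ 0 := by
    intro h
    have h0 : a 0 = 0 := by rw [h]; rfl
    have h1 : a 1 = 0 := by rw [h]; rfl
    simp only [ha, kk, Matrix.cons_val_zero, neg_eq_zero, Matrix.cons_val_one] at h0 h1
    have h2 : ⟪V, J b⟫ = 0 := by
      rw [hJs, inner_add_right, inner_smul_right, inner_smul_right, ← hw0, ← hw1, h0, h1]
      ring
    rw [hb] at h2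
    exact hV (inner_self_eq_zero.1 h2)
  have hVa : ⟪V, J a⟫ = 0 := by
    rw [hJs, inner_add_right, inner_smul_right, inner_smul_right, ← hw0, ← hw1]
    simp only [ha, kk, Matrix.cons_val_zero, Matrix.cons_val_one]
    ring
  have hJa : 0 < ‖J a‖ := norm_pos_iff.2 fun h => ha0 ((injective_iff_map_eq_zero _).1 hinj a h)
  set L : E (Fin 2) →L[ℝ] E (Fin 2) :=
    (EuclideanSpace.proj (0 : Fin 2) : E (Fin 2) →L[ℝ] ℝ).smulRight (‖J a‖⁻¹ • a) +
      (EuclideanSpace.proj (1 : Fin 2) : E (Fin 2) →L[ℝ] ℝ).smulRight (‖V‖⁻¹ • b) with hL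
  have hJL : ∀ v : E (Fin 2), J (L v) = (v 0 * ‖J a‖⁻¹) • J a + (v 1 * ‖V‖⁻¹) • V := by
    intro v
    simp [hL, hb, smul_smul]
  have hip : ∀ v w : E (Fin 2), ⟪J (L v), J (L w)⟫ = ⟪v, w⟫ := by
    intro v w
    have hVa' : ⟪J a, V⟫ = 0 := by rw [real_inner_comm, hVa]
    rw [hJL, hJL]
    simp only [inner_add_left, inner_add_right, real_inner_smul_left, real_inner_smul_right, hVa,
      hVa', real_inner_self_eq_norm_sq]
    rw [PiLp.inner_apply, Fin.sum_univ_two]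
    simp only [RCLike.inner_apply, conj_trivial]
    field_simp
    ring
  have hno : ∀ v : E (Fin 2), ‖J (L v)‖ = ‖v‖ := by
    intro v
    rw [norm_eq_sqrt_real_inner, hip, ← norm_eq_sqrt_real_inner]
  have hLi : Injective L := by
    refine (injective_iff_map_eq_zero _).2 fun v hv => ?_
    have := hno v
    rw [hv, map_zero, norm_zero] at this
    exact norm_eq_zero.1 this.symm
  let Le : E (Fin 2) ≃L[ℝ] E (Fin 2) :=
    (LinearEquiv.ofInjectiveEndo (L : E (Fin 2) →ₗ[ℝ] E (Fin 2)) hLi).toContinuousLinearEquiv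
  have hLe : ∀ v, Le v = L v := fun v => rfl
  let h : E (Fin 2) ≃ₜ E (Fin 2) := (Homeomorph.subRight (M.ch q q)).trans Le.symm.toHomeomorph
  have hh : ∀ z, h z = Le.symm (z - M.ch q q) := fun z => rfl
  have hh' : ∀ z, h.symm z = L z + M.ch q q := fun z => rfl
  have hfd : fderiv ℝ (M.x ∘ ((M.ch q).trans h.toOpenPartialHomeomorph).symm) 0 = J ∘L L := by
    have h1 : M.x ∘ ((M.ch q).trans h.toOpenPartialHomeomorph).symm =
        (M.x ∘ (M.ch q).symm) ∘ fun z => L z + M.ch q q := rfl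
    have h2 : HasFDerivAt (fun z => L z + M.ch q q) L 0 := L.hasFDerivAt.add_const _
    have h3 : HasFDerivAt (M.x ∘ (M.ch q).symm) J (L 0 + M.ch q q) := by
      rw [map_zero, zero_add]
      exact (M.sm_x.diffAt q).hasFDerivAt
    rw [h1]
    exact (h3.comp 0 h2).fderiv
  refine ⟨(M.ch q).trans h.toOpenPartialHomeomorph, he.trans _ ?_ ?_, ?_, ?_, ?_, ?_, ?_⟩
  · exact (Le.symm.contDiff.comp (contDiff_id.sub contDiff_const)).contDiffOn
  · exact (L.contDiff.add contDiff_const).contDiffOn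
  · simpa using hq
  · show h (M.ch q q) = 0
    rw [hh, sub_self, map_zero]
  · intro v
    rw [hfd]
    exact hno v
  · rw [hfd, jac]
    have : ContinuousLinearMap.adjoint (J ∘L L) ∘L (J ∘L L) = 1 := by
      ext1 v
      refine ext_inner_left ℝ fun w => ?_
      rw [ContinuousLinearMap.comp_apply, ContinuousLinearMap.adjoint_inner_right]
      exact hip w v
    rw [this]
    simp [ContinuousLinearMap.det]
  · intro v
    rw [hfd, ContinuousLinearMap.comp_apply, hJL, inner_add_right, real_inner_smul_right,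
      real_inner_smul_right, hVa, real_inner_self_eq_norm_sq]
    field_simp
    ring

end Lv

open Lv in
theorem lvS : LvS := by
  intro X _ _ _ _ _ _ M f hf q hq U hU
  obtain ⟨e, he, hqe, he0, hiso, hjac, hV⟩ := exists_chart M q hq (Imm.PL_grad f q)
  set c := ‖M.grad f q‖ with hc
  have hc0 : 0 < c := norm_pos_iff.2 hq
  have h0t : (0 : E (Fin 2)) ∈ e.target := he0 ▸ e.map_source hqe
  have hs0 : e.symm 0 = q := he0 ▸ e.left_inv hqe
  have hk0 : kk 0 = 0 := by rw [← kL_apply, map_zero]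
  have hkc : Continuous kk := by
    rw [← funext kL_apply]
    exact kL.continuous
  have hT : IsOpen (kk ⁻¹' e.target) := e.open_target.preimage hkc
  have h0T : (0 : ℝ × ℝ) ∈ kk ⁻¹' e.target := by rw [mem_preimage, hk0]; exact h0t
  have hfc := hf.chart he
  have hG : ContDiffOn ℝ 1 (fun p => f (e.symm (kk p))) (kk ⁻¹' e.target) := by
    have := (hfc.of_le (m := 1) (by simp)).comp kL.contDiff.contDiffOn
      (s := kk ⁻¹' e.target) fun p hp => by rwa [kL_apply]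
    exact this.congr fun p _ => by simp [kL_apply]
  have hρ : ContinuousOn (fun p => jac (fderiv ℝ (M.x ∘ e.symm) (kk p)) *
      ‖M.grad f (e.symm (kk p))‖) (kk ⁻¹' e.target) :=
    ((Imm.continuousOn_jac he).mul (hf.grad.continuous.norm.comp_continuousOn
      e.continuousOn_symm)).comp hkc.continuousOn fun p hp => hp
  have hd : fderiv ℝ (fun p => f (e.symm (kk p))) 0 = c • ContinuousLinearMap.snd ℝ ℝ ℝ := by
    have h1 : HasFDerivAt (f ∘ e.symm) (fderiv ℝ (f ∘ e.symm) 0) (kL 0) := by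
      rw [map_zero]
      exact ((hfc.contDiffAt (e.open_target.mem_nhds h0t)).differentiableAt (by simp)).hasFDerivAt
    have h2 := (h1.comp 0 kL.hasFDerivAt).fderiv
    have h3 : (fun p => f (e.symm (kk p))) = (f ∘ e.symm) ∘ kL := by
      funext p
      simp [kL_apply]
    have h4 := Imm.fderiv_chart f he hqe
    rw [he0] at h4
    rw [h3, h2, h4]
    ext1
    · ext
      simp [Imm.td_eq_inner, hV, kL_apply, kk]
    · ext
      simp [Imm.td_eq_inner, hV, kL_apply, kk]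
  obtain ⟨r, hr, hpl⟩ := plane hT h0T hG hρ hc0 hd (by simp [hk0, hjac, hs0, hc])
  -- the size of the box in space
  have hY : HasFDerivAt (M.x ∘ e.symm) (fderiv ℝ (M.x ∘ e.symm) 0) 0 :=
    ((he.sm.contDiffAt (e.open_target.mem_nhds h0t)).differentiableAt (by simp)).hasFDerivAt
  have e1 : ∀ᶠ z in 𝓝 (0 : E (Fin 2)), ‖M.x (e.symm z) - M.x q‖ ≤ 4 / 3 * ‖z‖ := by
    filter_upwards [(hasFDerivAt_iff_isLittleO_nhds_zero.1 hY).bound
      (by norm_num : (0 : ℝ) < 1 / 3)] with z hz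
    simp only [zero_add, comp_apply, hs0] at hz
    have h1 := norm_sub_norm_le (M.x (e.symm z) - M.x q) (fderiv ℝ (M.x ∘ e.symm) 0 z)
    rw [hiso] at h1
    linarith
  have e2 : ∀ᶠ z in 𝓝 (0 : E (Fin 2)), e.symm z ∈ U := by
    have := e.continuousAt_symm h0t
    rw [ContinuousAt, hs0] at this
    exact this.eventually hU
  obtain ⟨r', hr', hb⟩ := Metric.nhds_basis_closedBall.eventually_iff.1 (e1.and e2)
  set σ := min r (r' / 2) with hσ
  have hσ0 : 0 < σ := lt_min hr (by positivity)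
  obtain ⟨hsT, hint⟩ := hpl σ hσ0 (min_le_left _ _)
  have hK : IsCompact (Icc (-σ) σ ×ˢ Icc (-σ) σ) := isCompact_Icc.prod isCompact_Icc
  have hnk : ∀ p ∈ Icc (-σ) σ ×ˢ Icc (-σ) σ, ‖kk p‖ ≤ 3 / 2 * σ := by
    intro p hp
    refine abs_le_of_sq_le_sq' ?_ (by positivity) |>.2
    rw [norm_kk]
    nlinarith [hp.1.1, hp.1.2, hp.2.1, hp.2.2, sq_nonneg σ]
  have hbk : ∀ p ∈ Icc (-σ) σ ×ˢ Icc (-σ) σ, kk p ∈ Metric.closedBall (0 : E (Fin 2)) r' := by
    intro p hp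
    have h1 := hnk p hp
    have h2 : σ ≤ r' / 2 := min_le_right _ _
    rw [mem_closedBall_zero_iff]
    linarith
  have hBt : kk '' (Icc (-σ) σ ×ˢ Icc (-σ) σ) ⊆ e.target := image_subset_iff.2 hsT
  have hKB := hK.image hkc
  have hKN : IsCompact (e.symm '' (kk '' (Icc (-σ) σ ×ˢ Icc (-σ) σ))) :=
    hKB.image_of_continuousOn (e.continuousOn_symm.mono hBt)
  refine ⟨2 * σ, by positivity, c * σ / 2, by positivity,
    e.symm '' (kk '' (Icc (-σ) σ ×ˢ Icc (-σ) σ)), hKN.measurableSet, ?_, ?_, ?_⟩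
  · rintro _ ⟨_, ⟨p, hp, rfl⟩, rfl⟩
    exact (hb (hbk p hp)).2
  · rintro _ ⟨_, ⟨p, hp, rfl⟩, rfl⟩
    have h1 := (hb (hbk p hp)).1
    have h2 := hnk p hp
    linarith
  intro θ hθ hθ0 hθs
  have h1 := hint θ hθ hθ0 (by simpa [hk0, hs0] using hθs)
  have hNs : e.symm '' (kk '' (Icc (-σ) σ ×ˢ Icc (-σ) σ)) ⊆ e.source := by
    rintro _ ⟨z, hz, rfl⟩
    exact e.map_target (hBt hz)
  have h2 : ∫ p in e.symm '' (kk '' (Icc (-σ) σ ×ˢ Icc (-σ) σ)),
      θ (f p) * ‖M.grad f p‖ ∂M.mu = ∫ z in kk '' (Icc (-σ) σ ×ˢ Icc (-σ) σ),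
        θ (f (e.symm z)) * (jac (fderiv ℝ (M.x ∘ e.symm) z) * ‖M.grad f (e.symm z)‖) := by
    rw [← integral_indicator hKN.measurableSet, Imm.integral_chart he
      (support_indicator_subset.trans hNs), ← inter_eq_right.2 hBt,
      ← setIntegral_indicator hKB.measurableSet, inter_eq_right.2 hBt]
    refine setIntegral_congr_fun e.open_target.measurableSet fun z hz => ?_
    by_cases hzB : z ∈ kk '' (Icc (-σ) σ ×ˢ Icc (-σ) σ)
    · rw [indicator_of_mem hzB, indicator_of_mem (mem_image_of_mem _ hzB), smul_eq_mul]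
      ring
    · rw [indicator_of_notMem hzB, indicator_of_notMem, smul_zero]
      rintro ⟨w, hw, hwz⟩
      exact hzB (e.symm.injOn (hBt hw) hz hwz ▸ hw)
  rw [h2, kk_mp.setIntegral_image_emb kk_emb]
  have h3 : 0 ≤ σ * ∫ s, θ s := mul_nonneg hσ0.le (integral_nonneg hθ0)
  linarith

end Crest.Agent.N250.GB

end
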