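import Mathlib

/-!
# Row 250 (helper83): the two-dimensional Morse lemma (topological charts)
-/

set_option autoImplicit false
set_option linter.unusedSectionVars false

open Topology Filter Set

noncomputable section

namespace Crest.Agent.N250.Mor

variable {E : Type*} [NormedAddCommGroup E] [NormedSpace ℝ E]

/-- Hadamard: `g (p + v) = g p + A v v v` with `A` Lipschitz near `0`, `A 0 = D²g(p)/2` (scalar form). -/
theorem had {g : E → ℝ} {p : E} (hg : ContDiffAt ℝ 3 g p) (h0 : fderiv ℝ g p = 0) :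
    ∃ (A : E → E → E → ℝ) (r : ℝ), 0 < r ∧ (∀ u w, ∃ K, LipschitzOnWith K (fun v => A v u w) (Metric.ball 0 r)) ∧
      (∀ u w, A 0 u w = fderiv ℝ (fderiv ℝ g) p u w / 2) ∧ ∀ (u w : E) (x y : ℝ), x • u + y • w ∈ Metric.ball (0 : E) r →
        g (p + (x • u + y • w)) = g p + (A (x • u + y • w) u u * x ^ 2 +
          (A (x • u + y • w) u w + A (x • u + y • w) w u) * (x * y) + A (x • u + y • w) w w * y ^ 2) := by
  have h1 : ContDiffAt ℝ 2 (fderiv ℝ g) p := hg.fderiv_right (by norm_num)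
  have h2 : ContDiffAt ℝ 1 (fderiv ℝ (fderiv ℝ g)) p := h1.fderiv_right (by norm_num)
  obtain ⟨K, t, ht, hK⟩ := h2.exists_lipschitzOnWith
  have e1 : ∀ᶠ x in 𝓝 p, DifferentiableAt ℝ g x :=
    (hg.eventually (by simp)).mono fun x hx => hx.differentiableAt (by norm_num)
  have e2 : ∀ᶠ x in 𝓝 p, DifferentiableAt ℝ (fderiv ℝ g) x :=
    (h1.eventually (by simp)).mono fun x hx => hx.differentiableAt (by norm_num)
  obtain ⟨r, r0, hr⟩ := Metric.mem_nhds_iff.1 (Filter.inter_mem ht (Filter.inter_mem e1 e2))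
  have hm : ∀ v ∈ Metric.ball (0 : E) r, ∀ s ∈ Icc (0 : ℝ) 1, p + s • v ∈ Metric.ball p r := by
    intro v hv s hs
    rw [mem_ball_iff_norm, add_sub_cancel_left, norm_smul, Real.norm_of_nonneg hs.1]
    rw [mem_ball_zero_iff] at hv
    nlinarith [norm_nonneg v, hs.1, hs.2]
  obtain ⟨D, hD⟩ : ∃ D, D = fderiv ℝ (fderiv ℝ g) := ⟨_, rfl⟩
  rw [← hD] at hK ⊢
  have hc : ∀ v ∈ Metric.ball (0 : E) r, ∀ u w : E,
      IntervalIntegrable (fun s : ℝ => (1 - s) * D (p + s • v) u w) MeasureTheory.volume 0 1 := by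
    intro v hv u w
    refine ContinuousOn.intervalIntegrable ?_
    rw [uIcc_of_le zero_le_one]
    refine (continuousOn_const.sub continuousOn_id).mul ?_
    have : ContinuousOn (fun s : ℝ => D (p + s • v)) (Icc 0 1) :=
      hK.continuousOn.comp (by fun_prop) fun s hs => (hr (hm v hv s hs)).1
    exact (this.clm_apply continuousOn_const).clm_apply continuousOn_const
  refine ⟨fun v u w => ∫ s in (0 : ℝ)..1, (1 - s) * D (p + s • v) u w, r, r0,
    fun u w => ⟨K * ‖u‖₊ * ‖w‖₊, ?_⟩, fun u w => ?_, fun u w x y hv => ?_⟩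
  · refine LipschitzOnWith.of_dist_le_mul fun v hv v' hw => ?_
    rw [dist_eq_norm, ← intervalIntegral.integral_sub (hc v hv u w) (hc v' hw u w)]
    refine (intervalIntegral.norm_integral_le_of_norm_le_const (C := K * dist v v' * ‖u‖ * ‖w‖)
      fun s hs => ?_).trans (by simp; ring_nf; rfl)
    rw [uIoc_of_le zero_le_one] at hs
    have hs' : s ∈ Icc (0 : ℝ) 1 := ⟨hs.1.le, hs.2⟩
    have a := hK.dist_le_mul _ (hr (hm v hv s hs')).1 _ (hr (hm v' hw s hs')).1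
    rw [dist_add_left, dist_smul₀, Real.norm_of_nonneg hs'.1, dist_eq_norm] at a
    have b : (0 : ℝ) ≤ K * dist v v' := by positivity
    have c : (K : ℝ) * (s * dist v v') ≤ K * dist v v' := by nlinarith [hs.1, hs.2]
    have d := ((D (p + s • v) - D (p + s • v')) u).le_of_opNorm_le
      ((D (p + s • v) - D (p + s • v')).le_of_opNorm_le (a.trans c) u) w
    rw [← mul_sub, norm_mul, Real.norm_of_nonneg (by linarith [hs.2])]
    have e : D (p + s • v) u w - D (p + s • v') u w = (D (p + s • v) - D (p + s • v')) u w := rfl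
    rw [e]
    nlinarith [norm_nonneg ((D (p + s • v) - D (p + s • v')) u w), hs.1, hs.2]
  · simp only [smul_zero, add_zero]
    rw [intervalIntegral.integral_mul_const, intervalIntegral.integral_sub (by simp) (by simp)]
    simp; ring
  · obtain ⟨v, hvv⟩ : ∃ v, v = x • u + y • w := ⟨_, rfl⟩
    rw [← hvv] at hv ⊢
    have hl : ∀ s : ℝ, HasDerivAt (fun s : ℝ => p + s • v) v s := fun s => by
      simpa using ((hasDerivAt_id s).smul_const v).const_add p
    have key : ∀ s ∈ uIcc (0 : ℝ) 1, HasDerivAt (fun s : ℝ => g (p + s • v) + (1 - s) * fderiv ℝ g (p + s • v) v)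
        ((1 - s) * D (p + s • v) v v) s := by
      intro s hs
      rw [uIcc_of_le zero_le_one] at hs
      obtain ⟨-, a1, a2⟩ := hr (hm v hv s hs)
      have b1 : HasDerivAt (fun s : ℝ => g (p + s • v)) (fderiv ℝ g (p + s • v) v) s :=
        HasFDerivAt.comp_hasDerivAt s (DifferentiableAt.hasFDerivAt a1) (hl s)
      have b0 : HasDerivAt (fun s : ℝ => fderiv ℝ g (p + s • v)) (D (p + s • v) v) s := by
        rw [hD]; exact HasFDerivAt.comp_hasDerivAt s (DifferentiableAt.hasFDerivAt a2) (hl s)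
      have b2 : HasDerivAt (fun s : ℝ => fderiv ℝ g (p + s • v) v) (D (p + s • v) v v) s := by
        simpa using b0.clm_apply (hasDerivAt_const s v)
      have b3 := b1.add (((hasDerivAt_id s).const_sub 1).mul b2)
      refine b3.congr_deriv ?_
      simp
    have := intervalIntegral.integral_eq_sub_of_hasDerivAt key (hc v hv v v)
    simp only [one_smul, sub_self, zero_mul, add_zero, zero_smul, h0, zero_apply,
      mul_zero] at this
    have e : ∀ s : ℝ, (1 - s) * D (p + s • v) v v = (1 - s) * D (p + s • v) u u * x ^ 2 +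
        ((1 - s) * D (p + s • v) u w + (1 - s) * D (p + s • v) w u) * (x * y) +
        (1 - s) * D (p + s • v) w w * y ^ 2 := by
      intro s
      obtain ⟨M, hM⟩ : ∃ M, M = D (p + s • v) := ⟨_, rfl⟩
      rw [← hM, hvv]
      simp only [map_add, map_smul, add_apply, smul_apply, smul_eq_mul]
      ring
    simp only [e] at this
    rw [intervalIntegral.integral_add (((hc v hv u u).mul_const _).add
      (((hc v hv u w).add (hc v hv w u)).mul_const _)) ((hc v hv w w).mul_const _),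
      intervalIntegral.integral_add ((hc v hv u u).mul_const _) (((hc v hv u w).add (hc v hv w u)).mul_const _),
      intervalIntegral.integral_mul_const, intervalIntegral.integral_mul_const,
      intervalIntegral.integral_mul_const, intervalIntegral.integral_add (hc v hv u w) (hc v hv w u)] at this
    simp only []
    linarith

/-- Lipschitz near `0` -/
def Lp {F : Type*} [NormedAddCommGroup F] (f : E → F) : Prop := ∃ K, ∃ t ∈ 𝓝 (0 : E), LipschitzOnWith K f t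

theorem Lp.cont {F : Type*} [NormedAddCommGroup F] {f : E → F} (h : Lp f) : ContinuousAt f 0 := by
  obtain ⟨K, t, ht, h⟩ := h
  exact h.continuousOn.continuousAt ht

theorem Lp.prod {F G : Type*} [NormedAddCommGroup F] [NormedAddCommGroup G] {f : E → F} {g : E → G}
    (hf : Lp f) (hg : Lp g) : Lp fun v => (f v, g v) := by
  obtain ⟨K, t, ht, h⟩ := hf
  obtain ⟨K', t', ht', h'⟩ := hg
  exact ⟨_, t ∩ t', inter_mem ht ht', (h.mono inter_subset_left).prodMk (h'.mono inter_subset_right)⟩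

theorem Lp.comp {F G : Type*} [NormedAddCommGroup F] [NormedSpace ℝ F] [NormedAddCommGroup G] [NormedSpace ℝ G]
    {f : E → F} {β : F → G} (hf : Lp f) (hβ : ContDiffAt ℝ 1 β (f 0)) : Lp fun v => β (f v) := by
  obtain ⟨K', t', ht', h'⟩ := hβ.exists_lipschitzOnWith
  have := hf.cont ht'
  obtain ⟨K, t, ht, h⟩ := hf
  exact ⟨_, t ∩ f ⁻¹' t', inter_mem ht this, h'.comp (h.mono inter_subset_left) fun x hx => hx.2⟩

/-- a Lipschitz coefficient times a linear form is strictly differentiable at `0` -/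
theorem strict {α : E → ℝ} (hα : Lp α) (l : E →L[ℝ] ℝ) : HasStrictFDerivAt (fun v => α v * l v) (α 0 • l) 0 := by
  obtain ⟨K, t, ht, hB⟩ := hα
  rw [hasStrictFDerivAt_iff_isLittleO, Asymptotics.isLittleO_iff]
  intro c c0
  have h0 : (0 : E) ∈ t := mem_of_mem_nhds ht
  have hs : ∀ᶠ v : E in 𝓝 0, v ∈ t ∧ (K : ℝ) * ‖v‖ * ‖l‖ ≤ c / 2 := by
    refine Filter.Eventually.and ht ?_
    have : Tendsto (fun v : E => (K : ℝ) * ‖v‖ * ‖l‖) (𝓝 0) (𝓝 0) := by
      have : Continuous fun v : E => (K : ℝ) * ‖v‖ * ‖l‖ := by fun_prop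
      simpa using this.tendsto 0
    exact this.eventually (ge_mem_nhds (by positivity))
  rw [nhds_prod_eq]
  filter_upwards [hs.prod_mk hs] with q hq
  obtain ⟨⟨a1, a2⟩, b1, b2⟩ := hq
  have e : α q.1 * l q.1 - α q.2 * l q.2 - (α 0 • l) (q.1 - q.2) =
      (α q.1 - α 0) * l (q.1 - q.2) + (α q.1 - α q.2) * l q.2 := by
    simp only [smul_apply, map_sub, smul_eq_mul]; ring
  rw [e]
  have c1 := hB.dist_le_mul _ a1 _ h0
  have c2 := hB.dist_le_mul _ a1 _ b1
  rw [dist_eq_norm, dist_zero_right] at c1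
  rw [dist_eq_norm, dist_eq_norm] at c2
  have d1 := mul_le_mul c1 (l.le_opNorm (q.1 - q.2)) (norm_nonneg _) (by positivity)
  have d2 := mul_le_mul c2 (l.le_opNorm q.2) (norm_nonneg _) (by positivity)
  refine (norm_add_le _ _).trans ?_
  rw [norm_mul, norm_mul]
  nlinarith [norm_nonneg (q.1 - q.2), mul_le_mul_of_nonneg_right a2 (norm_nonneg (q.1 - q.2)),
    mul_le_mul_of_nonneg_right b2 (norm_nonneg (q.1 - q.2))]

/-- completing the squares -/
theorem core {a b c G : ℝ × ℝ → ℝ} (ha : Lp a) (hb : Lp b) (hc : Lp c) {ε η : ℝ} (hε : ε ^ 2 = 1) (hη : η ^ 2 = 1)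
    (a0 : 0 < ε * a 0) (b0 : b 0 = 0) (c0 : 0 < η * c 0)
    (hG : ∀ᶠ q in 𝓝 (0 : ℝ × ℝ), G q = a q * q.1 ^ 2 + b q * (q.1 * q.2) + c q * q.2 ^ 2) :
    ∃ e : OpenPartialHomeomorph (ℝ × ℝ) (ℝ × ℝ), 0 ∈ e.source ∧ e 0 = 0 ∧
      ∀ q ∈ e.source, G q = ε * (e q).1 ^ 2 + η * (e q).2 ^ 2 := by
  have an : a 0 ≠ 0 := by rintro h; simp [h] at a0
  have hΦ := ha.prod (hb.prod hc)
  have k1 : ContDiffAt ℝ 1 (fun z : ℝ × ℝ × ℝ => √(ε * z.1)) (a 0, b 0, c 0) :=
    ContDiffAt.sqrt (by fun_prop) a0.ne'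
  have k0 : ContDiffAt ℝ 1 (fun z : ℝ × ℝ × ℝ => z.2.1 / (2 * z.1)) (a 0, b 0, c 0) :=
    ContDiffAt.div (by fun_prop) (by fun_prop) (by simpa using an)
  have k3 : ContDiffAt ℝ 1 (fun z : ℝ × ℝ × ℝ => √(η * (z.2.2 - z.2.1 * (z.2.1 / (2 * z.1)) / 2))) (a 0, b 0, c 0) :=
    ContDiffAt.sqrt (contDiffAt_const.mul ((by fun_prop : ContDiffAt ℝ 1 (fun z : ℝ × ℝ × ℝ => z.2.2) _).sub
      (((by fun_prop : ContDiffAt ℝ 1 (fun z : ℝ × ℝ × ℝ => z.2.1) _).mul k0).div_const 2))) (by simpa [b0] using c0.ne')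
  have l1 := strict (hΦ.comp k1) (ContinuousLinearMap.fst ℝ ℝ ℝ)
  have l2 := strict (hΦ.comp (k1.mul k0)) (ContinuousLinearMap.snd ℝ ℝ ℝ)
  have l3 := strict (hΦ.comp k3) (ContinuousLinearMap.snd ℝ ℝ ℝ)
  have s1 : √(ε * a 0) ≠ 0 := (Real.sqrt_pos.2 a0).ne'
  have s2 : √(η * c 0) ≠ 0 := (Real.sqrt_pos.2 c0).ne'
  let L : (ℝ × ℝ) ≃L[ℝ] (ℝ × ℝ) := (ContinuousLinearEquiv.unitsEquivAut ℝ (Units.mk0 _ s1)).prodCongr
    (ContinuousLinearEquiv.unitsEquivAut ℝ (Units.mk0 _ s2))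
  have hF := (l1.add l2).prodMk l3
  have hF' : HasStrictFDerivAt (fun q : ℝ × ℝ => (√(ε * a q) * q.1 + √(ε * a q) * (b q / (2 * a q)) * q.2,
      √(η * (c q - b q * (b q / (2 * a q)) / 2)) * q.2)) (L : (ℝ × ℝ) →L[ℝ] (ℝ × ℝ)) 0 := by
    refine hF.congr_fderiv ?_
    ext <;> simp [L, b0]
  have p1 : ∀ᶠ q in 𝓝 (0 : ℝ × ℝ), 0 < ε * a q :=
    (continuousAt_const.mul ha.cont).eventually (lt_mem_nhds a0)
  have p2 : ∀ᶠ q in 𝓝 (0 : ℝ × ℝ), 0 < η * (c q - b q * (b q / (2 * a q)) / 2) := by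
    have : ContinuousAt (fun q => η * (c q - b q * (b q / (2 * a q)) / 2)) 0 :=
      continuousAt_const.mul (hc.cont.sub ((hb.cont.mul (hb.cont.div (continuousAt_const.mul ha.cont)
        (by simpa using an))).div_const 2))
    exact this.eventually (lt_mem_nhds (by simpa [b0] using c0))
  obtain ⟨U, hU, Uo, U0⟩ := mem_nhds_iff.1 (hG.and (p1.and p2))
  refine ⟨(hF'.toOpenPartialHomeomorph _).restrOpen U Uo, ⟨hF'.mem_toOpenPartialHomeomorph_source, U0⟩, ?_,
    fun q hq => ?_⟩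
  · simp
  · obtain ⟨h1, h2, h3⟩ := hU hq.2
    have aq : a q ≠ 0 := by rintro h; simp [h] at h2
    simp only [OpenPartialHomeomorph.coe_restrOpen, HasStrictFDerivAt.toOpenPartialHomeomorph_coe]
    rw [h1, mul_assoc, ← mul_add, mul_pow, mul_pow, Real.sq_sqrt h2.le, Real.sq_sqrt h3.le]
    have : ε * (ε * a q * (q.1 + b q / (2 * a q) * q.2) ^ 2) +
        η * (η * (c q - b q * (b q / (2 * a q)) / 2) * q.2 ^ 2) = ε ^ 2 * (a q * (q.1 + b q / (2 * a q) * q.2) ^ 2) +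
        η ^ 2 * ((c q - b q * (b q / (2 * a q)) / 2) * q.2 ^ 2) := by ring
    rw [this, hε, hη]
    field_simp
    ring

/-- an `H`-orthogonal basis for a nondegenerate symmetric form on a plane -/
theorem diag [FiniteDimensional ℝ E] (hE : Module.finrank ℝ E = 2) (H : E →L[ℝ] E →L[ℝ] ℝ)
    (hs : ∀ u w, H u w = H w u) (hn : ∀ v, (∀ w, H v w = 0) → v = 0) :
    ∃ (u w : E) (L : (ℝ × ℝ) ≃L[ℝ] E), (∀ q, L q = q.1 • u + q.2 • w) ∧ H u u ≠ 0 ∧ H u w = 0 ∧ H w w ≠ 0 := by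
  have nt : Nontrivial E := Module.nontrivial_of_finrank_pos (R := ℝ) (by omega)
  obtain ⟨u, hu⟩ : ∃ u, H u u ≠ 0 := by
    by_contra h
    push Not at h
    obtain ⟨v, hv⟩ := exists_ne (0 : E)
    refine hv (hn v fun w => ?_)
    have := h (v + w)
    simp only [map_add, add_apply, h v, h w, hs w v] at this
    linarith
  obtain ⟨w, hw, w0⟩ : ∃ w, H u w = 0 ∧ w ≠ 0 := by
    have : LinearMap.ker (H u : E →ₗ[ℝ] ℝ) ≠ ⊥ :=
      LinearMap.ker_ne_bot_of_finrank_lt (by simp [hE])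
    obtain ⟨w, h1, h2⟩ := Submodule.exists_mem_ne_zero_of_ne_bot this
    exact ⟨w, h1, h2⟩
  let T : (ℝ × ℝ) →ₗ[ℝ] E := (LinearMap.fst ℝ ℝ ℝ).smulRight u + (LinearMap.snd ℝ ℝ ℝ).smulRight w
  have hT : ∀ q, T q = q.1 • u + q.2 • w := fun q => rfl
  have inj : Function.Injective T := by
    rw [injective_iff_map_eq_zero]
    intro q hq
    rw [hT] at hq
    have := congrArg (H u) hq
    simp only [map_add, map_smul, hw, smul_eq_mul, mul_zero, add_zero, map_zero, mul_eq_zero, hu, or_false] at this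
    rw [this, zero_smul, zero_add, smul_eq_zero] at hq
    exact Prod.ext this (hq.resolve_right w0)
  let L := (T.linearEquivOfInjective inj (by simp [hE])).toContinuousLinearEquiv
  have hL : ∀ q, L q = q.1 • u + q.2 • w := fun q => rfl
  refine ⟨u, w, L, hL, hu, hw, fun h => w0 (hn w fun v => ?_)⟩
  obtain ⟨q, rfl⟩ := L.surjective v
  rw [hL]
  simp [h, hs w u, hw]

/-- **Morse lemma in dimension two**: the chart and the type of the critical point. -/
theorem morse [FiniteDimensional ℝ E] (hE : Module.finrank ℝ E = 2) {g : E → ℝ} {p : E}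
    (hg : ContDiffAt ℝ 3 g p) (h0 : fderiv ℝ g p = 0)
    (hn : ∀ v, (∀ w, fderiv ℝ (fderiv ℝ g) p v w = 0) → v = 0) :
    ∃ e : OpenPartialHomeomorph E (ℝ × ℝ), p ∈ e.source ∧ e p = 0 ∧
      (((∀ v, v ≠ 0 → 0 < fderiv ℝ (fderiv ℝ g) p v v) ∧ ∀ x ∈ e.source, g x = g p + ((e x).1 ^ 2 + (e x).2 ^ 2)) ∨
       ((∀ v, v ≠ 0 → fderiv ℝ (fderiv ℝ g) p v v < 0) ∧ ∀ x ∈ e.source, g x = g p - ((e x).1 ^ 2 + (e x).2 ^ 2)) ∨
       ((∃ u w, 0 < fderiv ℝ (fderiv ℝ g) p u u ∧ fderiv ℝ (fderiv ℝ g) p w w < 0) ∧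
         ∀ x ∈ e.source, g x = g p + (e x).1 * (e x).2)) := by
  have hs : ∀ u w, fderiv ℝ (fderiv ℝ g) p u w = fderiv ℝ (fderiv ℝ g) p w u :=
    (hg.isSymmSndFDerivAt (by simp; norm_num)).eq
  obtain ⟨A, r, r0, hA, A0, hA'⟩ := had hg h0
  obtain ⟨H, hH⟩ : ∃ H, H = fderiv ℝ (fderiv ℝ g) p := ⟨_, rfl⟩
  rw [← hH] at hs hn A0 ⊢
  obtain ⟨u, w, L, hL, hu, huw, hw⟩ := diag hE H hs hn
  have hb : ∀ᶠ q in 𝓝 (0 : ℝ × ℝ), L q ∈ Metric.ball (0 : E) r :=
    L.continuous.continuousAt.eventually (by rw [map_zero]; exact Metric.ball_mem_nhds _ r0)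
  have lp : ∀ x y, Lp fun q : ℝ × ℝ => A (L q) x y := fun x y => by
    obtain ⟨K, hK⟩ := hA x y
    exact ⟨_, _, hb, hK.comp L.lipschitz.lipschitzOnWith fun q hq => hq⟩
  have lb : Lp fun q : ℝ × ℝ => A (L q) u w + A (L q) w u :=
    ((lp u w).prod (lp w u)).comp (β := fun z : ℝ × ℝ => z.1 + z.2) (by fun_prop)
  have main : ∀ ε η : ℝ, ε ^ 2 = 1 → η ^ 2 = 1 → 0 < ε * H u u → 0 < η * H w w →
      ∃ e : OpenPartialHomeomorph E (ℝ × ℝ), p ∈ e.source ∧ e p = 0 ∧
        ∀ x ∈ e.source, g x = g p + (ε * (e x).1 ^ 2 + η * (e x).2 ^ 2) := by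
    intro ε η hε hη a0 c0
    obtain ⟨e, e0, e1, he⟩ := core (G := fun q => g (p + L q) - g p) (lp u u) lb (lp w w) hε hη
      (by simp only [map_zero, A0]; linarith) (by simp [A0, huw, hs w u]) (by simp only [map_zero, A0]; linarith)
      (hb.mono fun q hq => by rw [hL] at hq ⊢; simp only [hA' u w _ _ hq]; ring)
    let τ : E ≃ₜ (ℝ × ℝ) := (Homeomorph.subRight p).trans L.symm.toHomeomorph
    have hτ : ∀ x, p + L (τ x) = x := fun x => by simp [τ]
    have τp : τ p = 0 := by simp [τ]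
    refine ⟨τ.toOpenPartialHomeomorph.trans e, ⟨mem_univ _, by simpa [τp] using e0⟩, by simpa [τp] using e1,
      fun x hx => ?_⟩
    have := he (τ x) hx.2
    simp only [hτ] at this
    simp only [OpenPartialHomeomorph.coe_trans, Function.comp, Homeomorph.toOpenPartialHomeomorph_apply]
    linarith
  have hq : ∀ v, v ≠ 0 → ∃ x y : ℝ, 0 < x ^ 2 + y ^ 2 ∧ H v v = x ^ 2 * H u u + y ^ 2 * H w w := by
    intro v hv
    obtain ⟨q, rfl⟩ := L.surjective v
    refine ⟨q.1, q.2, ?_, ?_⟩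
    · by_contra h
      have h1 : q.1 = 0 := by nlinarith [sq_nonneg q.1, sq_nonneg q.2]
      have h2 : q.2 = 0 := by nlinarith [sq_nonneg q.1, sq_nonneg q.2]
      exact hv (by rw [hL, h1, h2]; simp)
    · rw [hL]
      simp only [map_add, map_smul, add_apply, smul_apply, smul_eq_mul, huw, hs w u]
      ring
  let σ : (ℝ × ℝ) ≃ₜ (ℝ × ℝ) :=
    { toFun := fun q => (q.1 - q.2, q.1 + q.2)
      invFun := fun q => ((q.1 + q.2) / 2, (q.2 - q.1) / 2)
      left_inv := fun q => by ext <;> simp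
      right_inv := fun q => by ext <;> simp <;> ring }
  let σ' : (ℝ × ℝ) ≃ₜ (ℝ × ℝ) := (Homeomorph.prodComm ℝ ℝ).trans σ
  rcases hu.lt_or_gt with a | a <;> rcases hw.lt_or_gt with c | c
  · obtain ⟨e, e0, e1, he⟩ := main (-1) (-1) (by norm_num) (by norm_num) (by linarith) (by linarith)
    refine ⟨e, e0, e1, Or.inr (Or.inl ⟨fun v hv => ?_, fun x hx => by rw [he x hx]; ring⟩)⟩
    obtain ⟨x, y, h1, h2⟩ := hq v hv
    rw [h2]
    rcases le_total (H u u) (H w w) with l | l <;> nlinarith [sq_nonneg x, sq_nonneg y]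
  · obtain ⟨e, e0, e1, he⟩ := main (-1) 1 (by norm_num) (by norm_num) (by linarith) (by linarith)
    refine ⟨e.trans σ'.toOpenPartialHomeomorph, ⟨e0, mem_univ _⟩, by simp [e1, σ', σ],
      Or.inr (Or.inr ⟨⟨w, u, c, a⟩, fun x hx => ?_⟩)⟩
    rw [he x hx.1]
    simp [σ', σ]; ring
  · obtain ⟨e, e0, e1, he⟩ := main 1 (-1) (by norm_num) (by norm_num) (by linarith) (by linarith)
    refine ⟨e.trans σ.toOpenPartialHomeomorph, ⟨e0, mem_univ _⟩, by simp [e1, σ],
      Or.inr (Or.inr ⟨⟨u, w, a, c⟩, fun x hx => ?_⟩)⟩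
    rw [he x hx.1]
    simp [σ]; ring
  · obtain ⟨e, e0, e1, he⟩ := main 1 1 (by norm_num) (by norm_num) (by linarith) (by linarith)
    refine ⟨e, e0, e1, Or.inl ⟨fun v hv => ?_, fun x hx => by rw [he x hx]; ring⟩⟩
    obtain ⟨x, y, h1, h2⟩ := hq v hv
    rw [h2]
    rcases le_total (H u u) (H w w) with l | l <;> nlinarith [sq_nonneg x, sq_nonneg y]

/-- the chart at a regular point -/
theorem regular [FiniteDimensional ℝ E] (hE : Module.finrank ℝ E = 2) {g : E → ℝ} {p : E}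
    (hg : ContDiffAt ℝ 1 g p) (h0 : fderiv ℝ g p ≠ 0) :
    ∃ e : OpenPartialHomeomorph E (ℝ × ℝ), p ∈ e.source ∧ e p = 0 ∧ ∀ x, g x = g p + (e x).2 := by
  have : CompleteSpace E := FiniteDimensional.complete ℝ E
  have hd := hg.hasStrictFDerivAt (by norm_num)
  obtain ⟨l, hl⟩ : ∃ l, l = fderiv ℝ g p := ⟨_, rfl⟩
  rw [← hl] at hd h0
  obtain ⟨w, hw⟩ : ∃ w, l w ≠ 0 := by
    by_contra h
    push Not at h
    exact h0 (ContinuousLinearMap.ext h)
  obtain ⟨u, hu, u0⟩ : ∃ u, l u = 0 ∧ u ≠ 0 := by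
    have : LinearMap.ker (l : E →ₗ[ℝ] ℝ) ≠ ⊥ := LinearMap.ker_ne_bot_of_finrank_lt (by simp [hE])
    obtain ⟨w, h1, h2⟩ := Submodule.exists_mem_ne_zero_of_ne_bot this
    exact ⟨w, h1, h2⟩
  let T : (ℝ × ℝ) →ₗ[ℝ] E := (LinearMap.fst ℝ ℝ ℝ).smulRight u + (LinearMap.snd ℝ ℝ ℝ).smulRight ((l w)⁻¹ • w)
  have hT : ∀ q, T q = q.1 • u + q.2 • (l w)⁻¹ • w := fun q => rfl
  have lT : ∀ q, l (T q) = q.2 := fun q => by rw [hT]; simp [hu, hw]
  have inj : Function.Injective T := by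
    rw [injective_iff_map_eq_zero]
    intro q hq
    have h2 : q.2 = 0 := by rw [← lT, hq, map_zero]
    rw [hT, h2, zero_smul, add_zero, smul_eq_zero] at hq
    exact Prod.ext (hq.resolve_right u0) h2
  let L := (T.linearEquivOfInjective inj (by simp [hE])).toContinuousLinearEquiv
  have lL : ∀ v, l v = (L.symm v).2 := fun v => by
    rw [← lT]; exact congrArg l (L.apply_symm_apply v).symm
  have h1 : HasStrictFDerivAt (fun x => (L.symm (x - p)).1)
      ((ContinuousLinearMap.fst ℝ ℝ ℝ).comp (L.symm : E →L[ℝ] ℝ × ℝ)) p := by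
    have := ((ContinuousLinearMap.fst ℝ ℝ ℝ).comp (L.symm : E →L[ℝ] ℝ × ℝ)).hasStrictFDerivAt.comp p
      ((hasStrictFDerivAt_id p).sub_const p)
    simpa using this
  have hF : HasStrictFDerivAt (fun x => ((L.symm (x - p)).1, g x - g p)) (L.symm : E →L[ℝ] ℝ × ℝ) p := by
    refine (h1.prodMk (hd.sub_const _)).congr_fderiv ?_
    ext v <;> simp [lL]
  exact ⟨hF.toOpenPartialHomeomorph _, hF.mem_toOpenPartialHomeomorph_source, by simp, fun x => by simp⟩

end Crest.Agent.N250.Mor
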