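import Crest.Agent.N250.GB.Defs
import Crest.Agent.N250.GB.Mor

/-!
# Row 250 (helper83): `MorS`
-/

set_option autoImplicit false

open Topology Filter Set
open scoped ContDiff

noncomputable section

namespace Crest.Agent.N250.GB

open Crest.Agent.N222

theorem mor_dec (v : E (Fin 2)) : v = v 0 • ee 0 + v 1 • ee 1 := by
  ext i; fin_cases i <;> simp [ee]

theorem morS : MorS := by
  intro g z hg
  have hE : Module.finrank ℝ (E (Fin 2)) = 2 := by simp
  refine ⟨fun h => ?_, fun h D hD => ?_⟩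
  · obtain ⟨e, a, b, c⟩ := Mor.regular hE (hg.of_le (by exact_mod_cast le_top)) h
    exact ⟨e, a, b, fun q _ => by simpa [model] using c q⟩
  have h3 : ContDiffAt ℝ 3 g z := hg.of_le (ENat.natCast_le_of_coe_top_le_withTop le_rfl 3)
  have hs : ∀ u w, fderiv ℝ (fderiv ℝ g) z u w = fderiv ℝ (fderiv ℝ g) z w u :=
    (h3.isSymmSndFDerivAt (by simp; norm_num)).eq
  have key := Mor.morse hE h3 h
  obtain ⟨H, hH⟩ : ∃ H, H = fderiv ℝ (fderiv ℝ g) z := ⟨_, rfl⟩
  rw [← hH] at hs hD key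
  have ex : ∀ (x y x' y' : ℝ), H (x • ee 0 + y • ee 1) (x' • ee 0 + y' • ee 1) =
      x * x' * H (ee 0) (ee 0) + (x * y' + y * x') * H (ee 0) (ee 1) + y * y' * H (ee 1) (ee 1) := by
    intro x y x' y'
    simp only [map_add, map_smul, add_apply, smul_apply, smul_eq_mul, hs (ee 1) (ee 0)]
    ring
  have hn : D ≠ 0 → ∀ v, (∀ w, H v w = 0) → v = 0 := by
    intro D0 v hv
    have a := hv ((1 : ℝ) • ee 0 + (0 : ℝ) • ee 1)
    have b := hv ((0 : ℝ) • ee 0 + (1 : ℝ) • ee 1)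
    rw [mor_dec v, ex] at a b
    have c : v 0 * D = 0 := by rw [hD]; linear_combination H (ee 1) (ee 1) * a - H (ee 0) (ee 1) * b
    have d : v 1 * D = 0 := by rw [hD]; linear_combination H (ee 0) (ee 0) * b - H (ee 0) (ee 1) * a
    rw [mor_dec v, (mul_eq_zero.1 c).resolve_right D0, (mul_eq_zero.1 d).resolve_right D0]
    simp
  have ne : ∀ x y : ℝ, y ≠ 0 → x • ee 0 + y • (ee 1 : E (Fin 2)) ≠ 0 := fun x y y0 h => y0 (by
    simpa [ee] using congrArg (fun v : E (Fin 2) => v 1) h)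
  have n0 : (ee 0 : E (Fin 2)) ≠ 0 := fun h => by simpa [ee] using congrArg (fun v : E (Fin 2) => v 0) h
  refine ⟨fun D0 => ?_, fun D0 => ?_⟩
  · obtain ⟨e, a, b, c | c | c⟩ := key (hn D0.ne')
    · exact Or.inr ⟨e, a, b, fun q hq => by simpa [model] using c.2 q hq⟩
    · exact Or.inl ⟨e, a, b, fun q hq => by rw [c.2 q hq]; simp [model]; ring⟩
    · exfalso
      obtain ⟨⟨u, w, h1, h2⟩, -⟩ := c
      rw [mor_dec u, ex] at h1
      rw [mor_dec w, ex] at h2
      obtain ⟨p, hp⟩ : ∃ p, p = H (ee 0) (ee 0) := ⟨_, rfl⟩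
      obtain ⟨q, hq⟩ : ∃ q, q = H (ee 0) (ee 1) := ⟨_, rfl⟩
      obtain ⟨r, hr⟩ : ∃ r, r = H (ee 1) (ee 1) := ⟨_, rfl⟩
      rw [← hp, ← hq, ← hr] at h1 h2 hD
      have e : ∀ x y : ℝ, p * (x * x * p + (x * y + y * x) * q + y * y * r) = (p * x + q * y) ^ 2 + D * y ^ 2 := by
        intro x y; rw [hD]; ring
      rcases lt_trichotomy p 0 with l | l | l
      · nlinarith [e (u 0) (u 1), sq_nonneg (p * u 0 + q * u 1), mul_nonneg D0.le (sq_nonneg (u 1))]
      · rw [l] at hD; nlinarith [sq_nonneg q]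
      · nlinarith [e (w 0) (w 1), sq_nonneg (p * w 0 + q * w 1), mul_nonneg D0.le (sq_nonneg (w 1))]
  · obtain ⟨e, a, b, c | c | c⟩ := key (hn D0.ne)
    · exfalso
      have p0 := c.1 _ n0
      have := c.1 _ (ne (-H (ee 0) (ee 1)) _ p0.ne')
      rw [ex] at this
      nlinarith
    · exfalso
      have p0 := c.1 _ n0
      have := c.1 _ (ne (-H (ee 0) (ee 1)) _ p0.ne)
      rw [ex] at this
      nlinarith
    · exact ⟨e, a, b, fun q hq => by simpa [model] using c.2 q hq⟩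

end Crest.Agent.N250.GB
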