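import Crest.Agent.N250.GB.Defs

/-!
# Row 250, local Gauss-Bonnet: a compact piece of a thin band has total curvature (helper69)

Divergence theorem for `θ(f) 1_U T Z`, `T = (|V|² P - V Vᵀ) / √(|V|² + k²)`, `V = ∇f`,
`Z = (x - y) / √(|x - y|² + ε²)`.
-/

set_option autoImplicit false
set_option linter.unusedSectionVars false
open MeasureTheory Set Filter Topology Function
open scoped ContDiff

noncomputable section

namespace Crest.Agent.N250.GB

open Crest.Agent.N222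

namespace Pc

variable {X : Type} [TopologicalSpace X] {M : Imm 2 (Fin 3) X} {f : X → ℝ} {k ε : ℝ}
  {y : E (Fin 3)}

theorem D_isqrt {g : X → ℝ} {p : X} (hg : M.DiffAt g p) (h0 : 0 < g p) (a : Fin 3) :
    M.pre.D a (fun q => (√(g q))⁻¹) p = -(1 / 2) * (√(g p))⁻¹ ^ 3 * M.pre.D a g p := by
  have h1 : 0 < √(g p) := Real.sqrt_pos.2 h0
  have h := (Real.hasDerivAt_sqrt h0.ne').inv h1.ne'
  have h2 := Imm.D_comp hg h a
  simp only [Pi.inv_apply] at h2
  rw [h2]
  field_simp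

theorem DP (M : Imm 2 (Fin 3) X) (a b c : Fin 3) (p : X) :
    M.pre.D a (M.pre.P b c) p = M.pre.II a b c p + M.pre.II a c b p := by
  have := congrArg M.val (M.isDS.DP a b c)
  simp only [map_add, M.hom.II, M.hom.D, M.hom.P] at this
  simpa using congrFun this p

theorem PD (f : X → ℝ) (a : Fin 3) (p : X) :
    ∑ b, M.pre.P a b p * M.pre.D b f p = M.pre.D a f p := by
  simpa using congrFun (Imm.tan_D (M := M) f a) p

/-- `1 / √(|V|² + k²)` -/
def w (M : Imm 2 (Fin 3) X) (f : X → ℝ) (k : ℝ) (p : X) : ℝ := (√(M.pre.gam f f p + k ^ 2))⁻¹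

/-- the tensor -/
def T (M : Imm 2 (Fin 3) X) (f : X → ℝ) (k : ℝ) (a b : Fin 3) (p : X) : ℝ :=
  w M f k p * (M.pre.gam f f p * M.pre.P a b p - M.pre.D a f p * M.pre.D b f p)

/-- `1 / √(|x - y|² + ε²)` -/
def r (M : Imm 2 (Fin 3) X) (y : E (Fin 3)) (ε : ℝ) (p : X) : ℝ := (√(‖M.x p - y‖ ^ 2 + ε ^ 2))⁻¹

/-- the position field -/
def Z (M : Imm 2 (Fin 3) X) (y : E (Fin 3)) (ε : ℝ) (b : Fin 3) (p : X) : ℝ :=
  r M y ε p * (M.x p b - y b)

/-- the vector field -/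
def Y (M : Imm 2 (Fin 3) X) (f : X → ℝ) (k : ℝ) (y : E (Fin 3)) (ε : ℝ) (a : Fin 3) (p : X) : ℝ :=
  ∑ b, T M f k a b p * Z M y ε b p

theorem gk_pos (hk : 0 < k) (p : X) : 0 < M.pre.gam f f p + k ^ 2 := by
  have := Imm.gam_self_nonneg (M := M) f p
  positivity

theorem sm_gk (hf : M.Sm f) : M.Sm fun p => M.pre.gam f f p + k ^ 2 :=
  (hf.gam hf).add (Imm.sm_const _)

theorem sm_w (hf : M.Sm f) (hk : 0 < k) : M.Sm (w M f k) :=
  ((sm_gk hf).sqrt fun p => (gk_pos hk p).ne').inv fun p => (Real.sqrt_pos.2 (gk_pos hk p)).ne'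

theorem sm_T0 (hf : M.Sm f) (a b : Fin 3) :
    M.Sm fun p => M.pre.gam f f p * M.pre.P a b p - M.pre.D a f p * M.pre.D b f p :=
  ((hf.gam hf).mul (M.sm_P a b)).sub ((hf.D a).mul (hf.D b))

theorem sm_T (hf : M.Sm f) (hk : 0 < k) (a b : Fin 3) : M.Sm (T M f k a b) :=
  (sm_w hf hk).mul (sm_T0 hf a b)

theorem sm_n (y : E (Fin 3)) : M.Sm fun p => ‖M.x p - y‖ ^ 2 :=
  M.sm_x.comp (g := fun z => ‖z - y‖ ^ 2) ((contDiff_id.sub contDiff_const).norm_sq ℝ)

theorem sm_r (hε : 0 < ε) : M.Sm (r M y ε) :=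
  (((sm_n y).add (Imm.sm_const (ε ^ 2))).sqrt fun p => by positivity).inv
    fun p => (Real.sqrt_pos.2 (by positivity)).ne'

theorem sm_y (b : Fin 3) : M.Sm fun p => M.x p b - y b := (M.sm_coord b).sub (Imm.sm_const _)

theorem sm_Z (hε : 0 < ε) (b : Fin 3) : M.Sm (Z M y ε b) := (sm_r hε).mul (sm_y b)

theorem sm_Y (hf : M.Sm f) (hk : 0 < k) (hε : 0 < ε) (a : Fin 3) : M.Sm (Y M f k y ε a) :=
  Imm.sm_sum _ fun b _ => (sm_T hf hk a b).mul (sm_Z hε b)

theorem tan_Y : M.pre.Tan (Y M f k y ε) := by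
  intro a
  funext p
  have h1 := fun c => M.PP a c p
  have h2 := PD (M := M) f a p
  simp only [Finset.sum_apply, Pi.mul_apply, Y, T, Fin.sum_univ_three] at h1 h2 ⊢
  linear_combination (-w M f k p * (M.pre.D 0 f p * Z M y ε 0 p + M.pre.D 1 f p * Z M y ε 1 p +
    M.pre.D 2 f p * Z M y ε 2 p)) * h2 + w M f k p * M.pre.gam f f p *
    (Z M y ε 0 p * h1 0 + Z M y ε 1 p * h1 1 + Z M y ε 2 p * h1 2)

theorem Y_V (p : X) : ∑ a, Y M f k y ε a p * M.pre.D a f p = 0 := by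
  have h0 := PD (M := M) f 0 p
  have h1 := PD (M := M) f 1 p
  have h2 := PD (M := M) f 2 p
  have hg := Imm.gam_apply (M := M) f f p
  simp only [Y, T, Fin.sum_univ_three, M.P_symm 1 0, M.P_symm 2 0, M.P_symm 2 1] at h0 h1 h2 hg ⊢
  linear_combination (w M f k p * M.pre.gam f f p) * (Z M y ε 0 p * h0 + Z M y ε 1 p * h1 +
    Z M y ε 2 p * h2) + w M f k p * (M.pre.D 0 f p * Z M y ε 0 p + M.pre.D 1 f p * Z M y ε 1 p +
    M.pre.D 2 f p * Z M y ε 2 p) * hg

theorem w_pos (hk : 0 < k) (p : X) : 0 < w M f k p := inv_pos.2 (Real.sqrt_pos.2 (gk_pos hk p))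

theorem w_le (hk : 0 < k) (p : X) : w M f k p * ‖M.grad f p‖ ≤ 1 := by
  rw [w, inv_mul_le_iff₀ (Real.sqrt_pos.2 (gk_pos hk p)), mul_one, Imm.gam_self_eq]
  exact Real.le_sqrt_of_sq_le (by nlinarith)

theorem w_ge (hk : 0 < k) {p : X} (h : k ≤ ‖M.grad f p‖) :
    ‖M.grad f p‖ / 2 ≤ w M f k p * M.pre.gam f f p := by
  rw [w, ← div_eq_inv_mul, le_div_iff₀ (Real.sqrt_pos.2 (gk_pos hk p)), Imm.gam_self_eq]
  have : √(‖M.grad f p‖ ^ 2 + k ^ 2) ≤ 2 * ‖M.grad f p‖ :=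
    Real.sqrt_le_iff.2 ⟨by positivity, by nlinarith⟩
  nlinarith [norm_nonneg (M.grad f p)]

theorem r_pos (hε : 0 < ε) (p : X) : 0 < r M y ε p := inv_pos.2 (Real.sqrt_pos.2 (by positivity))

theorem r_sq (hε : 0 < ε) (p : X) : r M y ε p ^ 2 * (‖M.x p - y‖ ^ 2 + ε ^ 2) = 1 := by
  rw [r, inv_pow, Real.sq_sqrt (by positivity), inv_mul_cancel₀ (by positivity)]

theorem r_ge (hε : 0 < ε) {p : X} (h : ‖M.x p - y‖ ≤ ε) : 1 / (8 * ε) ≤ r M y ε p ^ 3 * ε ^ 2 := by
  have h1 : √(‖M.x p - y‖ ^ 2 + ε ^ 2) ≤ 2 * ε :=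
    Real.sqrt_le_iff.2 ⟨by positivity, by nlinarith [norm_nonneg (M.x p - y)]⟩
  have h2 : (2 * ε)⁻¹ ≤ r M y ε p := inv_anti₀ (Real.sqrt_pos.2 (by positivity)) h1
  calc 1 / (8 * ε) = (2 * ε)⁻¹ ^ 3 * ε ^ 2 := by field_simp; norm_num
    _ ≤ _ := by gcongr

theorem abs_Z (hε : 0 < ε) (b : Fin 3) (p : X) : |Z M y ε b p| ≤ 1 := by
  have h1 : |M.x p b - y b| ≤ ‖M.x p - y‖ := by
    simpa using PiLp.norm_apply_le (M.x p - y) b
  have h2 : ‖M.x p - y‖ ≤ √(‖M.x p - y‖ ^ 2 + ε ^ 2) := Real.le_sqrt_of_sq_le (by nlinarith)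
  rw [Z, abs_mul, abs_of_pos (r_pos hε p), r,
    inv_mul_le_iff₀ (Real.sqrt_pos.2 (by positivity)), mul_one]
  exact h1.trans h2

theorem abs_V (a : Fin 3) (p : X) : |M.pre.D a f p| ≤ ‖M.grad f p‖ := by
  simpa [Imm.grad] using PiLp.norm_apply_le (M.grad f p) a

theorem abs_S (a b : Fin 3) (p : X) : |M.pre.hess f a b p| ≤ nS M f p := by
  refine Real.abs_le_sqrt ?_
  refine le_trans ?_ (Finset.single_le_sum (f := fun a => ∑ b, M.pre.hess f a b p ^ 2)
    (fun _ _ => by positivity) (Finset.mem_univ a))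
  exact Finset.single_le_sum (f := fun b => M.pre.hess f a b p ^ 2)
    (fun _ _ => by positivity) (Finset.mem_univ b)

theorem abs_II (a b c : Fin 3) (p : X) : |M.pre.II a b c p| ≤ √(a2 M p) := by
  refine Real.abs_le_sqrt ?_
  refine le_trans ?_ (Finset.single_le_sum (f := fun a => ∑ b, ∑ c, M.pre.II a b c p ^ 2)
    (fun _ _ => by positivity) (Finset.mem_univ a))
  refine le_trans ?_ (Finset.single_le_sum (f := fun b => ∑ c, M.pre.II a b c p ^ 2)
    (fun _ _ => by positivity) (Finset.mem_univ b))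
  exact Finset.single_le_sum (f := fun c => M.pre.II a b c p ^ 2)
    (fun _ _ => by positivity) (Finset.mem_univ c)

theorem abs_mul_le {a b A B : ℝ} (ha : |a| ≤ A) (hb : |b| ≤ B) : |a * b| ≤ A * B := by
  rw [abs_mul]
  exact mul_le_mul ha hb (abs_nonneg _) ((abs_nonneg _).trans ha)

theorem abs_sum3 {g : Fin 3 → ℝ} {A : ℝ} (h : ∀ a, |g a| ≤ A) : |∑ a, g a| ≤ 3 * A := by
  rw [Fin.sum_univ_three]
  have := h 0
  have := h 1
  have := h 2
  have := abs_add_le (g 0 + g 1) (g 2)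
  have := abs_add_le (g 0) (g 1)
  linarith

theorem abs_DD (hf : M.Sm f) (a b : Fin 3) (p : X) :
    |M.pre.D a (M.pre.D b f) p| ≤ nS M f p + 3 * (√(a2 M p) * ‖M.grad f p‖) := by
  rw [Imm.DD hf]
  exact (abs_add_le _ _).trans (add_le_add (abs_S a b p)
    (abs_sum3 fun c => abs_mul_le (abs_II a c b p) (abs_V c p)))

theorem D_gam (hf : M.Sm f) (a : Fin 3) (p : X) :
    M.pre.D a (M.pre.gam f f) p = 2 * ∑ e, M.pre.hess f a e p * M.pre.D e f p := by
  have h0 := PD (M := M) f 0 p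
  have h1 := PD (M := M) f 1 p
  have h2 := PD (M := M) f 2 p
  rw [show M.pre.gam f f = fun q => ∑ c, M.pre.D c f q * M.pre.D c f q from
    funext (Imm.gam_apply f f), Imm.D_sum _ fun c _ => ((hf.D c).mul (hf.D c)).diffAt p]
  simp only [Imm.D_mul ((hf.D _).diffAt p) ((hf.D _).diffAt p), Imm.hess_apply,
    Fin.sum_univ_three, M.P_symm 1 0, M.P_symm 2 0, M.P_symm 2 1] at h0 h1 h2 ⊢
  linear_combination (-2 * M.pre.D a (M.pre.D 0 f) p) * h0 + (-2 * M.pre.D a (M.pre.D 1 f) p) * h1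
    + (-2 * M.pre.D a (M.pre.D 2 f) p) * h2

theorem abs_D_gam (hf : M.Sm f) (a : Fin 3) (p : X) :
    |M.pre.D a (M.pre.gam f f) p| ≤ 6 * (nS M f p * ‖M.grad f p‖) := by
  rw [D_gam hf, abs_mul, abs_two]
  linarith [abs_sum3 fun e => abs_mul_le (abs_S (M := M) (f := f) a e p) (abs_V (M := M) (f := f) e p)]

theorem D_w (hf : M.Sm f) (hk : 0 < k) (a : Fin 3) (p : X) :
    M.pre.D a (w M f k) p = -(1 / 2) * w M f k p ^ 3 * M.pre.D a (M.pre.gam f f) p := by
  have h := D_isqrt ((sm_gk (k := k) hf).diffAt p) (gk_pos hk p) a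
  rw [Imm.D_add ((hf.gam hf).diffAt p) ((Imm.sm_const _).diffAt p), Imm.D_const, add_zero] at h
  exact h

theorem abs_DT (hf : M.Sm f) (hk : 0 < k) (a b c : Fin 3) (p : X) :
    |M.pre.D a (T M f k b c) p| ≤ 14 * Gf M f p := by
  have e1 := Imm.D_mul ((sm_w hf hk).diffAt p) ((sm_T0 hf b c).diffAt p) a
  rw [Imm.D_sub (((hf.gam hf).mul (M.sm_P b c)).diffAt p) (((hf.D b).mul (hf.D c)).diffAt p),
    Imm.D_mul ((hf.gam hf).diffAt p) ((M.sm_P b c).diffAt p),
    Imm.D_mul ((hf.D b).diffAt p) ((hf.D c).diffAt p), D_w hf hk, DP] at e1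
  have hw := w_pos (M := M) (f := f) hk p
  have hw1 := w_le (M := M) (f := f) hk p
  have hg := Imm.gam_self_eq (M := M) f p
  have hn : 0 ≤ nS M f p := Real.sqrt_nonneg _
  have hα : 0 ≤ √(a2 M p) := Real.sqrt_nonneg _
  have hv : 0 ≤ ‖M.grad f p‖ := norm_nonneg _
  have hgam : |M.pre.gam f f p| ≤ ‖M.grad f p‖ ^ 2 := by rw [hg, abs_of_nonneg (by positivity)]
  have b1 := abs_mul_le hgam ((abs_add_le _ _).trans (add_le_add (abs_II (M := M) a b c p)
    (abs_II (M := M) a c b p)))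
  have b2 := abs_mul_le (abs_D_gam hf a p) (M.abs_P_le b c p)
  have b3 := abs_mul_le (abs_V (M := M) (f := f) b p) (abs_DD hf a c p)
  have b4 := abs_mul_le (abs_DD hf a b p) (abs_V (M := M) (f := f) c p)
  have b5 := (abs_sub _ _).trans (add_le_add (abs_mul_le hgam (M.abs_P_le b c p))
    (abs_mul_le (abs_V (M := M) (f := f) b p) (abs_V (M := M) (f := f) c p)))
  have b6 : |-(1 / 2) * w M f k p ^ 3| ≤ 1 / 2 * w M f k p ^ 3 := by
    rw [neg_mul, abs_neg, abs_of_nonneg (by positivity)]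
  have b7 := abs_mul_le (abs_mul_le b6 (abs_D_gam hf a p)) b5
  have b8 := abs_mul_le (abs_of_pos hw).le ((abs_sub _ _).trans (add_le_add
    ((abs_add_le _ _).trans (add_le_add b1 b2)) ((abs_add_le _ _).trans (add_le_add b3 b4))))
  have e2 : M.pre.D a (T M f k b c) p = _ := e1
  rw [e2, Gf]
  refine (abs_add_le _ _).trans ((add_le_add b8 b7).trans ?_)
  generalize w M f k p = W at *
  generalize nS M f p = n at *
  generalize √(a2 M p) = α at *
  generalize ‖M.grad f p‖ = v at *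
  have h3 : (W * v) ^ 3 ≤ 1 := pow_le_one₀ (by positivity) hw1
  have h4 : W * v * (α * v) ≤ 1 * (α * v) := by gcongr
  have h5 : W * v * n ≤ 1 * n := by gcongr
  have h6 : (W * v) ^ 3 * n ≤ 1 * n := by gcongr
  have h7 : 0 ≤ α * v := by positivity
  nlinarith

theorem D_Z (hε : 0 < ε) (a b : Fin 3) (p : X) : M.pre.D a (Z M y ε b) p =
    r M y ε p * M.pre.P a b p - r M y ε p ^ 3 * M.PL p (M.x p - y) a * (M.x p b - y b) := by
  have h := D_isqrt (((sm_n (M := M) y).add (Imm.sm_const (ε ^ 2))).diffAt p) (by positivity) a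
  rw [Imm.D_add ((sm_n y).diffAt p) ((Imm.sm_const _).diffAt p), Imm.D_const, add_zero,
    Imm.D_normSq] at h
  have h1 : M.pre.D a (r M y ε) p = -(1 / 2) * r M y ε p ^ 3 * (2 * M.PL p (M.x p - y) a) := h
  have h2 := Imm.D_mul ((sm_r (M := M) (y := y) hε).diffAt p) ((sm_y (y := y) b).diffAt p) a
  rw [Imm.D_sub ((M.sm_coord b).diffAt p) ((Imm.sm_const _).diffAt p), Imm.D_const, h1] at h2
  have h3 : M.pre.D a (Z M y ε b) p = _ := h2
  rw [h3]
  simp only [Pre.P, Imm.pre]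
  ring

theorem trace_ge (hk : 0 < k) (hε : 0 < ε) (p : X) :
    w M f k p * M.pre.gam f f p * (r M y ε p ^ 3 * ε ^ 2) ≤
      ∑ a, ∑ b, T M f k a b p * M.pre.D a (Z M y ε b) p := by
  have e : ∑ a, ∑ b, T M f k a b p * M.pre.D a (Z M y ε b) p =
      w M f k p * r M y ε p * M.pre.gam f f p - w M f k p * r M y ε p ^ 3 * (M.pre.gam f f p *
        ‖M.PL p (M.x p - y)‖ ^ 2 - (∑ a, M.pre.D a f p * (M.x p a - y a)) ^ 2) := by
    have h0 := PD (M := M) f 0 p
    have h1 := PD (M := M) f 1 p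
    have h2 := PD (M := M) f 2 p
    have g0 := M.PP 0 0 p
    have g1 := M.PP 1 1 p
    have g2 := M.PP 2 2 p
    have ht := M.tr_P p
    have hg := Imm.gam_apply (M := M) f f p
    simp only [D_Z hε, T, EuclideanSpace.real_norm_sq_eq, Imm.PL_apply, PiLp.sub_apply,
      Fin.sum_univ_three, M.P_symm 1 0, M.P_symm 2 0, M.P_symm 2 1, Nat.cast_ofNat]
      at h0 h1 h2 g0 g1 g2 ht hg ⊢
    linear_combination w M f k p * r M y ε p * (M.pre.gam f f p * (g0 + g1 + g2 + ht) + hg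
      - M.pre.D 0 f p * h0 - M.pre.D 1 f p * h1 - M.pre.D 2 f p * h2) +
      w M f k p * r M y ε p ^ 3 * (M.pre.D 0 f p * (M.x p 0 - y 0) + M.pre.D 1 f p * (M.x p 1 - y 1)
      + M.pre.D 2 f p * (M.x p 2 - y 2)) * ((M.x p 0 - y 0) * h0 + (M.x p 1 - y 1) * h1 +
      (M.x p 2 - y 2) * h2)
  have h1 : ‖M.PL p (M.x p - y)‖ ^ 2 ≤ ‖M.x p - y‖ ^ 2 := by
    gcongr
    exact M.norm_PL_le p _
  have hw := w_pos (M := M) (f := f) hk p
  have hr := r_pos (M := M) (y := y) hε p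
  have hs := Imm.gam_self_nonneg (M := M) f p
  have h2 := r_sq (M := M) (y := y) hε p
  have h3 : w M f k p * r M y ε p ^ 3 * (M.pre.gam f f p * ‖M.PL p (M.x p - y)‖ ^ 2 -
      (∑ a, M.pre.D a f p * (M.x p a - y a)) ^ 2) ≤
      w M f k p * r M y ε p ^ 3 * (M.pre.gam f f p * ‖M.x p - y‖ ^ 2) := by
    gcongr
    nlinarith [sq_nonneg (∑ a, M.pre.D a f p * (M.x p a - y a))]
  rw [e]
  linear_combination h3 + w M f k p * r M y ε p * M.pre.gam f f p * h2

theorem dv_ge (hf : M.Sm f) (hk : 0 < k) (hε : 0 < ε) (p : X) :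
    w M f k p * M.pre.gam f f p * (r M y ε p ^ 3 * ε ^ 2) - 126 * Gf M f p ≤
      M.pre.dv (Y M f k y ε) p := by
  have e : ∀ a, M.pre.D a (Y M f k y ε a) p = ∑ b, (T M f k a b p * M.pre.D a (Z M y ε b) p +
      M.pre.D a (T M f k a b) p * Z M y ε b p) := fun a =>
    (Imm.D_sum _ (fun b _ => ((sm_T hf hk a b).mul (sm_Z hε b)).diffAt p) a).trans
      (Finset.sum_congr rfl fun b _ => Imm.D_mul ((sm_T hf hk a b).diffAt p)
        ((sm_Z hε b).diffAt p) a)
  have h1 := abs_sum3 fun a => abs_sum3 fun b => abs_mul_le (abs_DT hf hk a a b p)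
    (abs_Z (M := M) (y := y) hε b p)
  simp only [Imm.dv_apply, e, Finset.sum_add_distrib]
  linarith [trace_ge (M := M) (f := f) (y := y) hk hε p, neg_abs_le (∑ a, ∑ b,
    M.pre.D a (T M f k a b) p * Z M y ε b p)]

theorem continuous_Gf (hf : M.Sm f) : Continuous (Gf M f) := by
  have h1 := fun a b => (hf.hess a b).continuous
  have h2 := fun a b c => (M.sm_II a b c).continuous
  have h3 := hf.grad.continuous
  unfold Gf nS a2
  fun_prop

theorem Gf_nonneg (p : X) : 0 ≤ Gf M f p := by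
  unfold Gf nS
  positivity

/-- the cutoff `θ(f) 1_U` is locally `θ(f)` or `0` -/
theorem cut_local (hf : Continuous f) {U : Set X} (hU : IsOpen U) {t δ : ℝ} (hδ : 0 < δ)
    (hc : ∀ p ∈ closure U, |f p - t| < δ → p ∈ U) {θ : ℝ → ℝ}
    (h0 : ∀ s, δ / 2 ≤ |s - t| → θ s = 0) (p : X) :
    U.indicator (fun q => θ (f q)) =ᶠ[𝓝 p] (fun q => θ (f q)) ∨
      U.indicator (fun q => θ (f q)) =ᶠ[𝓝 p] fun _ => 0 := by
  by_cases h1 : p ∈ U
  · left
    filter_upwards [hU.mem_nhds h1] with q hq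
    exact indicator_of_mem hq _
  right
  by_cases h2 : p ∈ closure U
  · have h3 : δ / 2 < |f p - t| := by
      have := not_lt.1 fun h => h1 (hc p h2 h)
      linarith
    have h4 : ContinuousAt (fun q => |f q - t|) p := by fun_prop
    filter_upwards [h4.eventually (lt_mem_nhds h3)] with q hq
    simp [indicator, h0 _ hq.le]
  · filter_upwards [isClosed_closure.isOpen_compl.mem_nhds h2] with q hq
    exact indicator_of_notMem (fun h => hq (subset_closure h)) _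

end Pc

open Pc in
theorem pcS_of_lv (hL : LvS) : PcS := by
  refine ⟨16128, by norm_num, fun X _ _ _ _ _ _ M f hf q hq U δ hU hqU hδ hc => ?_⟩
  have hk : 0 < ‖M.grad f q‖ / 2 := half_pos (norm_pos_iff.2 hq)
  set k := ‖M.grad f q‖ / 2 with hk'
  have hN : U ∩ {p | k < ‖M.grad f p‖} ∈ 𝓝 q := inter_mem (hU.mem_nhds hqU)
    (hf.grad.continuous.norm.continuousAt.eventually (lt_mem_nhds (by linarith)))
  obtain ⟨ε, hε, δ₁, hδ₁, N, hNm, hNU, hNε, hLv⟩ := hL X M f hf q hq _ hN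
  refine ⟨min (δ / 2) δ₁, lt_min (half_pos hδ) hδ₁, fun θ hθ hθ0 hθs => ?_⟩
  have hl := cut_local hf.continuous hU hδ hc fun s hs => hθs s ((min_le_left _ _).trans hs)
  have h1 := hLv θ hθ.continuous hθ0 fun s hs => hθs s ((min_le_right _ _).trans hs)
  set φ := U.indicator fun p => θ (f p) with hφ
  have hφs : M.Sm φ := Imm.sm_of_local fun p =>
    (hl p).elim (fun h => ⟨_, hf.comp hθ, h⟩) fun h => ⟨_, Imm.sm_const 0, h⟩
  have hφ0 : ∀ p, 0 ≤ φ p := fun p => indicator_nonneg (fun _ _ => hθ0 _) p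
  have hY := fun a => (sm_Y (y := M.x q) hf hk hε a).c1
  have h2 := Imm.integral_mul_dv hφs.c1 (HasCompactSupport.of_compactSpace _) hY tan_Y
  have h3 : ∀ p, M.pre.dir (Y M f k (M.x q) ε) φ p = 0 := fun p => by
    rw [Imm.dir_apply]
    rcases hl p with h | h
    · simp only [Imm.D_congr h, Imm.D_comp (hf.diffAt p)
        (hθ.differentiable (by simp) (f p)).hasDerivAt, mul_left_comm _ (deriv θ (f p)),
        ← Finset.mul_sum, Y_V, mul_zero]
    · simp only [Imm.D_congr h, Imm.D_const, mul_zero, Finset.sum_const_zero]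
  simp only [h3, integral_zero, neg_zero] at h2
  have int : ∀ {g : X → ℝ}, Continuous g → Integrable g M.mu := fun hg =>
    hg.integrable_of_hasCompactSupport (HasCompactSupport.of_compactSpace _)
  have cφ := hφs.continuous
  have cA : Continuous fun p =>
      φ p * (w M f k p * M.pre.gam f f p * (r M (M.x q) ε p ^ 3 * ε ^ 2)) :=
    cφ.mul (((sm_w hf hk).continuous.mul (hf.gam hf).continuous).mul
      (((sm_r hε).continuous.pow 3).mul continuous_const))
  have cG : Continuous fun p => φ p * Gf M f p := cφ.mul (continuous_Gf hf)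
  have cD : Continuous fun p => φ p * M.pre.dv (Y M f k (M.x q) ε) p :=
    cφ.mul (Imm.C1.continuous_dv hY)
  have h4 : ∫ p, φ p * (w M f k p * M.pre.gam f f p * (r M (M.x q) ε p ^ 3 * ε ^ 2)) ∂M.mu ≤
      ∫ p, (φ p * M.pre.dv (Y M f k (M.x q) ε) p + 126 * (φ p * Gf M f p)) ∂M.mu :=
    integral_mono (int cA) (int (cD.add (cG.const_mul 126)))
      fun p => by
        have := mul_le_mul_of_nonneg_left (dv_ge (y := M.x q) hf hk hε p) (hφ0 p)
        simp only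
        linarith
  rw [integral_add (int cD) (int (cG.const_mul 126)), h2, zero_add, integral_const_mul] at h4
  have h5 : ∫ p, φ p * Gf M f p ∂M.mu = ∫ p in U, θ (f p) * Gf M f p ∂M.mu := by
    rw [← integral_indicator hU.measurableSet]
    refine integral_congr_ae (ae_of_all _ fun p => ?_)
    by_cases hp : p ∈ U <;> simp [hφ, hp]
  have h6 : ∫ p in N, 1 / (16 * ε) * (θ (f p) * ‖M.grad f p‖) ∂M.mu ≤
      ∫ p in N, φ p * (w M f k p * M.pre.gam f f p * (r M (M.x q) ε p ^ 3 * ε ^ 2)) ∂M.mu := by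
    refine setIntegral_mono_on (int (((hθ.continuous.comp hf.continuous).mul
      hf.grad.continuous.norm).const_mul _)).integrableOn (int cA).integrableOn hNm fun p hp => ?_
    have a1 := w_ge hk (le_of_lt (hNU hp).2)
    have a2 := r_ge hε (hNε p hp)
    have a3 := hθ0 (f p)
    rw [hφ, indicator_of_mem (hNU hp).1]
    calc 1 / (16 * ε) * (θ (f p) * ‖M.grad f p‖)
        = θ (f p) * (‖M.grad f p‖ / 2 * (1 / (8 * ε))) := by ring
      _ ≤ _ := by
        gcongr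
        exact le_trans (by positivity) a1
  have h7 := setIntegral_le_integral (s := N) (int cA) (ae_of_all _ fun p => by
    have := w_pos (M := M) (f := f) hk p
    have := r_pos (M := M) (y := M.x q) hε p
    have := Imm.gam_self_nonneg (M := M) f p
    have := hφ0 p
    positivity)
  rw [integral_const_mul] at h6
  have h8 : 1 / (16 * ε) * (ε / 8 * ∫ s, θ s) ≤
      1 / (16 * ε) * ∫ p in N, θ (f p) * ‖M.grad f p‖ ∂M.mu := by gcongr
  have h9 : 1 / (16 * ε) * (ε / 8 * ∫ s, θ s) = (∫ s, θ s) / 128 := by field_simp; ring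
  rw [← h5]
  linarith

theorem pcS_of : FrS → LvS → PcS := fun _ => pcS_of_lv

end Crest.Agent.N250.GB

end
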