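import Crest.Agent.N250.GB.Fr

/-!
# Row 250 (helper83): `SardS`, generic distance functions are Morse
-/

set_option autoImplicit false

open Topology Filter Set MeasureTheory Function
open scoped ContDiff RealInnerProductSpace

noncomputable section

namespace Crest.Agent.N250.GB

open Crest.Agent.N222

section

variable {X : Type} [TopologicalSpace X] {M : Imm 2 (Fin 3) X} {f : X → ℝ} {p : X}
  {e : OpenPartialHomeomorph X (E (Fin 2))}

theorem sard_two : (2 : WithTop ℕ∞) ≤ ∞ := WithTop.coe_le_coe.2 (le_top (a := (2 : ℕ∞)))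

theorem sard_dec (v : E (Fin 2)) : v = v 0 • ee 0 + v 1 • ee 1 := by
  ext i; fin_cases i <;> simp [ee]

/-- a symmetric form on the plane has a kernel iff its determinant vanishes -/
theorem sard_ker (H : E (Fin 2) →L[ℝ] E (Fin 2) →L[ℝ] ℝ) (hs : ∀ u w, H u w = H w u) :
    H (ee 0) (ee 0) * H (ee 1) (ee 1) - H (ee 0) (ee 1) ^ 2 = 0 ↔ ∃ v, v ≠ 0 ∧ ∀ w, H v w = 0 := by
  have ex : ∀ (x y x' y' : ℝ), H (x • ee 0 + y • ee 1) (x' • ee 0 + y' • ee 1) =
      x * x' * H (ee 0) (ee 0) + (x * y' + y * x') * H (ee 0) (ee 1) + y * y' * H (ee 1) (ee 1) := by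
    intro x y x' y'
    simp only [map_add, map_smul, add_apply, smul_apply, smul_eq_mul, hs (ee 1) (ee 0)]
    ring
  have ne : ∀ x y : ℝ, x • ee 0 + y • (ee 1 : E (Fin 2)) = 0 → x = 0 ∧ y = 0 := fun x y h =>
    ⟨by simpa [ee] using congrArg (fun v : E (Fin 2) => v 0) h,
      by simpa [ee] using congrArg (fun v : E (Fin 2) => v 1) h⟩
  refine ⟨fun h => ?_, fun ⟨v, v0, hv⟩ => ?_⟩
  · by_cases a : H (ee 0) (ee 0) = 0
    · have b : H (ee 0) (ee 1) = 0 := by rw [a] at h; simpa using h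
      refine ⟨(1 : ℝ) • ee 0 + (0 : ℝ) • ee 1, fun k => one_ne_zero (ne _ _ k).1, fun w => ?_⟩
      rw [sard_dec w, ex, a, b]; ring
    · refine ⟨(-H (ee 0) (ee 1)) • ee 0 + H (ee 0) (ee 0) • ee 1, fun k => a (ne _ _ k).2, fun w => ?_⟩
      rw [sard_dec w, ex]; linear_combination w 1 * h
  · by_contra D0
    have a := hv ((1 : ℝ) • ee 0 + (0 : ℝ) • ee 1)
    have b := hv ((0 : ℝ) • ee 0 + (1 : ℝ) • ee 1)
    rw [sard_dec v, ex] at a b
    have c : v 0 * (H (ee 0) (ee 0) * H (ee 1) (ee 1) - H (ee 0) (ee 1) ^ 2) = 0 := by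
      linear_combination H (ee 1) (ee 1) * a - H (ee 0) (ee 1) * b
    have d : v 1 * (H (ee 0) (ee 0) * H (ee 1) (ee 1) - H (ee 0) (ee 1) ^ 2) = 0 := by
      linear_combination H (ee 0) (ee 0) * b - H (ee 0) (ee 1) * a
    apply v0
    rw [sard_dec v, (mul_eq_zero.1 c).resolve_right D0, (mul_eq_zero.1 d).resolve_right D0]
    simp

theorem sard_td (h : M.grad f p = 0) : M.td f p = 0 := by
  ext w; rw [Imm.td_eq_inner, h]; simp

theorem sard_at {F : Type} [NormedAddCommGroup F] [NormedSpace ℝ F] {g : X → F} (hg : M.Sm g) (he : IsChart M.x e)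
    {z : E (Fin 2)} (hz : z ∈ e.target) : ContDiffAt ℝ ∞ (g ∘ e.symm) z :=
  (hg.chart he).contDiffAt (e.open_target.mem_nhds hz)

/-- degeneracy of the Hessian does not depend on the chart -/
theorem sard_move (hf : M.Sm f) (h : M.grad f p = 0) (he : IsChart M.x e) (hp : p ∈ e.source)
    {e' : OpenPartialHomeomorph X (E (Fin 2))} (he' : IsChart M.x e') (hp' : p ∈ e'.source)
    (hv : ∃ v, v ≠ 0 ∧ ∀ w, fderiv ℝ (fderiv ℝ (f ∘ e.symm)) (e p) v w = 0) :
    ∃ v, v ≠ 0 ∧ ∀ w, fderiv ℝ (fderiv ℝ (f ∘ e'.symm)) (e' p) v w = 0 := by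
  obtain ⟨v, v0, hv⟩ := hv
  obtain ⟨v', hv'⟩ := Imm.PL_mem_range he' hp' (fderiv ℝ (M.x ∘ e.symm) (e p) v)
  rw [Imm.PL_chart he hp] at hv'
  refine ⟨v', fun k => v0 (he.inj _ (e.map_source hp) (by rw [← hv', k, map_zero, map_zero])), fun w' => ?_⟩
  obtain ⟨w, hw⟩ := Imm.PL_mem_range he hp (fderiv ℝ (M.x ∘ e'.symm) (e' p) w')
  rw [Imm.PL_chart he' hp'] at hw
  have := hv w
  rw [Imm.hess_chart hf he hp, sard_td h] at this
  rw [Imm.hess_chart hf he' hp', sard_td h, hv', ← hw]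
  simpa using this

/-- the normal space is a line -/
theorem sard_line (M : Imm 2 (Fin 3) X) (p : X) {n w : E (Fin 3)} (hn : M.PL p n = 0) (n0 : n ≠ 0)
    (hw : M.PL p w = 0) : ∃ t : ℝ, w = t • n := by
  have r : LinearMap.range (M.PL p : E (Fin 3) →ₗ[ℝ] E (Fin 3)) =
      LinearMap.range (M.J p : E (Fin 2) →ₗ[ℝ] E (Fin 3)) := by
    ext u
    exact ⟨fun ⟨a, ha⟩ => ha ▸ Imm.PL_mem_range (M.isChart p) (M.mem p) a,
      fun ⟨a, ha⟩ => ⟨u, ha ▸ Imm.PL_chart (M.isChart p) (M.mem p) a⟩⟩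
  have k := LinearMap.finrank_range_add_finrank_ker (M.PL p : E (Fin 3) →ₗ[ℝ] E (Fin 3))
  rw [r, LinearMap.finrank_range_of_inj (M.J_inj p)] at k
  simp only [finrank_euclideanSpace, Fintype.card_fin] at k
  have k1 : Module.finrank ℝ (LinearMap.ker (M.PL p : E (Fin 3) →ₗ[ℝ] E (Fin 3))) = 1 := by omega
  obtain ⟨t, ht⟩ := (finrank_eq_one_iff_of_nonzero' (⟨n, hn⟩ : LinearMap.ker (M.PL p : E (Fin 3) →ₗ[ℝ] E (Fin 3)))
    (fun k => n0 (congrArg Subtype.val k))).1 k1 ⟨w, hw⟩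
  exact ⟨t, (congrArg Subtype.val ht).symm⟩

theorem sard_perp (he : IsChart M.x e) (hp : p ∈ e.source) {u : E (Fin 3)} :
    M.PL p u = 0 ↔ ∀ w, ⟪u, fderiv ℝ (M.x ∘ e.symm) (e p) w⟫ = 0 := by
  refine ⟨fun h w => by rw [← Imm.PL_chart he hp, ← Imm.PL_symm, h, inner_zero_left], fun h => ?_⟩
  obtain ⟨w, hw⟩ := Imm.PL_mem_range he hp u
  rw [← inner_self_eq_zero (𝕜 := ℝ), Imm.PL_symm, Imm.PL_PL, ← hw, h]

/-- the normal part of a fixed vector -/
def sardN (M : Imm 2 (Fin 3) X) (a : Fin 3) (q : X) : E (Fin 3) := ee a - M.PL q (ee a)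

theorem sardN_sm (M : Imm 2 (Fin 3) X) (a : Fin 3) : M.Sm (sardN M a) :=
  (Imm.sm_const _).sub (M.sm_PL.comp (g := fun T => T (ee a)) (by fun_prop))

theorem sardN_PL (M : Imm 2 (Fin 3) X) (a : Fin 3) (q : X) : M.PL q (sardN M a q) = 0 := by
  simp [sardN, Imm.PL_PL]

theorem sardN_ne (M : Imm 2 (Fin 3) X) (q : X) : ∃ a, sardN M a q ≠ 0 := by
  by_contra h
  push Not at h
  have : ∀ a, M.pre.P a a q = 1 := fun a => by
    rw [Imm.P_apply, ← sub_eq_zero.1 (h a)]; simp [ee]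
  have t := M.tr_P q
  simp only [this] at t
  norm_num at t

/-- the normal exponential map in a chart -/
def sardΨ (M : Imm 2 (Fin 3) X) (e : OpenPartialHomeomorph X (E (Fin 2))) (a : Fin 3) (k : E (Fin 2) × ℝ) :
    E (Fin 3) := (M.x ∘ e.symm) k.1 + k.2 • (sardN M a ∘ e.symm) k.1

theorem sardΨ_der (he : IsChart M.x e) (a : Fin 3) {k : E (Fin 2) × ℝ} (hk : k.1 ∈ e.target) :
    ∃ T : (E (Fin 2) × ℝ) →L[ℝ] E (Fin 3), HasFDerivAt (sardΨ M e a) T k ∧ ∀ v τ, T (v, τ) = fderiv ℝ (M.x ∘ e.symm) k.1 v +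
      k.2 • fderiv ℝ (sardN M a ∘ e.symm) k.1 v + τ • (sardN M a ∘ e.symm) k.1 := by
  have h1 := ((sard_at M.sm_x he hk).differentiableAt (by simp)).hasFDerivAt.comp k hasFDerivAt_fst
  have h2 := ((sard_at (sardN_sm M a) he hk).differentiableAt (by simp)).hasFDerivAt.comp k hasFDerivAt_fst
  refine ⟨_, h1.add (hasFDerivAt_snd.smul h2), fun v τ => ?_⟩
  simp [add_assoc]

/-- the critical values are null -/
theorem sard_null (he : IsChart M.x e) (a : Fin 3) :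
    volume (sardΨ M e a '' {k | k.1 ∈ e.target ∧ ¬ Injective (fderiv ℝ (sardΨ M e a) k)}) = 0 := by
  let A : E (Fin 3) ≃L[ℝ] (E (Fin 2) × ℝ) := ContinuousLinearEquiv.ofFinrankEq (by simp)
  have := addHaar_image_eq_zero_of_det_fderivWithin_eq_zero (volume : Measure (E (Fin 3)))
    (f := sardΨ M e a ∘ A) (s := A ⁻¹' {k | k.1 ∈ e.target ∧ ¬ Injective (fderiv ℝ (sardΨ M e a) k)})
    (f' := fun w => fderiv ℝ (sardΨ M e a) (A w) ∘L (A : E (Fin 3) →L[ℝ] (E (Fin 2) × ℝ)))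
    (fun w hw => by
      obtain ⟨T, hT, -⟩ := sardΨ_der he a hw.1
      exact (hT.differentiableAt.hasFDerivAt.comp w A.hasFDerivAt).hasFDerivWithinAt)
    (fun w hw => by
      refine LinearMap.det_eq_zero_iff_ker_ne_bot.2 fun k => hw.2 ?_
      have := LinearMap.ker_eq_bot.1 k
      exact (Injective.of_comp_iff' _ A.bijective).1 this)
  rwa [image_comp, A.surjective.image_preimage] at this

theorem sard_sm (M : Imm 2 (Fin 3) X) (y : E (Fin 3)) : M.Sm fun p => ‖M.x p - y‖ ^ 2 :=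
  (M.sm_x.sub (Imm.sm_const y)).comp (contDiff_norm_sq ℝ)

/-- a degenerate critical point of the squared distance gives a critical value -/
theorem sard_crit (he : IsChart M.x e) (hp : p ∈ e.source) {y : E (Fin 3)}
    (h : M.grad (fun p => ‖M.x p - y‖ ^ 2) p = 0)
    (hv : ∃ v, v ≠ 0 ∧ ∀ w, fderiv ℝ (fderiv ℝ ((fun p => ‖M.x p - y‖ ^ 2) ∘ e.symm)) (e p) v w = 0) :
    ∃ a, y ∈ sardΨ M e a '' {k | k.1 ∈ e.target ∧ ¬ Injective (fderiv ℝ (sardΨ M e a) k)} := by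
  obtain ⟨v, v0, hv⟩ := hv
  obtain ⟨a, ha⟩ := sardN_ne M p
  have hz := e.map_source hp
  have h1 : M.PL p (M.x p - y) = 0 := by
    ext b
    have := congrArg (fun u : E (Fin 3) => u b) h
    simpa [Imm.grad, Imm.D_normSq] using this
  obtain ⟨s, hs⟩ := sard_line M p (sardN_PL M a p) ha h1
  have hy : sardΨ M e a (e p, -s) = y := by
    simp only [sardΨ, comp, e.left_inv hp, neg_smul, ← hs]; abel
  refine ⟨a, (e p, -s), ⟨hz, fun inj => ?_⟩, hy⟩
  obtain ⟨T, hT, hT'⟩ := sardΨ_der he a (k := (e p, -s)) hz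
  rw [hT.fderiv] at inj
  obtain ⟨x, hx⟩ : ∃ x, x = M.x ∘ e.symm := ⟨_, rfl⟩
  obtain ⟨n, hn⟩ : ∃ n, n = sardN M a ∘ e.symm := ⟨_, rfl⟩
  have cx : ContDiffAt ℝ ∞ x (e p) := hx ▸ sard_at M.sm_x he hz
  have dx := (cx.differentiableAt (by simp)).hasFDerivAt
  have dn : HasFDerivAt n (fderiv ℝ n (e p)) (e p) :=
    hn ▸ ((sard_at (sardN_sm M a) he hz).differentiableAt (by simp)).hasFDerivAt
  have dd : DifferentiableAt ℝ (fderiv ℝ x) (e p) :=
    (cx.fderiv_right (m := 1) (by exact sard_two)).differentiableAt (by simp)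
  have dg : DifferentiableAt ℝ (fderiv ℝ ((fun p => ‖M.x p - y‖ ^ 2) ∘ e.symm)) (e p) :=
    ((sard_at (sard_sm M y) he hz).fderiv_right (m := 1) (by exact sard_two)).differentiableAt (by simp)
  have key : M.PL p (fderiv ℝ x (e p) v + (-s) • fderiv ℝ n (e p) v) = 0 := by
    rw [sard_perp he hp, ← hx]
    intro w
    have a1 := ((dx.add (dn.const_smul (-s))).sub_const y).inner ℝ (Imm.hasFDerivAt_apply_const dd w)
    have a2 := (Imm.hasFDerivAt_apply_const dg w).const_mul (1 / 2 : ℝ)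
    have ev : (fun z => ⟪(x + (-s) • n) z - y, fderiv ℝ x z w⟫) =ᶠ[𝓝 (e p)]
        fun z => 1 / 2 * fderiv ℝ ((fun p => ‖M.x p - y‖ ^ 2) ∘ e.symm) z w := by
      filter_upwards [e.open_target.mem_nhds hz] with z hz'
      have b1 : HasFDerivAt x (fderiv ℝ x z) z :=
        hx ▸ ((sard_at M.sm_x he hz').differentiableAt (by simp)).hasFDerivAt
      have b2 := (b1.sub_const y).norm_sq
      have b3 : ((fun p => ‖M.x p - y‖ ^ 2) ∘ e.symm) = fun z => ‖x z - y‖ ^ 2 := by rw [hx]; rfl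
      have b4 := (sard_perp he (e.map_target hz')).1 (sardN_PL M a _) w
      rw [e.right_inv hz', ← hx] at b4
      have b5 : ⟪n z, fderiv ℝ x z w⟫ = 0 := by rw [hn]; exact b4
      rw [b3, b2.fderiv]
      have : (x + (-s) • n) z - y = (x z - y) + (-s) • n z := by simp only [Pi.add_apply, Pi.smul_apply]; abel
      rw [this, inner_add_left, inner_smul_left, b5]
      simp [inner_sub_left]
    have a3 := congrArg (fun L : E (Fin 2) →L[ℝ] ℝ => L v) ((a1.congr_of_eventuallyEq ev.symm).unique a2)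
    have z0 : (x + (-s) • n) (e p) - y = 0 := by rw [hx, hn, ← hy]; simp [sardΨ]
    simp only [ContinuousLinearMap.comp_apply, fderivInnerCLM_apply, ContinuousLinearMap.prod_apply, z0,
      inner_zero_left, zero_add, smul_apply, ContinuousLinearMap.flip_apply, hv w, smul_zero] at a3
    simpa using a3
  obtain ⟨t, ht⟩ := sard_line M p (sardN_PL M a p) ha key
  have : T (v, -t) = T 0 := by
    rw [hT', map_zero, ← hx, ← hn]
    simp only []
    rw [ht, hn]
    simp [e.left_inv hp]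
  exact v0 (congrArg Prod.fst (inj this))

/-- nondegenerate critical points are isolated -/
theorem sard_iso (hf : M.Sm f)
    (hn : ¬ ∃ v, v ≠ 0 ∧ ∀ w, fderiv ℝ (fderiv ℝ (f ∘ (M.ch p).symm)) (M.ch p p) v w = 0) :
    ∀ᶠ q in 𝓝 p, M.grad f q = 0 → q = p := by
  have he := M.isChart p
  have hp := M.mem p
  have dg : DifferentiableAt ℝ (fderiv ℝ (f ∘ (M.ch p).symm)) (M.ch p p) :=
    ((sard_at hf he ((M.ch p).map_source hp)).fderiv_right (m := 1) (by exact sard_two)).differentiableAt (by simp)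
  have al : ∃ C, AntilipschitzWith C (fderiv ℝ (fderiv ℝ (f ∘ (M.ch p).symm)) (M.ch p p)) := by
    obtain ⟨C, -, hC⟩ := LinearMap.exists_antilipschitzWith
      (fderiv ℝ (fderiv ℝ (f ∘ (M.ch p).symm)) (M.ch p p) : E (Fin 2) →ₗ[ℝ] (E (Fin 2) →L[ℝ] ℝ))
      (LinearMap.ker_eq_bot'.2 fun v hv => by
        by_contra v0
        exact hn ⟨v, v0, fun w => congrArg (fun L : E (Fin 2) →L[ℝ] ℝ => L w) hv⟩)
    exact ⟨C, hC⟩
  have := eventually_nhdsWithin_iff.1 (dg.hasFDerivAt.eventually_ne (c := 0) al)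
  filter_upwards [((M.ch p).continuousAt hp).eventually this, (M.ch p).open_source.mem_nhds hp] with q h1 h2 h3
  by_contra ne
  refine h1 (fun k => ne ((M.ch p).injOn h2 hp k)) ?_
  rw [Imm.fderiv_chart f he h2, sard_td h3, ContinuousLinearMap.zero_comp]

end

theorem sardS_of (hF : FrS) : SardS := by
  intro X _ _ _ _ _ _ M y η η0
  obtain ⟨t, -, ht⟩ := isCompact_univ.elim_nhds_subcover (fun p : X => (M.ch p).source)
    fun p _ => (M.ch p).open_source.mem_nhds (M.mem p)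
  have null : volume (⋃ p ∈ t, ⋃ a : Fin 3, sardΨ M (M.ch p) a ''
      {k | k.1 ∈ (M.ch p).target ∧ ¬ Injective (fderiv ℝ (sardΨ M (M.ch p) a) k)}) = 0 :=
    (measure_biUnion_null_iff t.countable_toSet).2 fun p _ => measure_iUnion_null fun a => sard_null (M.isChart p) a
  obtain ⟨y', hy, hy'⟩ : ∃ y' ∈ Metric.ball y η, y' ∉ ⋃ p ∈ t, ⋃ a : Fin 3, sardΨ M (M.ch p) a ''
      {k | k.1 ∈ (M.ch p).target ∧ ¬ Injective (fderiv ℝ (sardΨ M (M.ch p) a) k)} := by
    by_contra h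
    push Not at h
    exact (Metric.measure_ball_pos volume y η0).ne' (measure_mono_null h null)
  have hf := sard_sm M y'
  obtain ⟨f, hfd⟩ : ∃ f, f = fun p => ‖M.x p - y'‖ ^ 2 := ⟨_, rfl⟩
  have nd : ∀ p, M.grad f p = 0 →
      ¬ ∃ v, v ≠ 0 ∧ ∀ w, fderiv ℝ (fderiv ℝ (f ∘ (M.ch p).symm)) (M.ch p p) v w = 0 := by
    intro p hp hv
    obtain ⟨q, hq, hpq⟩ := mem_iUnion₂.1 (ht (mem_univ p))
    rw [hfd] at hp hv
    obtain ⟨a, ha⟩ := sard_crit (M.isChart q) hpq hp (sard_move hf hp (M.isChart p) (M.mem p) (M.isChart q) hpq hv)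
    exact hy' (mem_iUnion₂.2 ⟨q, hq, mem_iUnion.2 ⟨a, ha⟩⟩)
  rw [← hfd] at hf
  have fin : {p | M.grad f p = 0}.Finite := by
    refine (isClosed_eq hf.grad.continuous continuous_const).isCompact.finite ?_
    rw [isDiscrete_iff_nhdsNE]
    intro p hp
    rw [inf_principal_eq_bot]
    refine mem_nhdsWithin_iff_eventually.2 ((sard_iso hf (nd p hp)).mono fun q hq ne k => ne (hq k))
  refine ⟨y', fin.toFinset, mem_ball_iff_norm.1 hy, hfd ▸ ⟨hf, fun p => by simp, fun p hp h => ?_⟩⟩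
  have hp' : M.grad f p = 0 := by simpa using hp
  have := (hF X M p).2 f hf hp' _ rfl _ rfl
  rw [h, zero_mul, mul_eq_zero, or_iff_right two_ne_zero] at this
  refine nd p hp' ((sard_ker _ ?_).1 this)
  exact ((sard_at hf (M.isChart p) ((M.ch p).map_source (M.mem p))).isSymmSndFDerivAt
    (by simpa using sard_two)).eq

theorem sardS : SardS := sardS_of frS

end Crest.Agent.N250.GB
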