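import Crest.Agent.N250.GB.Defs
import Crest.Agent.N222.F.Bump

/-!
# Row 250, local Gauss-Bonnet, G6c (helper62): separating the critical values
-/

set_option autoImplicit false
set_option linter.unusedSectionVars false
open MeasureTheory Set Filter Topology Function
open scoped ContDiff

noncomputable section

namespace Crest.Agent.N250.GB

open Crest.Agent.N222

namespace Sep

variable {X : Type} [TopologicalSpace X] [T2Space X] [CompactSpace X] [SecondCountableTopology X]
  [MeasurableSpace X] [BorelSpace X] {M : Imm 2 (Fin 3) X} {f h : X → ℝ}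

theorem exists_h (M : Imm 2 (Fin 3) X) (C : Finset X) :
    ∃ h : X → ℝ, M.Sm h ∧ InjOn h C ∧ ∀ p ∈ C, h =ᶠ[𝓝 p] fun _ => h p := by
  classical
  have hb := fun p : X => M.exists_bump (K := {p}) (U := ((C.erase p : Finset X) : Set X)ᶜ)
    isCompact_singleton (C.erase p).finite_toSet.isClosed.isOpen_compl (by simp)
  choose χ h1 h2 _ h4 using hb
  let n : X → ℝ := fun p => if hp : p ∈ C then ((C.equivFin ⟨p, hp⟩ : ℕ) : ℝ) else 0
  have key : ∀ p ∈ C, (fun q => ∑ r ∈ C, n r * χ r q) =ᶠ[𝓝 p] fun _ => n p := by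
    intro p hp
    have e1 : ∀ᶠ q in 𝓝 p, ∀ r ∈ C.erase p, χ r q = 0 := by
      refine (eventually_all_finset _).2 fun r hr => ?_
      refine notMem_tsupport_iff_eventuallyEq.1 fun h' => h2 r h' ?_
      exact Finset.mem_coe.2 (Finset.mem_erase.2 ⟨(Finset.mem_erase.1 hr).1.symm, hp⟩)
    have e2 : ∀ᶠ q in 𝓝 p, χ p q = 1 := by simpa only [nhdsSet_singleton] using h4 p
    filter_upwards [e1, e2] with q q1 q2
    rw [← Finset.add_sum_erase C _ hp, q2, mul_one,
      Finset.sum_eq_zero fun r hr => by rw [q1 r hr, mul_zero], add_zero]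
  refine ⟨fun q => ∑ r ∈ C, n r * χ r q,
    Imm.sm_sum C fun r _ => (Imm.sm_const _).mul (h1 r).sm, fun p hp q hq e => ?_,
    fun p hp => ?_⟩
  · have hp' : p ∈ C := hp
    have hq' : q ∈ C := hq
    have e' : n p = n q := ((key p hp').self_of_nhds.symm.trans e).trans (key q hq').self_of_nhds
    simp only [n, dif_pos hp', dif_pos hq', Nat.cast_inj] at e'
    exact congrArg Subtype.val (C.equivFin.injective (Fin.ext e'))
  · have := (key p hp).self_of_nhds
    simp only at this
    simp only [this]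
    exact key p hp

theorem D_lin (hf : M.Sm f) (hh : M.Sm h) (s : ℝ) (a : Fin 3) :
    M.pre.D a (fun q => f q + s * h q) = fun q => M.pre.D a f q + s * M.pre.D a h q := by
  funext q
  rw [Imm.D_add (hf.diffAt q) (((Imm.sm_const s).mul hh).diffAt q),
    Imm.D_const_mul s (hh.diffAt q)]

theorem grad_lin (hf : M.Sm f) (hh : M.Sm h) (s : ℝ) (p : X) :
    M.grad (fun q => f q + s * h q) p = M.grad f p + s • M.grad h p := by
  ext a
  simp [Imm.grad, D_lin hf hh]

theorem hess_lin (hf : M.Sm f) (hh : M.Sm h) (s : ℝ) (a b : Fin 3) (p : X) :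
    M.pre.hess (fun q => f q + s * h q) a b p =
      M.pre.hess f a b p + s * M.pre.hess h a b p := by
  simp only [Imm.hess_apply, D_lin hf hh, D_lin (hf.D _) (hh.D _), Finset.mul_sum,
    ← Finset.sum_add_distrib]
  exact Finset.sum_congr rfl fun c _ => by ring

theorem hess_const (c : ℝ) (a b : Fin 3) (p : X) : M.pre.hess (fun _ => c) a b p = 0 := by
  rw [Imm.hess_apply]
  refine Finset.sum_eq_zero fun e _ => ?_
  rw [(Imm.D_congr (.of_forall fun q => Imm.D_const c e q) a).trans (Imm.D_const 0 a p), mul_zero]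

theorem nS_eq (f : X → ℝ) (p : X) : nS M f p =
    ‖(WithLp.toLp 2 fun ab : Fin 3 × Fin 3 => M.pre.hess f ab.1 ab.2 p :
      EuclideanSpace ℝ (Fin 3 × Fin 3))‖ := by
  rw [EuclideanSpace.norm_eq, nS, Fintype.sum_prod_type]
  simp only [Real.norm_eq_abs, sq_abs]

theorem nS_lin (hf : M.Sm f) (hh : M.Sm h) (s : ℝ) (p : X) :
    nS M (fun q => f q + s * h q) p ≤ nS M f p + |s| * nS M h p := by
  rw [nS_eq, nS_eq, nS_eq, ← Real.norm_eq_abs, ← norm_smul]
  refine le_trans (le_of_eq (congrArg _ ?_)) (norm_add_le _ _)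
  ext ab
  simp [hess_lin hf hh]

theorem cont_nS (hf : M.Sm f) : Continuous (nS M f) :=
  (continuous_finsetSum _ fun a _ => continuous_finsetSum _ fun b _ =>
    (hf.hess a b).continuous.pow 2).sqrt

end Sep

open Crest.Agent.N250.GB.Sep in
theorem sepS : SepS := by
  classical
  intro X _ _ _ _ _ _ M f C hM η hη
  obtain ⟨h, hh, hi, hc⟩ := exists_h M C
  have hf := hM.sm
  have gz : ∀ p ∈ C, p ∉ tsupport (M.grad h) := fun p hp => by
    refine notMem_tsupport_iff_eventuallyEq.2 ?_
    filter_upwards [(hc p hp).eventuallyEq_nhds] with q hq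
    ext a
    simp [Imm.grad, Imm.D_congr hq, Imm.D_const]
  obtain ⟨m, hm, hm'⟩ := (isClosed_tsupport (M.grad h)).isCompact.exists_forall_le'
    (f := fun p => ‖M.grad f p‖) hf.grad.continuous.norm.continuousOn (a := 0)
    fun p hp => norm_pos_iff.2 fun e => gz p ((hM.crit p).2 e) hp
  obtain ⟨B, hB⟩ : ∃ B, ∀ p, |h p| + ‖M.grad h p‖ + nS M h p ≤ B := by
    obtain ⟨B, hB⟩ := (isCompact_range ((hh.continuous.abs.add hh.grad.continuous.norm).add
      (cont_nS hh))).bddAbove
    exact ⟨B, fun p => hB ⟨p, rfl⟩⟩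
  have hpos : 0 < min η m / (|B| + 1) := div_pos (lt_min hη hm) (by positivity)
  obtain ⟨s, ⟨hs0, hs1⟩, hs2⟩ := (Ioo_infinite hpos).exists_notMem_finset
    ((C ×ˢ C).image fun pq => (f pq.2 - f pq.1) / (h pq.1 - h pq.2))
  have sm : ∀ y, 0 ≤ y → y ≤ B → s * y < min η m := fun y h0 h1 => by
    rw [lt_div_iff₀ (by positivity)] at hs1
    have : s * y ≤ s * (|B| + 1) :=
      mul_le_mul_of_nonneg_left (by linarith [le_abs_self B]) hs0.le
    linarith
  have n0 : ∀ p, 0 ≤ nS M h p := fun p => Real.sqrt_nonneg _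
  have b1 : ∀ p, s * |h p| < min η m := fun p =>
    sm _ (abs_nonneg _) (by linarith [hB p, n0 p, norm_nonneg (M.grad h p)])
  have b2 : ∀ p, s * ‖M.grad h p‖ < min η m := fun p =>
    sm _ (norm_nonneg _) (by linarith [hB p, n0 p, abs_nonneg (h p)])
  have b3 : ∀ p, s * nS M h p < min η m := fun p =>
    sm _ (n0 p) (by linarith [hB p, norm_nonneg (M.grad h p), abs_nonneg (h p)])
  refine ⟨fun q => f q + s * h q, ⟨hf.add ((Imm.sm_const s).mul hh), fun p => ?_, fun p hp => ?_⟩,
    fun p hp q hq e => ?_, fun p => ⟨?_, ?_, ?_⟩⟩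
  · rw [grad_lin hf hh]
    by_cases hp : p ∈ tsupport (M.grad h)
    · refine ⟨fun h' => absurd hp (gz p h'), fun e => ?_⟩
      have e1 : ‖M.grad f p‖ = s * ‖M.grad h p‖ := by
        rw [eq_neg_of_add_eq_zero_left e, norm_neg, norm_smul, Real.norm_eq_abs, abs_of_pos hs0]
      linarith [hm' p hp, b2 p, min_le_right η m]
    · rw [image_eq_zero_of_notMem_tsupport hp, smul_zero, add_zero]
      exact hM.crit p
  · have e1 : M.pre.lap (fun q => f q + s * h q) p = M.pre.lap f p := by
      rw [Imm.lap_add hf ((Imm.sm_const s).mul hh), Imm.lap_const_mul s hh,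
        Imm.lap_congr (hc p hp), Imm.lap_const, mul_zero, add_zero]
    have e2 : ∀ a b, M.pre.hess (fun q => f q + s * h q) a b p = M.pre.hess f a b p :=
      fun a b => by
        rw [hess_lin hf hh, Imm.hess_congr (hc p hp), hess_const, mul_zero, add_zero]
    simpa only [dS, e1, e2] using hM.nd p hp
  · by_contra hne
    have h1 : h p - h q ≠ 0 := sub_ne_zero.2 fun e' => hne (hi hp hq e')
    refine hs2 (Finset.mem_image.2 ⟨(p, q), Finset.mem_product.2 ⟨hp, hq⟩, ?_⟩)
    simp only at e ⊢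
    rw [div_eq_iff h1]
    linarith
  · rw [add_sub_cancel_left, abs_mul, abs_of_pos hs0]
    exact (b1 p).le.trans (min_le_left _ _)
  · rw [grad_lin hf hh]
    refine (norm_add_le _ _).trans ?_
    rw [norm_smul, Real.norm_eq_abs, abs_of_pos hs0]
    linarith [b2 p, min_le_left η m]
  · refine (nS_lin hf hh s p).trans ?_
    rw [abs_of_pos hs0]
    linarith [b3 p, min_le_left η m]

end Crest.Agent.N250.GB

end
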