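import Crest.Agent.N250.GB.Top4
import Crest.Agent.N250.GB.Asm
import Crest.Agent.N250.GB.Ix
import Crest.Agent.N250.GB.MorS
import Crest.Agent.N250.GB.Sep
import Crest.Agent.N250.GB.Pc
import Crest.Agent.N250.GB.Lv
import Crest.Agent.N250.GB.Bl
import Crest.Agent.N250.GB.Bo
import Crest.Agent.N250.GB.Fr
import Crest.Agent.N250.GB.Sard
import Crest.Agent.N250.GB.Flow
import Crest.Agent.N250.FV.Main
import Crest.Agent.N250.FV.Hu1
import Crest.Agent.N250.Or.Br
import Crest.Agent.N250.Br.Init

/-!
# Row 250, local Gauss-Bonnet (helper74): the leaves combined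
-/

namespace Crest.Agent.N250.GB

theorem idxS : IdxS := idxS_of boS blS

theorem ixS : IxS := ixS_of topS morS frS (pcS_of frS lvS)

theorem intS : IntS := intS_of idxS sardS

/-- **local Gauss-Bonnet** -/
theorem lgbS : LgbS := lgbS_of idxS ixS sardS sepS

theorem lgbFlowS : Br.LgbFlowS := lgbFlowS_of lgbS intS muContS_holds

/-- the block statement `Init` of the master file -/
theorem initStmt : InitStmt :=
  Br.init_of Or.orS_holds muFinS_holds (wMonoS_of muFinS_holds divS_holds transS_holds) lgbFlowS

end Crest.Agent.N250.GB
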