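import Crest.Agent.N222.F.Meas

/-!
# Row 250, local Gauss-Bonnet (helper74): FROZEN definitions and leaf statements

Static compact surfaces `M : Imm 2 (Fin 3) X`.  See note h74-LGB.
-/

set_option autoImplicit false
open MeasureTheory Set Filter Topology Function
open scoped ContDiff

noncomputable section

namespace Crest.Agent.N250.GB

open Crest.Agent.N222

/-! ### the topological side -/

/-- normal forms: regular point, maximum, minimum, saddle -/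
def model (k : Fin 4) (z : ℝ × ℝ) : ℝ :=
  ![z.2, -(z.1 ^ 2 + z.2 ^ 2), z.1 ^ 2 + z.2 ^ 2, z.1 * z.2] k

/-- the index of a normal form -/
def ind (k : Fin 4) : ℝ := ![0, 1, 1, -1] k

/-- `f` has the normal form `k` at `p` in a topological chart -/
def NF {X : Type} [TopologicalSpace X] (f : X → ℝ) (p : X) (k : Fin 4) : Prop :=
  ∃ e : OpenPartialHomeomorph X (ℝ × ℝ), p ∈ e.source ∧ e p = 0 ∧
    ∀ q ∈ e.source, f q = f p + model k (e q)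

/-- **G6a** Morse lemma in the plane -/
def MorS : Prop := ∀ (g : E (Fin 2) → ℝ) (z : E (Fin 2)), ContDiffAt ℝ ∞ g z →
  (fderiv ℝ g z ≠ 0 → NF g z 0) ∧
  (fderiv ℝ g z = 0 → ∀ D : ℝ,
    D = fderiv ℝ (fderiv ℝ g) z (ee 0) (ee 0) * fderiv ℝ (fderiv ℝ g) z (ee 1) (ee 1)
      - fderiv ℝ (fderiv ℝ g) z (ee 0) (ee 1) ^ 2 →
    (0 < D → NF g z 1 ∨ NF g z 2) ∧ (D < 0 → NF g z 3))

/-- **G3** the Morse inequality -/
def TopS : Prop := ∀ (X : Type) [TopologicalSpace X] [T2Space X] [CompactSpace X]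
  [ConnectedSpace X] (f : X → ℝ) (ty : X → Fin 4) (C : Finset X), Continuous f →
  (∀ p, NF f p (ty p)) → (∀ p, p ∈ C ↔ ty p ≠ 0) → InjOn f C →
  ∀ t : ℝ, (∀ p ∈ C, f p ≠ t) → (∃ p, f p < t) →
  ∃ (δ : ℝ) (k : ℕ) (U : Fin k → Set X), 0 < δ ∧ (∀ p ∈ C, δ < |f p - t|) ∧
    (∀ i, IsOpen (U i)) ∧ Pairwise (Disjoint on U) ∧ (∀ p, t - δ < f p → ∃ i, p ∈ U i) ∧
    (∀ i, ∃ q ∈ U i, f q = t) ∧ ∑ p ∈ C with t < f p, ind (ty p) ≤ k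

/-! ### the analytic side -/

section An

variable {X : Type} [TopologicalSpace X] (M : Imm 2 (Fin 3) X)

/-- `|A|²` -/
def a2 (p : X) : ℝ := ∑ a, ∑ b, ∑ c, M.pre.II a b c p ^ 2

/-- `|H|²` -/
def h2 (p : X) : ℝ := ∑ c, M.pre.H c p ^ 2

/-- norm of the Hessian -/
def nS (f : X → ℝ) (p : X) : ℝ := √(∑ a, ∑ b, M.pre.hess f a b p ^ 2)

/-- twice the determinant of the Hessian -/
def dS (f : X → ℝ) (p : X) : ℝ := M.pre.lap f p ^ 2 - ∑ a, ∑ b, M.pre.hess f a b p ^ 2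

/-- the error density -/
def Gf (f : X → ℝ) (p : X) : ℝ := nS M f p + √(a2 M p) * ‖M.grad f p‖

/-- the sign of the Hessian determinant -/
def sg (f : X → ℝ) (p : X) : ℝ := if 0 < dS M f p then 1 else -1

/-- Morse functions with critical set `C` -/
structure Morse (f : X → ℝ) (C : Finset X) : Prop where
  sm : M.Sm f
  crit : ∀ p, p ∈ C ↔ M.grad f p = 0
  nd : ∀ p ∈ C, dS M f p ≠ 0

end An

/-- the universal constant (`2 π`) -/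
def kap : ℝ := 2 * ∫ y : E (Fin 2), ((‖y‖ ^ 2 + 1) ^ 2)⁻¹

/-- statements about all compact surfaces -/
def AllM (Q : ∀ (X : Type) [TopologicalSpace X] [MeasurableSpace X], Imm 2 (Fin 3) X → Prop) :
    Prop :=
  ∀ (X : Type) [TopologicalSpace X] [T2Space X] [CompactSpace X] [SecondCountableTopology X]
    [MeasurableSpace X] [BorelSpace X] (M : Imm 2 (Fin 3) X), Q X M

/-- **G0** orthonormal frame of the tangent plane, and the chart Hessian at a critical point -/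
def FrS : Prop := AllM fun X _ _ M => ∀ p : X,
  (∃ u v : E (Fin 3), ‖u‖ = 1 ∧ ‖v‖ = 1 ∧ inner ℝ u v = 0 ∧
    ∀ a b, M.pre.P a b p = u a * u b + v a * v b) ∧
  ∀ f : X → ℝ, M.Sm f → M.grad f p = 0 → ∀ g, g = f ∘ (M.ch p).symm → ∀ z, z = M.ch p p →
    2 * (fderiv ℝ (fderiv ℝ g) z (ee 0) (ee 0) * fderiv ℝ (fderiv ℝ g) z (ee 1) (ee 1)
      - fderiv ℝ (fderiv ℝ g) z (ee 0) (ee 1) ^ 2) = dS M f p * jac (M.J p) ^ 2

/-- **G1** the Bochner identity for `∇f / √(|∇f|² + ε²)` -/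
def BoS : Prop := AllM fun X _ _ M => ∀ f : X → ℝ, M.Sm f → ∀ ψ : ℝ → ℝ, ContDiff ℝ ∞ ψ →
  ∀ ε : ℝ, 0 < ε →
  |(∫ p, ψ (f p) * M.pre.scal p * (‖M.grad f p‖ ^ 2 / (‖M.grad f p‖ ^ 2 + ε ^ 2)) ∂M.mu) -
    2 * ∫ p, ψ (f p) * dS M f p * (ε ^ 2 / (‖M.grad f p‖ ^ 2 + ε ^ 2) ^ 2) ∂M.mu| ≤
    20 * ∫ p, |deriv ψ (f p)| * nS M f p ∂M.mu

/-- **G2** concentration at the critical points -/
def BlS : Prop := 0 < kap ∧ AllM fun X _ _ M => ∀ (f : X → ℝ) (C : Finset X), Morse M f C →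
  ∀ φ : X → ℝ, Continuous φ →
  Tendsto (fun ε : ℝ => ∫ p, φ p * dS M f p * (ε ^ 2 / (‖M.grad f p‖ ^ 2 + ε ^ 2) ^ 2) ∂M.mu)
    (𝓝[>] 0) (𝓝 (kap * ∑ p ∈ C, sg M f p * φ p))

/-- **G4a** a level curve through a regular point has mass: `∫ θ(f) |∇f| ≥ c ε ∫ θ` -/
def LvS : Prop := AllM fun X _ _ M => ∀ f : X → ℝ, M.Sm f → ∀ q : X, M.grad f q ≠ 0 →
  ∀ U ∈ 𝓝 q, ∃ ε : ℝ, 0 < ε ∧ ∃ δ : ℝ, 0 < δ ∧ ∃ N : Set X, MeasurableSet N ∧ N ⊆ U ∧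
    (∀ p ∈ N, ‖M.x p - M.x q‖ ≤ ε) ∧ ∀ θ : ℝ → ℝ, Continuous θ → (∀ s, 0 ≤ θ s) →
      (∀ s, δ ≤ |s - f q| → θ s = 0) →
      ε / 8 * ∫ s, θ s ≤ ∫ p in N, θ (f p) * ‖M.grad f p‖ ∂M.mu

/-- **G4b** every compact open piece of a thin band has total curvature -/
def PcS : Prop := ∃ c : ℝ, 0 < c ∧ AllM fun X _ _ M => ∀ f : X → ℝ, M.Sm f → ∀ q : X,
  M.grad f q ≠ 0 → ∀ (U : Set X) (δ : ℝ), IsOpen U → q ∈ U → 0 < δ →
  (∀ p ∈ closure U, |f p - f q| < δ → p ∈ U) →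
  ∃ δ' : ℝ, 0 < δ' ∧ ∀ θ : ℝ → ℝ, ContDiff ℝ ∞ θ → (∀ s, 0 ≤ θ s) →
    (∀ s, δ' ≤ |s - f q| → θ s = 0) → ∫ s, θ s ≤ c * ∫ p in U, θ (f p) * Gf M f p ∂M.mu

/-- **G4** the index sum is bounded by the total curvature of the levels -/
def IxS : Prop := ∃ c : ℝ, 0 < c ∧ AllM fun X _ _ M => ConnectedSpace X →
  ∀ (f : X → ℝ) (C : Finset X), Morse M f C → InjOn f C → ∀ ψ : ℝ → ℝ, ContDiff ℝ ∞ ψ →
  (∀ s, 0 ≤ deriv ψ s) → (∃ p, ∃ t, f p < t ∧ ∀ s ≤ t, ψ s = 0) →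
  ∑ p ∈ C, sg M f p * ψ (f p) ≤ c * ∫ p, deriv ψ (f p) * Gf M f p ∂M.mu

/-- **G6b** generic distance functions are Morse -/
def SardS : Prop := AllM fun X _ _ M => ∀ (y : E (Fin 3)) (η : ℝ), 0 < η →
  ∃ (y' : E (Fin 3)) (C : Finset X), ‖y' - y‖ < η ∧ Morse M (fun p => ‖M.x p - y'‖ ^ 2) C

/-- **G6c** separating the critical values -/
def SepS : Prop := AllM fun X _ _ M => ∀ (f : X → ℝ) (C : Finset X), Morse M f C →
  ∀ η : ℝ, 0 < η → ∃ g : X → ℝ, Morse M g C ∧ InjOn g C ∧ ∀ p, |g p - f p| ≤ η ∧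
    ‖M.grad g p‖ ≤ ‖M.grad f p‖ + η ∧ nS M g p ≤ nS M f p + η

/-- **G12** the index formula -/
def IdxS : Prop := AllM fun X _ _ M => ∀ (f : X → ℝ) (C : Finset X), Morse M f C →
  ∀ ψ : ℝ → ℝ, ContDiff ℝ ∞ ψ →
  |(∫ p, ψ (f p) * M.pre.scal p ∂M.mu) - 2 * kap * ∑ p ∈ C, sg M f p * ψ (f p)| ≤
    20 * ∫ p, |deriv ψ (f p)| * nS M f p ∂M.mu

/-- total curvature is quantised -/
def IntS : Prop := AllM fun X _ _ M => ∃ n : ℤ, ∫ p, M.pre.scal p ∂M.mu = 2 * kap * n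

/-- **local Gauss-Bonnet** -/
def LgbS : Prop := ∃ c : ℝ, 0 < c ∧ AllM fun X _ _ M => ConnectedSpace X →
  ∀ (y : E (Fin 3)) (r : ℝ), 0 < r →
  ∫ p in {p | ‖M.x p - y‖ < r}, a2 M p ∂M.mu ≤
    c * ((∫ p in {p | ‖M.x p - y‖ < 2 * r}, h2 M p ∂M.mu) +
      M.mu.real {p | ‖M.x p - y‖ < 2 * r} / r ^ 2 + |∫ p, M.pre.scal p ∂M.mu|)

end Crest.Agent.N250.GB

end
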