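import Crest.Agent.N250.FV.Ch
import Crest.Agent.N250.Re.Ring
import Crest.Agent.N250.GB.Asm

/-!
# Row 250 (helper69): a time slice of a track as an immersed surface `N222.Imm`
-/

set_option autoImplicit false
open MeasureTheory Set Filter Topology Function
open scoped ContDiff InnerProductSpace
open Crest.GeometryTopology.MCF
open ContinuousLinearMap (adjoint inl)

noncomputable section

namespace Crest.Agent.N250.GB.Sl

open FV N222

variable {F : Mv} {t : ℝ}

/-- the chart of a slice -/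
def chart {X : E2 × ℝ → E} {U : Set (E2 × ℝ)} {W : Set ST} {L : E →L[ℝ] E2} (h : Ch F X U W L)
    (p : F.sl t) : OpenPartialHomeomorph (F.sl t) E2 := by
  classical
  exact
  { toFun q := L q.1
    invFun z := if hz : (z, t) ∈ U then ⟨X (z, t), h.mem _ hz⟩ else p
    source := {q | (q.1, t) ∈ W}
    target := {z | (z, t) ∈ U}
    map_source' q hq := h.inU (q.1, t) q.2 hq
    map_target' z hz := by
      have hz' : (z, t) ∈ U := hz
      simp only [mem_ofPred_eq, dif_pos hz']
      exact h.memW _ hz'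
    left_inv' q hq := by
      have hz' : (L q.1, t) ∈ U := h.inU (q.1, t) q.2 hq
      simp only [dif_pos hz']
      exact Subtype.ext (h.right (q.1, t) q.2 hq)
    right_inv' z hz := by
      have hz' : (z, t) ∈ U := hz
      simp only [dif_pos hz']
      exact h.left _ hz'
    open_source := (h.oWt t).preimage continuous_subtype_val
    open_target := h.oUt t
    continuousOn_toFun := (L.continuous.comp continuous_subtype_val).continuousOn
    continuousOn_invFun := by
      rw [IsInducing.subtypeVal.continuousOn_iff]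
      refine (h.sm.continuousOn.comp (Continuous.prodMk_left t).continuousOn
        fun z hz => hz).congr fun z hz => ?_
      have hz' : (z, t) ∈ U := hz
      simp only [comp_apply, dif_pos hz'] }

theorem isChart {X : E2 × ℝ → E} {U : Set (E2 × ℝ)} {W : Set ST} {L : E →L[ℝ] E2}
    (h : Ch F X U W L) (p : F.sl t) : IsChart Subtype.val (chart h p) := by
  have e : ∀ z ∈ (chart h p).target, (Subtype.val ∘ (chart h p).symm) z = X (z, t) := fun z hz => by
    have hz' : (z, t) ∈ U := hz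
    change ((chart h p).invFun z).1 = _
    simp only [chart, dif_pos hz']
  refine ⟨(h.sm.comp (contDiff_id.prodMk contDiff_const).contDiffOn fun z hz => hz).congr e,
    fun z hz => ?_⟩
  have h1 := ((h.hasXt t z hz).hasFDerivAt ((h.oUt t).mem_nhds hz)).congr_of_eventuallyEq
    (eventually_of_mem ((chart h p).open_target.mem_nhds hz) e)
  rw [h1.fderiv]
  exact h.inj hz

/-- slices are immersed surfaces -/
theorem exists_imm (hF : F.Reg) (t : ℝ) : ∃ M : Imm 2 (Fin 3) (F.sl t), M.x = Subtype.val := by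
  have := fun p : F.sl t => exists_ch hF (p := (p.1, t)) p.2
  choose X U W L h1 h2 using this
  exact ⟨⟨Subtype.val, fun p => chart (h2 p) p, h1, fun p => isChart (h2 p) p⟩, rfl⟩

variable {M : Imm 2 (Fin 3) (F.sl t)}

section
variable {G : Type} [NormedAddCommGroup G] [NormedSpace ℝ G] {f : ST → G}

theorem sm (hx : M.x = Subtype.val) (hf : F.Sm f) : M.Sm fun q => f (q.1, t) := fun p => by
  have h := (M.isChart p).sm
  rw [hx] at h
  exact ContDiffOn.comp (f := fun z => ((Subtype.val ∘ (M.ch p).symm) z, t)) hf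
    (h.prodMk contDiffOn_const) fun z _ => ((M.ch p).symm z).2

theorem hasF (hx : M.x = Subtype.val) (p : F.sl t)
    (hf : DifferentiableWithinAt ℝ f F.M (p.1, t)) :
    HasFDerivAt ((fun q : F.sl t => f (q.1, t)) ∘ (M.ch p).symm)
      ((F.td f (p.1, t)).comp ((M.J p).prod 0)) (M.ch p p) := by
  have h1 : HasFDerivAt (M.x ∘ (M.ch p).symm) (M.J p) (M.ch p p) := (M.sm_x.diffAt p).hasFDerivAt
  have h2 := h1.prodMk (hasFDerivAt_const t _)
  have h3 := hf.hasFDerivWithinAt.comp_hasFDerivAt_of_eq _ h2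
    (.of_forall fun z => by rw [hx]; exact ((M.ch p).symm z).2)
    (by rw [comp_apply, (M.ch p).left_inv (M.mem p), hx])
  rw [hx] at h3
  exact h3

theorem td_eq (hx : M.x = Subtype.val) (p : F.sl t)
    (hf : DifferentiableWithinAt ℝ f F.M (p.1, t)) (w : E) :
    M.td (fun q => f (q.1, t)) p w = F.td f (p.1, t) (M.PL p w, 0) := by
  rw [Imm.td, (hasF hx p hf).fderiv]
  rfl

end

theorem n_J (hF : F.Reg) (hx : M.x = Subtype.val) (p : F.sl t) (v : E2) :
    ⟪F.n (p.1, t), M.J p v⟫_ℝ = 0 := by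
  obtain ⟨W, φ, hW, k⟩ := hF (p.1, t) p.2
  have h1 : HasFDerivAt (M.x ∘ (M.ch p).symm) (M.J p) (M.ch p p) := (M.sm_x.diffAt p).hasFDerivAt
  have h2 := h1.prodMk (hasFDerivAt_const t _)
  have e : ((M.x ∘ (M.ch p).symm) (M.ch p p), t) = (p.1, t) := by
    rw [comp_apply, (M.ch p).left_inv (M.mem p), hx]
  have h3' := (k.diffAt hW).hasFDerivAt
  have h3 := HasFDerivAt.comp (M.ch p p) (g := φ) (g' := fderiv ℝ φ (p.1, t)) (by rwa [e]) h2
  have h4 : HasFDerivAt (φ ∘ fun z => ((M.x ∘ (M.ch p).symm) z, t)) (0 : E2 →L[ℝ] ℝ)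
      (M.ch p p) := by
    refine (hasFDerivAt_const (0 : ℝ) _).congr_of_eventuallyEq ?_
    filter_upwards [h2.continuousAt.eventually_mem (k.isOpen.mem_nhds (e ▸ hW))] with z hz
    refine (k.mem _ hz).1 ?_
    rw [hx]
    exact ((M.ch p).symm z).2
  have h5 : fderiv ℝ φ (p.1, t) (M.J p v, 0) = 0 :=
    congrArg (fun T : E2 →L[ℝ] ℝ => T v) (h3.unique h4)
  simpa [Mv.Tg] using (k.tg_iff hW p.2).2 h5

theorem PL_eq (hF : F.Reg) (hx : M.x = Subtype.val) (p : F.sl t) (w : E) :
    M.PL p w = F.PL (p.1, t) w := by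
  have hM : ((p.1, t) : ST) ∈ F.M := p.2
  have hn : F.n (p.1, t) ≠ 0 := fun h0 => by simpa [h0] using hF.norm_n hM
  have h1 : LinearMap.range (M.J p : E2 →ₗ[ℝ] E) = (ℝ ∙ F.n (p.1, t))ᗮ := by
    refine Submodule.eq_of_le_of_finrank_eq ?_ ?_
    · rintro _ ⟨v, rfl⟩
      exact Submodule.mem_orthogonal_singleton_iff_inner_right.2 (n_J hF hx p v)
    · rw [finrank_perp hn, LinearMap.finrank_range_of_inj (M.J_inj p)]; simp
  obtain ⟨u, hu⟩ : F.PL (p.1, t) w ∈ LinearMap.range (M.J p : E2 →ₗ[ℝ] E) :=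
    h1 ▸ Submodule.mem_orthogonal_singleton_iff_inner_right.2 (Tr.n_PL hF hM w)
  have hu' : M.J p u = F.PL (p.1, t) w := hu
  have h2 : adjoint (Lam (M.J p)) w = u := by
    have e : w = M.J p u + ⟪F.n (p.1, t), w⟫_ℝ • F.n (p.1, t) := by rw [hu', Mv.PL]; simp
    rw [e, map_add, map_smul, adj_Lam_apply (M.J_inj p),
      adj_Lam_eq_zero fun v => by rw [real_inner_comm, n_J hF hx]]
    simp
  rw [M.PL_eq, h2, hu']

/-- the tangential derivatives agree -/
theorem D_eq (hF : F.Reg) (hx : M.x = Subtype.val) (p : F.sl t) {f : ST → ℝ}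
    (hf : DifferentiableWithinAt ℝ f F.M (p.1, t)) (a : Fin 3) :
    M.pre.D a (fun q => f (q.1, t)) p = F.D a f (p.1, t) := by
  rw [Mv.D_apply, ← PL_eq hF hx, ← td_eq hx p hf]
  rfl

theorem P_eq (hF : F.Reg) (hx : M.x = Subtype.val) (p : F.sl t) (a b : Fin 3) :
    M.pre.P a b p = (if a = b then 1 else 0) - F.nu a (p.1, t) * F.nu b (p.1, t) := by
  rw [M.P_apply, PL_eq hF hx, ← Mv.PL_ee]

theorem II_eq (hF : F.Reg) (hx : M.x = Subtype.val) (p : F.sl t) (a b c : Fin 3) :
    M.pre.II a b c p = -(F.A a b (p.1, t) * F.nu c (p.1, t)) := by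
  have hM : ((p.1, t) : ST) ∈ F.M := p.2
  have hs' := fun e => sm hx (hF.sm_nu e)
  have hs := fun e => (hs' e).diffAt p
  have h1 : ∀ e, M.pre.D a (M.pre.D e (M.pre.x c)) p =
      -(F.nu e (p.1, t) * F.A a c (p.1, t) + F.A a e (p.1, t) * F.nu c (p.1, t)) := fun e => by
    rw [show M.pre.D e (M.pre.x c) = _ from funext fun q => P_eq hF hx q e c,
      Imm.D_sub ((Imm.sm_const _).diffAt p) (((hs' e).mul (hs' c)).diffAt p), Imm.D_const,
      Imm.D_mul (hs e) (hs c), D_eq hF hx p ((hF.sm_nu e).diffW hM),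
      D_eq hF hx p ((hF.sm_nu c).diffW hM), zero_sub]
    rfl
  have h2 := hF.nn hM
  have h3 : ∑ e, F.nu e (p.1, t) * F.A a e (p.1, t) = 0 := by
    simp only [hF.A_symm hM a]
    exact hF.n_D hM _
  rw [Pre.II, Imm.hess_apply]
  simp only [h1, P_eq hF hx, sub_mul, Finset.sum_sub_distrib, ite_mul, one_mul, zero_mul,
    Finset.sum_ite_eq, Finset.mem_univ, if_true]
  simp only [Fin.sum_univ_three] at h2 h3 ⊢
  linear_combination F.nu b (p.1, t) * F.A a c (p.1, t) * h2 + F.nu b (p.1, t) * F.nu c (p.1, t) * h3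

theorem a2_eq (hF : F.Reg) (hx : M.x = Subtype.val) (p : F.sl t) : a2 M p = F.A2 (p.1, t) := by
  have h2 := hF.nn (p := (p.1, t)) p.2
  simp only [a2, II_eq hF hx, Mv.A2, Finset.sum_apply, Pi.mul_apply]
  refine Finset.sum_congr rfl fun a _ => Finset.sum_congr rfl fun b _ => ?_
  simp only [Fin.sum_univ_three] at h2 ⊢
  linear_combination F.A a b (p.1, t) ^ 2 * h2

theorem H_eq (hF : F.Reg) (hx : M.x = Subtype.val) (p : F.sl t) (c : Fin 3) :
    M.pre.H c p = -(F.H (p.1, t) * F.nu c (p.1, t)) := by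
  have h : M.pre.H c p = ∑ a, M.pre.II a a c p := (Imm.tr_hess (M.sm_coord c) p).symm
  simp only [h, II_eq hF hx, Mv.H, Finset.sum_apply, Finset.sum_mul, Finset.sum_neg_distrib]

theorem h2_eq (hF : F.Reg) (hx : M.x = Subtype.val) (p : F.sl t) : h2 M p = F.H (p.1, t) ^ 2 := by
  have h := hF.nn (p := (p.1, t)) p.2
  simp only [h2, H_eq hF hx, Fin.sum_univ_three] at h ⊢
  linear_combination F.H (p.1, t) ^ 2 * h

theorem scal_eq (hF : F.Reg) (hx : M.x = Subtype.val) (p : F.sl t) :
    M.pre.scal p = F.H (p.1, t) ^ 2 - F.A2 (p.1, t) := by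
  rw [← h2_eq hF hx, ← a2_eq hF hx]
  have := congrArg M.val M.isDS.scal_eq
  simp only [map_sub, map_sum, map_mul, M.hom.scal, M.hom.H, M.hom.II] at this
  simpa [h2, a2, sq] using congrFun this p

/-- the area measures agree -/
theorem map_mu (hx : M.x = Subtype.val) (hm : MeasurableSet (F.sl t)) :
    M.mu.map Subtype.val = F.mu t := by
  have he : MeasurableEmbedding M.x := hx ▸ MeasurableEmbedding.subtype_coe hm
  have h : (μHE[2] : Measure E).comap M.x = M.mu := by
    refine Imm.eq_mu fun p => ⟨M.ch p, M.isChart p, M.mem p, ?_⟩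
    ext s hs
    set e := M.ch p
    have hc := M.isChart p
    rw [Measure.restrict_apply hs, he.comap_apply, Ms0.cm_apply hc hs]
    have h1 := R241.AF.lintegral_image_eq (f := M.x ∘ e.symm) (f' := fderiv ℝ (M.x ∘ e.symm))
      (Ms0.meas_pre e hs) (fun z hz => (hc.hasFDerivAt hz.1).hasFDerivWithinAt)
      (fun z hz w hw h => e.symm.injOn hz.1 hw.1 (he.injective h)) fun _ => 1
    have h2 : (M.x ∘ e.symm) '' (e.target ∩ e.symm ⁻¹' s) = M.x '' (s ∩ e.source) := by
      rw [image_comp]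
      congr 1
      ext q
      exact ⟨fun ⟨z, hz, h⟩ => h ▸ ⟨hz.2, e.map_target hz.1⟩, fun h => ⟨e q,
        ⟨e.map_source h.2, by rw [mem_preimage, e.left_inv h.2]; exact h.1⟩, e.left_inv h.2⟩⟩
    rw [h2, finrank_euclideanSpace_fin, setLIntegral_one] at h1
    rw [h1]
    simp only [mul_one, jac_eq_normDet, R241.AF.jac]
    rfl
  rw [← h, hx, map_comap_subtype_coe hm, Mv.mu]

/-- slices are measurable -/
theorem measurableSet_sl (hF : F.Reg) (t : ℝ) : MeasurableSet (F.sl t) := by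
  have ho : IsOpen (closure (F.sl t) \ F.sl t)ᶜ := by
    rw [isOpen_iff_mem_nhds]
    intro x hx
    by_cases h : x ∈ F.sl t
    · obtain ⟨W, φ, hW, k⟩ := hF (x, t) h
      have ho : IsOpen {y | (y, t) ∈ W} := k.isOpen.preimage (Continuous.prodMk_left t)
      filter_upwards [ho.mem_nhds hW] with y hy hy'
      refine hy'.2 ((k.mem _ hy).2 ?_)
      have hc : ContinuousAt (fun y => φ (y, t)) y :=
        ContinuousAt.comp (f := fun y : E => (y, t)) (k.diffAt hy).continuousAt
          (Continuous.prodMk_left t).continuousAt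
      refine isClosed_singleton.mem_of_frequently_of_tendsto ?_ hc
      exact ((mem_closure_iff_frequently.1 hy'.1).and_eventually (ho.mem_nhds hy)).mono
        fun z hz => (k.mem _ hz.2).1 hz.1
    · have h' : x ∉ closure (F.sl t) := fun h' => hx ⟨h', h⟩
      filter_upwards [isClosed_closure.isOpen_compl.mem_nhds h'] with y hy hy'
      exact hy hy'.1
  have e : F.sl t = closure (F.sl t) ∩ (closure (F.sl t) \ F.sl t)ᶜ := by
    ext x
    exact ⟨fun h => ⟨subset_closure h, fun h' => h'.2 h⟩,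
      fun h => by_contra fun h' => h.2 ⟨h.1, h'⟩⟩
  rw [e]
  exact isClosed_closure.measurableSet.inter ho.measurableSet

theorem integral_eq (hF : F.Reg) (hx : M.x = Subtype.val) (g : E → ℝ) :
    ∫ x, g x ∂F.mu t = ∫ p, g p.1 ∂M.mu := by
  rw [← map_mu hx (measurableSet_sl hF t),
    (MeasurableEmbedding.subtype_coe (measurableSet_sl hF t)).integral_map]

theorem setLIntegral_eq (hF : F.Reg) (hx : M.x = Subtype.val) (s : Set E) (g : E → ENNReal) :
    ∫⁻ x in s, g x ∂F.mu t = ∫⁻ p in Subtype.val ⁻¹' s, g p.1 ∂M.mu := by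
  have he := MeasurableEmbedding.subtype_coe (measurableSet_sl hF t)
  rw [← map_mu hx (measurableSet_sl hF t), he.restrict_map, he.lintegral_map]

theorem mu_eq (hF : F.Reg) (hx : M.x = Subtype.val) (s : Set E) :
    F.mu t s = M.mu (Subtype.val ⁻¹' s) := by
  rw [← map_mu hx (measurableSet_sl hF t),
    (MeasurableEmbedding.subtype_coe (measurableSet_sl hF t)).map_apply]

end Crest.Agent.N250.GB.Sl

end
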