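import Mathlib

/-!
# Row 250, local Gauss-Bonnet (helper74): a compact curve cannot have exactly one end
-/

set_option autoImplicit false
open Set Filter Topology Function

namespace Crest.Agent.N250.GB

variable {X : Type} [TopologicalSpace X]

/-- an interval chart of the set `Γ` -/
structure Ch (Γ N : Set X) (κ : X → ℝ) (γ : ℝ → X) (I : Set ℝ) : Prop where
  op : IsOpen N
  cκ : ContinuousOn κ N
  oc : I.OrdConnected
  cγ : ContinuousOn γ I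
  mem : ∀ x ∈ I, γ x ∈ Γ ∧ γ x ∈ N
  κγ : ∀ x ∈ I, κ (γ x) = x
  γκ : ∀ y ∈ Γ, y ∈ N → κ y ∈ I ∧ γ (κ y) = y

theorem Ch.neg {Γ N : Set X} {κ : X → ℝ} {γ : ℝ → X} {I : Set ℝ} (h : Ch Γ N κ γ I) :
    Ch Γ N (fun y => -κ y) (fun x => γ (-x)) {x | -x ∈ I} where
  op := h.op
  cκ := h.cκ.neg
  oc := ⟨fun x hx y hy z hz => h.oc.out hy hx ⟨neg_le_neg hz.2, neg_le_neg hz.1⟩⟩
  cγ := h.cγ.comp continuous_neg.continuousOn fun x hx => hx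
  mem x hx := h.mem _ hx
  κγ x hx := by rw [h.κγ _ hx, neg_neg]
  γκ y hy hN := by simpa using h.γκ y hy hN

/-- injective paths from `p` inside `Γ` -/
structure Gd (Γ : Set X) (p : X) (α : ℝ → X) (L : ℝ) : Prop where
  pos : 0 < L
  ct : ContinuousOn α (Icc 0 L)
  inj : InjOn α (Icc 0 L)
  st : α 0 = p
  mem : ∀ s ∈ Icc 0 L, α s ∈ Γ

variable {Γ : Set X} {p : X}

/-- near a parameter the path stays in the chart and the coordinate is strictly monotone -/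
theorem Gd.loc {α : ℝ → X} {L : ℝ} (h : Gd Γ p α L) {N : Set X} {κ : X → ℝ} {γ : ℝ → X}
    {I : Set ℝ} (c : Ch Γ N κ γ I) {s : ℝ} (hs : s ∈ Icc 0 L) (hN : α s ∈ N) :
    ∃ η > 0, ∀ a b, 0 ≤ a → s - η ≤ a → a ≤ b → b ≤ L → b ≤ s + η →
      (∀ u ∈ Icc a b, α u ∈ N) ∧ ContinuousOn (fun u => κ (α u)) (Icc a b) ∧
      (StrictMonoOn (fun u => κ (α u)) (Icc a b) ∨ StrictAntiOn (fun u => κ (α u)) (Icc a b)) := by
  have h1 : α ⁻¹' N ∈ 𝓝[Icc 0 L] s := h.ct s hs (c.op.mem_nhds hN)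
  obtain ⟨ε, hε, h2⟩ := Metric.mem_nhdsWithin_iff.1 h1
  refine ⟨ε / 2, by positivity, fun a b ha hsa hab hb hbs => ?_⟩
  have sub : Icc a b ⊆ Icc 0 L := Icc_subset_Icc ha hb
  have hN' : ∀ u ∈ Icc a b, α u ∈ N := fun u hu => h2 ⟨by
    rw [Metric.mem_ball, Real.dist_eq, abs_lt]; constructor <;> linarith [hu.1, hu.2], sub hu⟩
  have hc : ContinuousOn (fun u => κ (α u)) (Icc a b) := c.cκ.comp (h.ct.mono sub) hN'
  refine ⟨hN', hc, hc.strictMonoOn_of_injOn_Icc' hab fun u hu v hv huv => ?_⟩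
  apply h.inj (sub hu) (sub hv)
  rw [← (c.γκ _ (h.mem u (sub hu)) (hN' u hu)).2, ← (c.γκ _ (h.mem v (sub hv)) (hN' v hv)).2]
  exact congrArg γ huv

/-- the hypotheses: one end `p`, all other points are interior points -/
structure OneEnd (Γ : Set X) (p : X) : Prop where
  cpt : IsCompact Γ
  mem : p ∈ Γ
  ed : ∃ N κ γ r, 0 < r ∧ Ch Γ N κ γ (Ico 0 r) ∧ p ∈ N ∧ κ p = 0
  int : ∀ q ∈ Γ, q ≠ p → ∃ N κ γ r, 0 < r ∧ Ch Γ N κ γ (Ioo (-r) r) ∧ q ∈ N ∧ κ q = 0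

theorem cover_of_ivt {α : ℝ → X} {L : ℝ} (h : Gd Γ p α L) {N : Set X} {κ : X → ℝ} {γ : ℝ → X}
    {I : Set ℝ} (c : Ch Γ N κ γ I) {a b : ℝ} (ha : 0 ≤ a) (hab : a ≤ b) (hb : b < L)
    (hN : ∀ u ∈ Icc a b, α u ∈ N) (hc : ContinuousOn (fun u => κ (α u)) (Icc a b))
    {y : X} (hy : y ∈ Γ) (hyN : y ∈ N) (hk : κ y ∈ uIcc (κ (α a)) (κ (α b))) :
    y ∈ α '' Ico 0 L := by
  have h1 := intermediate_value_uIcc (f := fun u => κ (α u)) (a := a) (b := b)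
    (by rwa [uIcc_of_le hab])
  obtain ⟨u, hu, h2⟩ := h1 hk
  rw [uIcc_of_le hab] at hu
  refine ⟨u, ⟨ha.trans hu.1, hu.2.trans_lt hb⟩, ?_⟩
  rw [← (c.γκ _ hy hyN).2,
    ← (c.γκ _ (h.mem u ⟨ha.trans hu.1, hu.2.trans hb.le⟩) (hN u hu)).2]
  exact congrArg γ h2

/-- open mapping -/
theorem OneEnd.om (E : OneEnd Γ p) {α : ℝ → X} {L : ℝ} (h : Gd Γ p α L) {s : ℝ}
    (hs : s ∈ Ico 0 L) : ∃ V, IsOpen V ∧ α s ∈ V ∧ ∀ y ∈ Γ, y ∈ V → y ∈ α '' Ico 0 L := by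
  have hs' : s ∈ Icc 0 L := Ico_subset_Icc_self hs
  rcases hs.1.eq_or_lt with rfl | h0
  · obtain ⟨N, κ, γ, r, -, c, hN, hk⟩ := E.ed
    obtain ⟨η, hη, h1⟩ := h.loc c hs' (h.st ▸ hN)
    have hb : 0 < min η (L / 2) := lt_min hη (by linarith [h.pos])
    have hbL : min η (L / 2) < L := (min_le_right _ _).trans_lt (by linarith [h.pos])
    obtain ⟨h2, h3, h4⟩ := h1 0 (min η (L / 2)) le_rfl (by linarith) hb.le hbL.le
      (by simp)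
    have h5 : 0 < κ (α (min η (L / 2))) := by
      have h6 := (c.γκ _ (h.mem _ ⟨hb.le, hbL.le⟩) (h2 _ ⟨hb.le, le_rfl⟩)).1.1
      rcases h4 with h4 | h4
      · have := h4 ⟨le_rfl, hb.le⟩ ⟨hb.le, le_rfl⟩ hb
        simp only [h.st, hk] at this
        exact this
      · have := h4 ⟨le_rfl, hb.le⟩ ⟨hb.le, le_rfl⟩ hb
        simp only [h.st, hk] at this
        linarith
    refine ⟨N ∩ κ ⁻¹' Iio (κ (α (min η (L / 2)))), c.cκ.isOpen_inter_preimage c.op isOpen_Iio,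
      ⟨h.st ▸ hN, by simpa [h.st, hk] using h5⟩, fun y hy hV => ?_⟩
    refine cover_of_ivt h c le_rfl hb.le hbL h2 h3 hy hV.1 ?_
    rw [h.st, hk, uIcc_of_le h5.le]
    exact ⟨(c.γκ _ hy hV.1).1.1, le_of_lt hV.2⟩
  · have hne : α s ≠ p := fun e => h0.ne' (h.inj hs' ⟨le_rfl, h.pos.le⟩ (e.trans h.st.symm))
    obtain ⟨N, κ, γ, r, -, c, hN, hk⟩ := E.int _ (h.mem s hs') hne
    obtain ⟨η, hη, h1⟩ := h.loc c hs' hN
    set ρ := min η (min s ((L - s) / 2)) with hρ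
    have hρ0 : 0 < ρ := lt_min hη (lt_min h0 (by linarith [hs.2]))
    have r1 : ρ ≤ η := min_le_left _ _
    have r2 : ρ ≤ s := (min_le_right _ _).trans (min_le_left _ _)
    have r3 : ρ ≤ (L - s) / 2 := (min_le_right _ _).trans (min_le_right _ _)
    obtain ⟨h2, h3, h4⟩ := h1 (s - ρ) (s + ρ) (by linarith) (by linarith) (by linarith)
      (by linarith [hs.2]) (by linarith)
    have m1 : s - ρ ∈ Icc (s - ρ) (s + ρ) := ⟨le_rfl, by linarith⟩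
    have m2 : s ∈ Icc (s - ρ) (s + ρ) := ⟨by linarith, by linarith⟩
    have m3 : s + ρ ∈ Icc (s - ρ) (s + ρ) := ⟨by linarith, le_rfl⟩
    refine ⟨N ∩ κ ⁻¹' uIoo (κ (α (s - ρ))) (κ (α (s + ρ))),
      c.cκ.isOpen_inter_preimage c.op isOpen_Ioo, ⟨hN, ?_⟩, fun y hy hV => ?_⟩
    · rcases h4 with h4 | h4
      · exact mem_uIoo_of_lt (h4 m1 m2 (by linarith)) (h4 m2 m3 (by linarith))
      · exact mem_uIoo_of_gt (h4 m2 m3 (by linarith)) (h4 m1 m2 (by linarith))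
    · exact cover_of_ivt h c (by linarith) (by linarith) (by linarith [hs.2]) h2 h3 hy hV.1
        (uIoo_subset_uIcc_self hV.2)

variable [T2Space X]

/-- each side of the end point of a path is covered or missed -/
theorem OneEnd.side (E : OneEnd Γ p) {α : ℝ → X} {L : ℝ} (h : Gd Γ p α L) {N : Set X}
    {κ : X → ℝ} {γ : ℝ → X} {I : Set ℝ} (c : Ch Γ N κ γ I) (hN : α L ∈ N) {S : Set ℝ}
    (hS : S.OrdConnected) (hSI : S ⊆ I) (hx : κ (α L) ∉ S) :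
    (∀ x ∈ S, γ x ∈ α '' Icc 0 L) ∨ ∀ x ∈ S, γ x ∉ α '' Icc 0 L := by
  by_contra hc
  push Not at hc
  obtain ⟨⟨x, hxS, hx1⟩, y, hyS, hy1⟩ := hc
  choose! V hV1 hV2 hV3 using fun s (hs : s ∈ Ico 0 L) => E.om h hs
  have key : ∀ z ∈ S, γ z ∈ α '' Icc 0 L → γ z ∈ ⋃ s ∈ Ico 0 L, V s := by
    rintro z hz ⟨s, hs, e⟩
    have hsL : s < L := by
      refine hs.2.lt_of_ne ?_
      rintro rfl
      exact hx (by rw [e, c.κγ z (hSI hz)]; exact hz)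
    exact mem_biUnion (⟨hs.1, hsL⟩ : s ∈ Ico 0 L) (e ▸ hV2 s ⟨hs.1, hsL⟩)
  have hcl : IsClosed (α '' Icc 0 L) := (isCompact_Icc.image_of_continuousOn h.ct).isClosed
  obtain ⟨w, ⟨z, hz, rfl⟩, h1, h2⟩ := (hS.isPreconnected.image γ (c.cγ.mono hSI))
    (⋃ s ∈ Ico 0 L, V s) (α '' Icc 0 L)ᶜ (isOpen_biUnion hV1) hcl.isOpen_compl
    (by
      rintro _ ⟨z, hz, rfl⟩
      by_cases h3 : γ z ∈ α '' Icc 0 L
      · exact Or.inl (key z hz h3)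
      · exact Or.inr h3)
    ⟨γ y, mem_image_of_mem _ hyS, key y hyS hy1⟩ ⟨γ x, mem_image_of_mem _ hxS, hx1⟩
  obtain ⟨s, hs, h3⟩ := mem_iUnion₂.1 h1
  exact h2 (image_mono Ico_subset_Icc_self (hV3 s hs _ (c.mem z (hSI hz)).1 h3))

/-- a path that arrives from the left can be extended to the right -/
theorem OneEnd.ext (E : OneEnd Γ p) {α : ℝ → X} {L : ℝ} (h : Gd Γ p α L) {N : Set X}
    {κ : X → ℝ} {γ : ℝ → X} {I : Set ℝ} (c : Ch Γ N κ γ I) (hN : α L ∈ N) {a : ℝ} (ha : 0 ≤ a)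
    (haL : a < L) (h2 : ∀ u ∈ Icc a L, α u ∈ N)
    (hm : StrictMonoOn (fun u => κ (α u)) (Icc a L)) :
    (∀ x ∈ I, x ≤ κ (α L) → γ x ∈ α '' Icc 0 L) ∧
    (∀ x ∈ I, κ (α L) < x → γ x ∉ α '' Icc 0 L) ∧
    ∀ x₁ ∈ I, κ (α L) < x₁ → ∃ β, Gd Γ p β (L + 1) ∧ α '' Icc 0 L ⊆ β '' Icc 0 (L + 1) ∧
      ∀ x ∈ I, x ≤ x₁ → γ x ∈ β '' Icc 0 (L + 1) := by
  set x₀ := κ (α L) with hx₀
  have hL : L ∈ Icc 0 L := ⟨h.pos.le, le_rfl⟩
  obtain ⟨hx₀I, hγ₀⟩ := c.γκ _ (h.mem L hL) hN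
  have A : ∀ x ∈ I, x ≤ x₀ → γ x ∈ α '' Icc 0 L := by
    intro x hx hle
    rcases hle.eq_or_lt with rfl | hlt
    · exact ⟨L, hL, hγ₀.symm⟩
    rcases E.side h c hN (S := I ∩ Iio x₀) (c.oc.inter ordConnected_Iio) inter_subset_left
      (fun e => lt_irrefl x₀ e.2) with h3 | h3
    · exact h3 x ⟨hx, hlt⟩
    · have ha' : a ∈ Icc 0 L := ⟨ha, haL.le⟩
      obtain ⟨h4, h5⟩ := c.γκ _ (h.mem a ha') (h2 a ⟨le_rfl, haL.le⟩)
      exact absurd ⟨a, ha', h5.symm⟩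
        (h3 _ ⟨h4, hm ⟨le_rfl, haL.le⟩ ⟨haL.le, le_rfl⟩ haL⟩)
  have B : ∀ x ∈ I, x₀ < x → γ x ∉ α '' Icc 0 L := by
    intro x hx hlt
    rcases E.side h c hN (S := I ∩ Ioi x₀) (c.oc.inter ordConnected_Ioi) inter_subset_left
      (fun e => lt_irrefl x₀ e.2) with h3 | h3
    · exfalso
      have hcl : IsClosed (α '' Icc 0 a) :=
        (isCompact_Icc.image_of_continuousOn (h.ct.mono (Icc_subset_Icc le_rfl haL.le))).isClosed
      have hn : γ x₀ ∈ (α '' Icc 0 a)ᶜ := by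
        rintro ⟨s, hs, e⟩
        have := h.inj ⟨hs.1, hs.2.trans haL.le⟩ hL (e.trans hγ₀)
        linarith [hs.2]
      have h4 : γ ⁻¹' (α '' Icc 0 a)ᶜ ∈ 𝓝[I] x₀ := c.cγ x₀ hx₀I (hcl.isOpen_compl.mem_nhds hn)
      obtain ⟨ε, hε, h5⟩ := Metric.mem_nhdsWithin_iff.1 h4
      set z := min x (x₀ + ε / 2) with hz
      have z1 : x₀ < z := lt_min hlt (by linarith)
      have z2 : z ∈ I := c.oc.out hx₀I hx ⟨z1.le, min_le_left _ _⟩
      have z3 : z ≤ x₀ + ε / 2 := min_le_right _ _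
      obtain ⟨s, hs, e⟩ := h3 z ⟨z2, z1⟩
      have h6 := h5 ⟨by rw [Metric.mem_ball, Real.dist_eq, abs_lt]; constructor <;> linarith, z2⟩
      rcases le_total s a with h7 | h7
      · exact h6 ⟨s, ⟨hs.1, h7⟩, e⟩
      · have h8 := hm.monotoneOn ⟨h7, hs.2⟩ ⟨haL.le, le_rfl⟩ hs.2
        simp only [e, c.κγ z z2] at h8
        linarith
    · exact h3 x ⟨hx, hlt⟩
  refine ⟨A, B, fun x₁ hx₁ hlt => ?_⟩
  set l : ℝ → ℝ := fun s => x₀ + (s - L) * (x₁ - x₀) with hl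
  have lI : ∀ s ∈ Icc L (L + 1), l s ∈ I := fun s hs => c.oc.out hx₀I hx₁
    ⟨by simp only [hl]; nlinarith [hs.1], by simp only [hl]; nlinarith [hs.2]⟩
  have lgt : ∀ s, L < s → x₀ < l s := fun s hs => by simp only [hl]; nlinarith
  set β : ℝ → X := fun s => if s ≤ L then α s else γ (l s) with hβ
  have b1 : ∀ s, s ≤ L → β s = α s := fun s hs => if_pos hs
  have b2 : ∀ s, L ≤ s → β s = γ (l s) := by
    intro s hs
    rcases hs.eq_or_lt with rfl | hs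
    · rw [b1 _ le_rfl]
      simp only [hl, sub_self, zero_mul, add_zero]
      exact hγ₀.symm
    · exact if_neg (not_le.2 hs)
  refine ⟨β, ⟨by linarith [h.pos], ?_, ?_, (b1 0 h.pos.le).trans h.st, ?_⟩, ?_, ?_⟩
  · rw [← Icc_union_Icc_eq_Icc h.pos.le (by linarith : L ≤ L + 1)]
    refine ContinuousOn.union_of_isClosed (h.ct.congr fun s hs => b1 s hs.2)
      ((c.cγ.comp (by fun_prop) lI).congr fun s hs => b2 s hs.1) isClosed_Icc isClosed_Icc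
  · intro u hu v hv e
    rcases le_or_gt u L with h3 | h3 <;> rcases le_or_gt v L with h4 | h4
    · rw [b1 u h3, b1 v h4] at e
      exact h.inj ⟨hu.1, h3⟩ ⟨hv.1, h4⟩ e
    · rw [b1 u h3, b2 v h4.le] at e
      exact absurd ⟨u, ⟨hu.1, h3⟩, e⟩ (B _ (lI v ⟨h4.le, hv.2⟩) (lgt v h4))
    · rw [b2 u h3.le, b1 v h4] at e
      exact absurd ⟨v, ⟨hv.1, h4⟩, e.symm⟩ (B _ (lI u ⟨h3.le, hu.2⟩) (lgt u h3))
    · rw [b2 u h3.le, b2 v h4.le] at e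
      have h5 := congrArg κ e
      rw [c.κγ _ (lI u ⟨h3.le, hu.2⟩), c.κγ _ (lI v ⟨h4.le, hv.2⟩)] at h5
      simp only [hl] at h5
      have h6 : (u - v) * (x₁ - x₀) = 0 := by linarith
      rcases mul_eq_zero.1 h6 with h7 | h7 <;> linarith
  · intro s hs
    rcases le_total s L with h3 | h3
    · rw [b1 s h3]; exact h.mem s ⟨hs.1, h3⟩
    · rw [b2 s h3]; exact (c.mem _ (lI s ⟨h3, hs.2⟩)).1
  · rintro _ ⟨s, hs, rfl⟩
    exact ⟨s, ⟨hs.1, by linarith [hs.2]⟩, b1 s hs.2⟩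
  · intro x hx hle
    rcases le_or_gt x x₀ with h3 | h3
    · obtain ⟨s, hs, e⟩ := A x hx h3
      exact ⟨s, ⟨hs.1, by linarith [hs.2]⟩, (b1 s hs.2).trans e⟩
    · have d0 : 0 < x₁ - x₀ := by linarith
      have q0 : 0 ≤ (x - x₀) / (x₁ - x₀) := div_nonneg (by linarith) d0.le
      have q1 : (x - x₀) / (x₁ - x₀) ≤ 1 := (div_le_one d0).2 (by linarith)
      refine ⟨L + (x - x₀) / (x₁ - x₀), ⟨by linarith [h.pos], by linarith⟩, ?_⟩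
      rw [b2 _ (by linarith)]
      congr 1
      simp only [hl]
      field_simp
      ring

/-- the property of the cores of the charts -/
def Core (Γ : Set X) (p : X) (Z : Set X) : Prop := ∀ α L, Gd Γ p α L → α L ∈ Z →
  ∃ β L', Gd Γ p β L' ∧ α '' Icc 0 L ⊆ β '' Icc 0 L' ∧ Γ ∩ Z ⊆ β '' Icc 0 L' ∧
    ¬ Γ ∩ Z ⊆ α '' Icc 0 L

theorem OneEnd.core_aux (E : OneEnd Γ p) {α : ℝ → X} {L : ℝ} (h : Gd Γ p α L) {N : Set X}
    {κ : X → ℝ} {γ : ℝ → X} {I : Set ℝ} (c : Ch Γ N κ γ I) {r : ℝ} (hr : r ∈ I)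
    (hZ : α L ∈ N ∩ κ ⁻¹' Ioo (-r) r) {a : ℝ} (ha : 0 ≤ a)
    (haL : a < L) (h2 : ∀ u ∈ Icc a L, α u ∈ N)
    (hm : StrictMonoOn (fun u => κ (α u)) (Icc a L)) :
    ∃ β L', Gd Γ p β L' ∧ α '' Icc 0 L ⊆ β '' Icc 0 L' ∧
      Γ ∩ (N ∩ κ ⁻¹' Ioo (-r) r) ⊆ β '' Icc 0 L' ∧
      ¬ Γ ∩ (N ∩ κ ⁻¹' Ioo (-r) r) ⊆ α '' Icc 0 L := by
  obtain ⟨-, B, C⟩ := E.ext h c hZ.1 ha haL h2 hm
  obtain ⟨β, b1, b2, b3⟩ := C r hr hZ.2.2
  refine ⟨β, L + 1, b1, b2, fun y hy => ?_, fun hc => ?_⟩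
  · obtain ⟨h3, h4⟩ := c.γκ y hy.1 hy.2.1
    rw [← h4]
    exact b3 _ h3 hy.2.2.2.le
  · have h0 := (c.γκ _ (h.mem L ⟨h.pos.le, le_rfl⟩) hZ.1).1
    have h3 := hZ.2.1
    have h4 := hZ.2.2
    have h5 : (κ (α L) + r) / 2 ∈ I := c.oc.out h0 hr ⟨by linarith, by linarith⟩
    refine B _ h5 (by linarith) (hc ⟨(c.mem _ h5).1, (c.mem _ h5).2, ?_⟩)
    rw [mem_preimage, c.κγ _ h5]
    exact ⟨by linarith, by linarith⟩

theorem OneEnd.exists_core (E : OneEnd Γ p) {q : X} (hq : q ∈ Γ) :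
    ∃ Z, IsOpen Z ∧ q ∈ Z ∧ Core Γ p Z := by
  have pre : ∀ {N : Set X} {κ : X → ℝ} {γ : ℝ → X} {I : Set ℝ}, Ch Γ N κ γ I →
      ∀ α L, Gd Γ p α L → α L ∈ N → ∃ a, 0 ≤ a ∧ a < L ∧ (∀ u ∈ Icc a L, α u ∈ N) ∧
      (StrictMonoOn (fun u => κ (α u)) (Icc a L) ∨ StrictAntiOn (fun u => κ (α u)) (Icc a L)) := by
    intro N κ γ I c α L h hN
    obtain ⟨η, hη, h1⟩ := h.loc c ⟨h.pos.le, le_rfl⟩ hN
    have h2 : max 0 (L - η) < L := max_lt h.pos (by linarith)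
    obtain ⟨h3, -, h4⟩ := h1 (max 0 (L - η)) L (le_max_left _ _) (le_max_right _ _) h2.le le_rfl
      (by linarith)
    exact ⟨_, le_max_left _ _, h2, h3, h4⟩
  by_cases hp : q = p
  · subst hp
    obtain ⟨N, κ, γ, r, hr, c, hN, hk⟩ := E.ed
    refine ⟨N ∩ κ ⁻¹' Ioo (-(r / 2)) (r / 2), c.cκ.isOpen_inter_preimage c.op isOpen_Ioo,
      ⟨hN, by rw [mem_preimage, hk]; exact ⟨by linarith, by linarith⟩⟩, fun α L h hZ => ?_⟩
    obtain ⟨a, ha, haL, h2, hm | hm⟩ := pre c α L h hZ.1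
    · exact E.core_aux h c ⟨by linarith, by linarith⟩ hZ ha haL h2 hm
    · exfalso
      obtain ⟨-, B, -⟩ := E.ext h c.neg hZ.1 ha haL h2 hm.neg
      obtain ⟨h3, h4⟩ := c.γκ _ (h.mem L ⟨h.pos.le, le_rfl⟩) hZ.1
      have h5 := (c.γκ _ hq hN).2
      rw [hk] at h5
      have h6 : κ (α L) ≠ 0 := by
        intro e
        rw [e, h5] at h4
        exact h.pos.ne (h.inj ⟨le_rfl, h.pos.le⟩ ⟨h.pos.le, le_rfl⟩ (h.st.trans h4))
      refine B 0 (by simpa using hr) (by have := h3.1.lt_of_ne' h6; linarith) ?_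
      exact ⟨0, ⟨le_rfl, h.pos.le⟩, by simp [h.st, h5]⟩
  · obtain ⟨N, κ, γ, r, hr, c, hN, hk⟩ := E.int q hq hp
    refine ⟨N ∩ κ ⁻¹' Ioo (-(r / 2)) (r / 2), c.cκ.isOpen_inter_preimage c.op isOpen_Ioo,
      ⟨hN, by rw [mem_preimage, hk]; exact ⟨by linarith, by linarith⟩⟩, fun α L h hZ => ?_⟩
    obtain ⟨a, ha, haL, h2, hm | hm⟩ := pre c α L h hZ.1
    · exact E.core_aux h c ⟨by linarith, by linarith⟩ hZ ha haL h2 hm
    · have e : (fun y => -κ y) ⁻¹' Ioo (-(r / 2)) (r / 2) = κ ⁻¹' Ioo (-(r / 2)) (r / 2) := by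
        ext y
        simp only [mem_preimage, mem_Ioo]
        constructor <;> rintro ⟨h3, h4⟩ <;> constructor <;> linarith
      have := E.core_aux h c.neg (r := r / 2) ⟨by linarith, by linarith⟩ (by rw [e]; exact hZ)
        ha haL h2 hm.neg
      rwa [e] at this

/-- **a compact curve does not have exactly one end** -/
theorem OneEnd.false (E : OneEnd Γ p) : False := by
  classical
  choose! Z hZ1 hZ2 hZ3 using fun q (hq : q ∈ Γ) => E.exists_core hq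
  obtain ⟨T, hT, hcov⟩ := E.cpt.elim_nhds_subcover Z fun q hq => (hZ1 q hq).mem_nhds (hZ2 q hq)
  have step : ∀ n : ℕ, ∃ α L, Gd Γ p α L ∧
      n ≤ (T.filter fun q => Γ ∩ Z q ⊆ α '' Icc 0 L).card := by
    intro n
    induction n with
    | zero =>
      obtain ⟨N, κ, γ, r, hr, c, hN, hk⟩ := E.ed
      have sub : Icc 0 (r / 2) ⊆ Ico 0 r := fun x hx => ⟨hx.1, by linarith [hx.2]⟩
      refine ⟨γ, r / 2, ⟨by linarith, c.cγ.mono sub, fun u hu v hv e => ?_, ?_,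
        fun s hs => (c.mem s (sub hs)).1⟩, Nat.zero_le _⟩
      · rw [← c.κγ u (sub hu), e, c.κγ v (sub hv)]
      · rw [← hk]; exact (c.γκ _ E.mem hN).2
    | succ n ih =>
      obtain ⟨α, L, h, hn⟩ := ih
      obtain ⟨q, hq, h1⟩ := mem_iUnion₂.1 (hcov (h.mem L ⟨h.pos.le, le_rfl⟩))
      obtain ⟨β, L', b1, b2, b3, b4⟩ := hZ3 q (hT q hq) α L h h1
      refine ⟨β, L', b1, Nat.succ_le_of_lt (hn.trans_lt (Finset.card_lt_card ⟨fun x hx => ?_,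
        fun hc => ?_⟩))⟩
      · rw [Finset.mem_filter] at hx ⊢
        exact ⟨hx.1, hx.2.trans b2⟩
      · exact b4 (Finset.mem_filter.1 (hc (Finset.mem_filter.2 ⟨hq, b3⟩))).2
  obtain ⟨α, L, -, h⟩ := step (T.card + 1)
  exact absurd (h.trans (Finset.card_filter_le _ _)) (by omega)

end Crest.Agent.N250.GB
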