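import Mathlib

/-!
# Row 250, local Gauss-Bonnet (helper74): counting components of superlevel sets
-/

set_option autoImplicit false
open Set Filter Topology Function

namespace Crest.Agent.N250.GB

theorem antitone_of_local {Φ : ℝ → ℤ} (hr : ∀ s₀, ∀ᶠ s in 𝓝[>] s₀, Φ s ≤ Φ s₀)
    (hl : ∀ s₀, ∀ᶠ s in 𝓝[<] s₀, Φ s₀ ≤ Φ s) : Antitone Φ := by
  intro a b hab
  set S := {x ∈ Icc a b | ∀ y ∈ Icc a x, Φ y ≤ Φ a} with hS
  have haS : a ∈ S := ⟨⟨le_rfl, hab⟩, fun y hy => by rw [le_antisymm hy.2 hy.1]⟩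
  have hb : BddAbove S := ⟨b, fun x hx => hx.1.2⟩
  set c := sSup S with hc
  have ac : a ≤ c := le_csSup hb haS
  have cb : c ≤ b := csSup_le ⟨a, haS⟩ fun x hx => hx.1.2
  have lt : ∀ y, a ≤ y → y < c → Φ y ≤ Φ a := fun y h1 h2 => by
    obtain ⟨x, hx, h3⟩ := exists_lt_of_lt_csSup ⟨a, haS⟩ h2
    exact hx.2 y ⟨h1, h3.le⟩
  have cS : ∀ y ∈ Icc a c, Φ y ≤ Φ a := by
    intro y hy
    rcases hy.2.lt_or_eq with h | rfl
    · exact lt y hy.1 h
    rcases ac.eq_or_lt with h | h
    · rw [← h]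
    · obtain ⟨z, h1, h2⟩ := ((hl c).and (Ioo_mem_nhdsLT h)).exists
      exact h1.trans (lt z h2.1.le h2.2)
  rcases cb.eq_or_lt with h | h
  · exact cS b ⟨hab, h.ge⟩
  · exfalso
    obtain ⟨u, hu, h1⟩ := mem_nhdsGT_iff_exists_Ioo_subset.1 ((hr c).and (Ioo_mem_nhdsGT h))
    have hu' : c < u := hu
    have h2 := h1 (⟨by linarith, by linarith⟩ : (c + u) / 2 ∈ Ioo c u)
    have h3 : (c + u) / 2 ∈ S := by
      refine ⟨⟨by linarith, h2.2.2.le⟩, fun y hy => ?_⟩
      rcases le_or_gt y c with h4 | h4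
      · exact cS y ⟨hy.1, h4⟩
      · exact (h1 ⟨h4, by linarith [hy.2]⟩).1.trans (cS c ⟨ac, le_rfl⟩)
    linarith [le_csSup hb h3]

theorem card_image_le_of {α β γ : Type*} [DecidableEq β] [DecidableEq γ] (A : Finset α)
    (g : α → β) (h : α → γ) (H : ∀ a ∈ A, ∀ b ∈ A, g a = g b → h a = h b) :
    (A.image h).card ≤ (A.image g).card := by
  classical
  rcases A.eq_empty_or_nonempty with rfl | ⟨a₀, -⟩
  · simp
  let k : β → γ := fun y => if e : ∃ a ∈ A, g a = y then h e.choose else h a₀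
  have : A.image h ⊆ (A.image g).image k := by
    intro z hz
    obtain ⟨a, ha, rfl⟩ := Finset.mem_image.1 hz
    have e : ∃ a' ∈ A, g a' = g a := ⟨a, ha, rfl⟩
    refine Finset.mem_image.2 ⟨g a, Finset.mem_image_of_mem _ ha, ?_⟩
    simp only [k, dif_pos e]
    exact H _ e.choose_spec.1 _ ha e.choose_spec.2
  exact (Finset.card_le_card this).trans Finset.card_image_le

variable {X : Type} [TopologicalSpace X]

/-- superlevel set -/
def Sp (f : X → ℝ) (s : ℝ) : Set X := {x | s < f x}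

/-- component -/
abbrev cc (O : Set X) (a : X) : Set X := connectedComponentIn O a

/-- `U` is a component of `O` that touches `q` -/
def Tc (O : Set X) (q : X) (U : Set X) : Prop := (∃ a ∈ O, U = cc O a) ∧ q ∈ closure U

/-- two components of the superlevel set merge at `q` -/
def Up (f : X → ℝ) (q : X) : Prop :=
  ∃ U U', Tc (Sp f (f q)) q U ∧ Tc (Sp f (f q)) q U' ∧ U ≠ U'

/-- the local hypotheses -/
structure Lc (f : X → ℝ) (C : Finset X) : Prop where
  ct : Continuous f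
  mx : ∀ m, IsLocalMax f m → m ∈ C
  up : ∀ q, Up f q → q ∈ C
  three : ∀ q U₁ U₂ U₃, Tc (Sp f (f q)) q U₁ → Tc (Sp f (f q)) q U₂ → Tc (Sp f (f q)) q U₃ →
    U₁ = U₂ ∨ U₁ = U₃ ∨ U₂ = U₃
  inj : InjOn f C

open Classical in
/-- maxima above `s` -/
noncomputable def Mx (f : X → ℝ) (C : Finset X) (s : ℝ) : Finset X :=
  C.filter fun m => IsLocalMax f m ∧ s < f m

open Classical in
/-- components above `s` -/
noncomputable def Cp (f : X → ℝ) (C : Finset X) (s : ℝ) : Finset (Set X) :=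
  (Mx f C s).image (cc (Sp f s))

open Classical in
/-- merging points above `s` -/
noncomputable def Ud (f : X → ℝ) (C : Finset X) (s : ℝ) : Finset X :=
  C.filter fun q => Up f q ∧ s < f q

/-- the monotone quantity -/
noncomputable def Ph (f : X → ℝ) (C : Finset X) (s : ℝ) : ℤ :=
  (Cp f C s).card + (Ud f C s).card - (Mx f C s).card

variable {f : X → ℝ} {C : Finset X}

theorem mem_Mx {s : ℝ} {m : X} : m ∈ Mx f C s ↔ m ∈ C ∧ IsLocalMax f m ∧ s < f m := by
  simp [Mx]

theorem mem_Ud {s : ℝ} {m : X} : m ∈ Ud f C s ↔ m ∈ C ∧ Up f m ∧ s < f m := by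
  simp [Ud]

theorem mem_Cp {s : ℝ} {U : Set X} : U ∈ Cp f C s ↔ ∃ m ∈ Mx f C s, cc (Sp f s) m = U := by
  simp [Cp]

theorem isOpen_Sp (h : Continuous f) (s : ℝ) : IsOpen (Sp f s) := isOpen_lt continuous_const h

theorem cc_eq {O : Set X} {a b z : X} (ha : z ∈ cc O a) (hb : z ∈ cc O b) : cc O a = cc O b :=
  (connectedComponentIn_eq ha).trans (connectedComponentIn_eq hb).symm

theorem le_of_closure (h : Continuous f) {s : ℝ} {a x : X} (hx : x ∈ closure (cc (Sp f s) a)) :
    s ≤ f x :=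
  closure_minimal (fun _ hy => le_of_lt (connectedComponentIn_subset (Sp f s) a hy))
    (isClosed_le continuous_const h) hx

variable [LocallyConnectedSpace X]

theorem cc_of_closure {O : Set X} (hO : IsOpen O) {a q : X} (hq : q ∈ O)
    (h : q ∈ closure (cc O a)) : cc O q = cc O a := by
  obtain ⟨z, h1, h2⟩ := mem_closure_iff.1 h _ hO.connectedComponentIn
    (mem_connectedComponentIn hq)
  exact cc_eq h1 h2

theorem same_cc (h : Continuous f) {s₀ : ℝ} {m m' : X} (hm : s₀ < f m)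
    (h' : m' ∈ cc (Sp f s₀) m) : ∀ᶠ s in 𝓝[>] s₀, m' ∈ cc (Sp f s) m := by
  have mono : ∀ {s s' : ℝ} (x : X), s ≤ s' → cc (Sp f s') x ⊆ cc (Sp f s) x :=
    fun x hs => connectedComponentIn_mono x fun y hy => hs.trans_lt hy
  set W := ⋃ s ∈ Ioi s₀, cc (Sp f s) m with hW
  have key : cc (Sp f s₀) m ⊆ W := by
    refine isPreconnected_connectedComponentIn.subset_left_of_subset_union
      (v := ⋃ s ∈ Ioi s₀, ⋃ x ∈ Sp f s \ W, cc (Sp f s) x)
      (isOpen_biUnion fun s _ => (isOpen_Sp h s).connectedComponentIn)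
      (isOpen_biUnion fun s _ => isOpen_biUnion fun x _ => (isOpen_Sp h s).connectedComponentIn)
      ?_ ?_ ?_
    · rw [Set.disjoint_left]
      intro z hz hz'
      obtain ⟨s₁, h1, h2⟩ := mem_iUnion₂.1 hz
      obtain ⟨s₂, h3, h4⟩ := mem_iUnion₂.1 hz'
      obtain ⟨x, h5, h6⟩ := mem_iUnion₂.1 h4
      refine h5.2 (mem_biUnion (mem_Ioi.2 (lt_min (mem_Ioi.1 h1) (mem_Ioi.1 h3))) ?_)
      rw [cc_eq (mono m (min_le_left _ _) h2) (mono x (min_le_right _ _) h6)]
      exact mem_connectedComponentIn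
        (show min s₁ s₂ < f x from (min_le_right _ _).trans_lt (show s₂ < f x from h5.1))
    · intro z hz
      by_cases h1 : z ∈ W
      · exact Or.inl h1
      · have h2 : s₀ < f z := connectedComponentIn_subset (Sp f s₀) m hz
        have h3 : z ∈ Sp f ((s₀ + f z) / 2) := show (s₀ + f z) / 2 < f z by linarith
        exact Or.inr (mem_biUnion (show (s₀ + f z) / 2 ∈ Ioi s₀ from mem_Ioi.2 (by linarith))
          (mem_biUnion (⟨h3, h1⟩ : z ∈ Sp f _ \ W) (mem_connectedComponentIn h3)))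
    · exact ⟨m, mem_connectedComponentIn hm,
        mem_biUnion (show (s₀ + f m) / 2 ∈ Ioi s₀ from mem_Ioi.2 (by linarith))
          (mem_connectedComponentIn (show (s₀ + f m) / 2 < f m by linarith))⟩
  obtain ⟨s₁, h1, h2⟩ := mem_iUnion₂.1 (key h')
  filter_upwards [Ioo_mem_nhdsGT h1] with s hs using mono m hs.2.le h2

theorem Lc.right (h : Lc f C) (s₀ : ℝ) : ∀ᶠ s in 𝓝[>] s₀, Ph f C s ≤ Ph f C s₀ := by
  classical
  have gap : ∀ᶠ s in 𝓝[>] s₀, ∀ q ∈ C, (s < f q ↔ s₀ < f q) := by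
    refine (Finset.eventually_all C).2 fun q _ => ?_
    rcases lt_or_ge s₀ (f q) with h1 | h1
    · filter_upwards [Ioo_mem_nhdsGT h1] with s hs using iff_of_true hs.2 h1
    · filter_upwards [self_mem_nhdsWithin] with s hs using
        iff_of_false (not_lt.2 (h1.trans (le_of_lt hs))) (not_lt.2 h1)
  have same : ∀ᶠ s in 𝓝[>] s₀, ∀ m ∈ Mx f C s₀, ∀ m' ∈ Mx f C s₀,
      cc (Sp f s₀) m = cc (Sp f s₀) m' → m' ∈ cc (Sp f s) m := by
    refine (Finset.eventually_all _).2 fun m hm => (Finset.eventually_all _).2 fun m' hm' => ?_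
    by_cases e : cc (Sp f s₀) m = cc (Sp f s₀) m'
    · filter_upwards [same_cc h.ct (mem_Mx.1 hm).2.2
        (by rw [e]; exact mem_connectedComponentIn (F := Sp f s₀) (mem_Mx.1 hm').2.2 :
          m' ∈ cc (Sp f s₀) m)] with s hs _ using hs
    · exact Eventually.of_forall fun s e' => absurd e' e
  filter_upwards [gap, same] with s h1 h2
  have e1 : Mx f C s = Mx f C s₀ := by
    ext q; simp only [mem_Mx]
    exact and_congr_right fun hq => by rw [h1 q hq]
  have e2 : Ud f C s = Ud f C s₀ := by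
    ext q; simp only [mem_Ud]
    exact and_congr_right fun hq => by rw [h1 q hq]
  have e3 : (Cp f C s).card ≤ (Cp f C s₀).card := by
    unfold Cp
    rw [e1]
    exact card_image_le_of _ _ _ fun m hm m' hm' e => connectedComponentIn_eq (h2 m hm m' hm' e)
  unfold Ph
  rw [e1, e2]
  omega

variable [CompactSpace X]

theorem Lc.exists_max (h : Lc f C) {s : ℝ} {a : X} (ha : s < f a) :
    ∃ m ∈ Mx f C s, cc (Sp f s) m = cc (Sp f s) a ∧ IsMaxOn f (cc (Sp f s) a) m := by
  have h0 : a ∈ closure (cc (Sp f s) a) := subset_closure (mem_connectedComponentIn ha)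
  obtain ⟨m, h1, h2⟩ := isClosed_closure.isCompact.exists_isMaxOn ⟨a, h0⟩ h.ct.continuousOn
  have h3 : s < f m := ha.trans_le (h2 h0)
  have h4 := cc_of_closure (isOpen_Sp h.ct s) h3 h1
  have h5 : IsLocalMax f m := (h2.on_subset subset_closure).isLocalMax
    (h4 ▸ (isOpen_Sp h.ct s).connectedComponentIn.mem_nhds (mem_connectedComponentIn h3))
  exact ⟨m, mem_Mx.2 ⟨h.mx m h5, h5, h3⟩, h4, h2.on_subset subset_closure⟩

variable [T2Space X]

theorem Lc.left (h : Lc f C) (s₀ : ℝ) : ∀ᶠ s in 𝓝[<] s₀, Ph f C s₀ ≤ Ph f C s := by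
  classical
  set O := Sp f s₀ with hO
  have hOo : IsOpen O := isOpen_Sp h.ct s₀
  set M' := C.filter fun m => IsLocalMax f m ∧ s₀ ≤ f m with hM'
  set cl : X → Set X := fun m => if s₀ < f m then closure (cc O m) else {m} with hcl
  set lab : X → Option (Set X) :=
    fun m => if ∃ q ∈ cl m, q ∈ C ∧ f q = s₀ then none else some (cc O m) with hlab
  have mM : ∀ {m}, m ∈ M' ↔ m ∈ C ∧ IsLocalMax f m ∧ s₀ ≤ f m := by simp [hM']
  have sub : Mx f C s₀ ⊆ M' := fun m hm =>
    mM.2 ⟨(mem_Mx.1 hm).1, (mem_Mx.1 hm).2.1, (mem_Mx.1 hm).2.2.le⟩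
  have cl1 : ∀ m, s₀ < f m → cl m = closure (cc O m) := fun m hm => if_pos hm
  have cl2 : ∀ m, ¬ s₀ < f m → cl m = {m} := fun m hm => if_neg hm
  have clc : ∀ m, IsClosed (cl m) := fun m => by
    by_cases e : s₀ < f m
    · rw [cl1 m e]; exact isClosed_closure
    · rw [cl2 m e]; exact isClosed_singleton
  have self : ∀ m, m ∈ cl m := fun m => by
    by_cases e : s₀ < f m
    · rw [cl1 m e]; exact subset_closure (mem_connectedComponentIn e)
    · rw [cl2 m e]; rfl
  have cov0 : ∀ x ∈ O, ∃ m ∈ M', x ∈ cl m := fun x hx => by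
    obtain ⟨m, h1, h2, -⟩ := h.exists_max hx
    refine ⟨m, sub h1, ?_⟩
    rw [cl1 m (mem_Mx.1 h1).2.2, h2]
    exact subset_closure (mem_connectedComponentIn hx)
  have cov : ∀ x, s₀ ≤ f x → ∃ m ∈ M', x ∈ cl m := by
    intro x hx
    by_cases e : IsLocalMax f x
    · exact ⟨x, mM.2 ⟨h.mx x e, e, hx⟩, self x⟩
    · have h1 : x ∈ closure O := by
        rw [mem_closure_iff_frequently]
        exact (not_eventually.1 e).mono fun y hy => hx.trans_lt (not_le.1 hy)
      have h2 := closure_minimal (fun y hy => by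
        obtain ⟨m, h3, h4⟩ := cov0 y hy
        exact mem_biUnion (Finset.mem_coe.2 h3) h4)
        (M'.finite_toSet.isClosed_biUnion fun m _ => clc m) h1
      obtain ⟨m, h3, h4⟩ := mem_iUnion₂.1 h2
      exact ⟨m, h3, h4⟩
  have disj : ∀ m ∈ M', ∀ m' ∈ M', ∀ x, x ∈ cl m → x ∈ cl m' → lab m = lab m' := by
    intro m hm m' hm' x hx hx'
    by_cases e : x ∈ C ∧ f x = s₀
    · simp only [hlab]
      rw [if_pos ⟨x, hx, e⟩, if_pos ⟨x, hx', e⟩]
    have big : ∀ n ∈ M', x ∈ cl n → s₀ < f n := fun n hn hx => by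
      by_contra e'
      rw [cl2 n e', mem_singleton_iff] at hx
      exact e ⟨hx ▸ (mM.1 hn).1, hx ▸ le_antisymm (not_lt.1 e') (mM.1 hn).2.2⟩
    have b1 := big m hm hx
    have b2 := big m' hm' hx'
    rw [cl1 _ b1] at hx
    rw [cl1 _ b2] at hx'
    have e1 : cc O m = cc O m' := by
      rcases (le_of_closure h.ct hx).lt_or_eq with h1 | h1
      · exact (cc_of_closure hOo h1 hx).symm.trans (cc_of_closure hOo h1 hx')
      · by_contra e'
        refine e ⟨h.up x ⟨cc O m, cc O m', ?_, ?_, e'⟩, h1.symm⟩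
        · rw [← h1]; exact ⟨⟨m, b1, rfl⟩, hx⟩
        · rw [← h1]; exact ⟨⟨m', b2, rfl⟩, hx'⟩
    simp only [hlab]
    rw [cl1 _ b1, cl1 _ b2, e1]
  have sep : ∀ m ∈ M', ∀ᶠ s in 𝓝[<] s₀, ∀ m' ∈ M', m' ∈ cc (Sp f s) m → lab m' = lab m := by
    intro m hm
    set A := ⋃ n ∈ M'.filter (fun n => lab n = lab m), cl n with hA
    set B := ⋃ n ∈ M'.filter (fun n => lab n ≠ lab m), cl n with hB
    have cA : IsClosed A := (Finset.finite_toSet _).isClosed_biUnion fun n _ => clc n
    have cB : IsClosed B := (Finset.finite_toSet _).isClosed_biUnion fun n _ => clc n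
    have dAB : Disjoint A B := by
      rw [Set.disjoint_left]
      intro x h1 h2
      obtain ⟨n, h3, h4⟩ := mem_iUnion₂.1 h1
      obtain ⟨n', h5, h6⟩ := mem_iUnion₂.1 h2
      rw [Finset.mem_filter] at h3 h5
      exact h5.2 ((disj n h3.1 n' h5.1 x h4 h6).symm.trans h3.2)
    obtain ⟨U, V, hU, hV, h1, h2, h3⟩ := normal_separation cA cB dAB
    have hK : ∀ᶠ s in 𝓝[<] s₀, Sp f s ⊆ U ∪ V := by
      rcases (U ∪ V)ᶜ.eq_empty_or_nonempty with e | e
      · exact Eventually.of_forall fun s x _ => by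
          by_contra h4
          exact (e ▸ h4 : x ∈ (∅ : Set X))
      · obtain ⟨z, h4, h5⟩ := (hU.union hV).isClosed_compl.isCompact.exists_isMaxOn e
          h.ct.continuousOn
        have h6 : f z < s₀ := by
          by_contra h7
          obtain ⟨n, h8, h9⟩ := cov z (not_lt.1 h7)
          by_cases e' : lab n = lab m
          · exact h4 (Or.inl (h1 (mem_biUnion (Finset.mem_filter.2 ⟨h8, e'⟩) h9)))
          · exact h4 (Or.inr (h2 (mem_biUnion (Finset.mem_filter.2 ⟨h8, e'⟩) h9)))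
        filter_upwards [Ioo_mem_nhdsLT h6] with s hs x hx
        by_contra h7
        exact absurd (hs.1.trans hx) (not_lt.2 (h5 h7))
    filter_upwards [hK, self_mem_nhdsWithin] with s hs hs' m' hm' h4
    by_contra e
    have h5 := isPreconnected_connectedComponentIn.subset_left_of_subset_union hU hV h3
      ((connectedComponentIn_subset _ m).trans hs)
      ⟨m, mem_connectedComponentIn (lt_of_lt_of_le hs' (mM.1 hm).2.2),
        h1 (mem_biUnion (Finset.mem_filter.2 ⟨hm, rfl⟩) (self m))⟩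
    exact Set.disjoint_left.1 h3 (h5 h4)
      (h2 (mem_biUnion (Finset.mem_filter.2 ⟨hm', e⟩) (self m')))
  have gap : ∀ᶠ s in 𝓝[<] s₀, ∀ q ∈ C, (s < f q ↔ s₀ ≤ f q) := by
    refine (Finset.eventually_all C).2 fun q _ => ?_
    rcases lt_or_ge (f q) s₀ with h1 | h1
    · filter_upwards [Ioo_mem_nhdsLT h1] with s hs using
        iff_of_false (not_lt.2 hs.1.le) (not_le.2 h1)
    · filter_upwards [self_mem_nhdsWithin] with s hs using iff_of_true (lt_of_lt_of_le hs h1) h1
  filter_upwards [(Finset.eventually_all M').2 sep, gap] with s h1 h2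
  have e1 : Mx f C s = M' := by
    ext q; simp only [mem_Mx, mM]
    exact and_congr_right fun hq => by rw [h2 q hq]
  have e2 : Ud f C s₀ ⊆ Ud f C s := fun q hq => by
    rw [mem_Ud] at hq ⊢
    exact ⟨hq.1, hq.2.1, (h2 q hq.1).2 hq.2.2.le⟩
  have e3 : (M'.image lab).card ≤ (Cp f C s).card := by
    unfold Cp
    rw [e1]
    refine card_image_le_of _ _ _ fun m hm m' hm' e => (h1 m hm m' hm' ?_).symm
    rw [e]
    exact mem_connectedComponentIn ((h2 m' (mM.1 hm').1).2 (mM.1 hm').2.2)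
  set T : Set X → Prop := fun U => ∃ q ∈ closure U, q ∈ C ∧ f q = s₀ with hT
  have e4 := Finset.card_filter_add_card_filter_not (s := Cp f C s₀) T
  have e5 : ((Cp f C s₀).filter fun U => ¬ T U).card ≤ ((M'.image lab).erase none).card := by
    rw [← Finset.card_image_of_injective _ (Option.some_injective _)]
    refine Finset.card_le_card fun z hz => ?_
    obtain ⟨U, hU, rfl⟩ := Finset.mem_image.1 hz
    obtain ⟨h3, h4⟩ := Finset.mem_filter.1 hU
    obtain ⟨m, h5, rfl⟩ := mem_Cp.1 h3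
    refine Finset.mem_erase.2 ⟨by simp, Finset.mem_image.2 ⟨m, sub h5, ?_⟩⟩
    simp only [hlab]
    rw [cl1 m (mem_Mx.1 h5).2.2]
    exact if_neg h4
  have e6 := Finset.card_le_card e2
  have tc : ∀ p, p ∈ C → f p = s₀ → ∀ U ∈ (Cp f C s₀).filter T, Tc (Sp f (f p)) p U := by
    intro p hp e U hU
    obtain ⟨h3, q, h4, h5, h6⟩ := Finset.mem_filter.1 hU
    obtain ⟨m, h7, rfl⟩ := mem_Cp.1 h3
    rw [e, h.inj hp h5 (e.trans h6.symm)]
    exact ⟨⟨m, (mem_Mx.1 h7).2.2, rfl⟩, h4⟩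
  have mx : ∀ p, p ∈ C → f p = s₀ → M' ⊆ insert p (Mx f C s₀) := by
    intro p hp e m hm
    rcases (mM.1 hm).2.2.lt_or_eq with h3 | h3
    · exact Finset.mem_insert_of_mem (mem_Mx.2 ⟨(mM.1 hm).1, (mM.1 hm).2.1, h3⟩)
    · rw [h.inj (mM.1 hm).1 hp (h3.symm.trans e.symm)]
      exact Finset.mem_insert_self _ _
  unfold Ph
  rw [e1]
  by_cases hn : none ∈ M'.image lab
  · have e7 := Finset.card_erase_add_one hn
    obtain ⟨m, -, h3⟩ := Finset.mem_image.1 hn
    obtain ⟨p, -, hp, e⟩ : ∃ q ∈ cl m, q ∈ C ∧ f q = s₀ := by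
      by_contra h4
      simp only [hlab, if_neg h4] at h3
      exact absurd h3 (by simp)
    by_cases hm : IsLocalMax f p
    · have e8 : ((Cp f C s₀).filter T).card = 0 := by
        rw [Finset.card_eq_zero, Finset.eq_empty_iff_forall_notMem]
        intro U hU
        obtain ⟨⟨a, -, rfl⟩, h4⟩ := tc p hp e U hU
        obtain ⟨y, h5, h6⟩ := ((mem_closure_iff_frequently.1 h4).and_eventually hm).exists
        exact absurd (connectedComponentIn_subset _ _ h5) (not_lt.2 h6)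
      have e9 := (Finset.card_le_card (mx p hp e)).trans (Finset.card_insert_le _ _)
      omega
    · have e9 : M'.card ≤ (Mx f C s₀).card := Finset.card_le_card fun n hn' => by
        rcases Finset.mem_insert.1 (mx p hp e hn') with rfl | h4
        · exact absurd (mM.1 hn').2.1 hm
        · exact h4
      by_cases hu : Up f p
      · have e8 : ((Cp f C s₀).filter T).card ≤ 2 := by
          by_contra h4
          obtain ⟨a, b, c, ha, hb, hc, h5, h6, h7⟩ := Finset.two_lt_card_iff.1 (not_le.1 h4)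
          rcases h.three p a b c (tc p hp e a ha) (tc p hp e b hb) (tc p hp e c hc) with
            h8 | h8 | h8
          exacts [h5 h8, h6 h8, h7 h8]
        have e10 : (Ud f C s₀).card < (Ud f C s).card :=
          Finset.card_lt_card ⟨e2, fun h4 => (mem_Ud.1 (h4
            (mem_Ud.2 ⟨hp, hu, (h2 p hp).2 e.ge⟩))).2.2.ne' e⟩
        omega
      · have e8 : ((Cp f C s₀).filter T).card ≤ 1 := Finset.card_le_one.2 fun a ha b hb => by
          by_contra h4
          exact hu ⟨a, b, tc p hp e a ha, tc p hp e b hb, h4⟩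
        omega
  · have nt : ∀ m ∈ M', ¬ ∃ q ∈ cl m, q ∈ C ∧ f q = s₀ := fun m hm h3 =>
      hn (Finset.mem_image.2 ⟨m, hm, by simp only [hlab, if_pos h3]⟩)
    have e8 : ((Cp f C s₀).filter T).card = 0 := by
      rw [Finset.card_eq_zero, Finset.eq_empty_iff_forall_notMem]
      intro U hU
      obtain ⟨h3, h4⟩ := Finset.mem_filter.1 hU
      obtain ⟨m, h5, rfl⟩ := mem_Cp.1 h3
      exact nt m (sub h5) (by rw [cl1 m (mem_Mx.1 h5).2.2]; exact h4)
    have e9 : M'.card ≤ (Mx f C s₀).card := Finset.card_le_card fun n hn' => by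
      rcases (mM.1 hn').2.2.lt_or_eq with h3 | h3
      · exact mem_Mx.2 ⟨(mM.1 hn').1, (mM.1 hn').2.1, h3⟩
      · exact absurd ⟨n, self n, (mM.1 hn').1, h3.symm⟩ (nt n hn')
    have e10 := Finset.card_erase_le (s := M'.image lab) (a := none)
    omega

theorem Lc.antitone (h : Lc f C) : Antitone (Ph f C) := antitone_of_local h.right h.left

end Crest.Agent.N250.GB
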