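import Crest.Agent.N250.GB.Defs
import Crest.Agent.N250.GB.Top1
import Crest.Agent.N250.GB.Top2

/-!
# Row 250, local Gauss-Bonnet (helper74): local structure of the normal forms
-/

set_option autoImplicit false
open Set Filter Topology Function Metric

namespace Crest.Agent.N250.GB

variable {X : Type} [TopologicalSpace X]

/-- a square chart -/
structure Bx (f : X → ℝ) (p : X) (k : Fin 4) (e : OpenPartialHomeomorph X (ℝ × ℝ)) (r : ℝ) :
    Prop where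
  src : p ∈ e.source
  zero : e p = 0
  pos : 0 < r
  sub : ball 0 r ⊆ e.target
  val : ∀ q ∈ e.source, f q = f p + model k (e q)

theorem NF.bx {f : X → ℝ} {p : X} {k : Fin 4} (h : NF f p k) : ∃ e r, Bx f p k e r := by
  obtain ⟨e, h1, h2, h3⟩ := h
  obtain ⟨r, hr, h4⟩ := Metric.isOpen_iff.1 e.open_target 0 (h2 ▸ e.map_source h1)
  exact ⟨e, r, h1, h2, hr, h4, h3⟩

/-- the domain of a square chart -/
def dom (e : OpenPartialHomeomorph X (ℝ × ℝ)) (r : ℝ) : Set X := e.source ∩ e ⁻¹' ball 0 r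

/-- quadrants -/
def Qd (r a b : ℝ) : Set (ℝ × ℝ) := ball 0 r ∩ ({z | 0 < a * z.1} ∩ {z | 0 < b * z.2})

/-- half squares -/
def Hf (r a b : ℝ) : Set (ℝ × ℝ) := ball 0 r ∩ {z | 0 < a * z.1 + b * z.2}

theorem convex_half (a b : ℝ) : Convex ℝ {z : ℝ × ℝ | 0 < a * z.1 + b * z.2} :=
  convex_halfSpace_gt (f := fun z : ℝ × ℝ => a * z.1 + b * z.2)
    ⟨fun x y => by simp; ring, fun c x => by simp; ring⟩ 0

theorem pc_Hf (r a b : ℝ) : IsPreconnected (Hf r a b) :=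
  ((convex_ball _ _).inter (convex_half a b)).isPreconnected

theorem pc_Qd (r a b : ℝ) : IsPreconnected (Qd r a b) := by
  refine ((convex_ball _ _).inter (Convex.inter ?_ ?_)).isPreconnected
  · simpa using convex_half a 0
  · simpa using convex_half 0 b

theorem mem_ball_iff {r : ℝ} {z : ℝ × ℝ} : z ∈ ball (0 : ℝ × ℝ) r ↔ |z.1| < r ∧ |z.2| < r := by
  simp [Prod.norm_def]

theorem pc_punct {r : ℝ} (hr : 0 < r) :
    IsPreconnected (ball (0 : ℝ × ℝ) r ∩ {z | 0 < z.1 ^ 2 + z.2 ^ 2}) := by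
  have b : ∀ a c : ℝ, |a| = 1 → |c| = 1 → ((a * (r / 2), c * (r / 2)) : ℝ × ℝ) ∈ ball 0 r :=
    fun a c ha hc => by
      rw [mem_ball_iff]
      simp only [abs_mul, ha, hc, abs_of_pos (half_pos hr)]
      constructor <;> linarith
  have m : ∀ a c u v : ℝ, |a| = 1 → |c| = 1 → u * a + v * c = 1 →
      ((a * (r / 2), c * (r / 2)) : ℝ × ℝ) ∈ Hf r u v := fun a c u v ha hc h =>
    ⟨b a c ha hc, show 0 < u * (a * (r / 2)) + v * (c * (r / 2)) by
      have : u * (a * (r / 2)) + v * (c * (r / 2)) = (u * a + v * c) * (r / 2) := by ring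
      rw [this, h]; linarith⟩
  have h1 := IsPreconnected.union _ (m 1 1 1 0 (by simp) (by simp) (by simp))
    (m 1 1 0 1 (by simp) (by simp) (by simp)) (pc_Hf r 1 0) (pc_Hf r 0 1)
  have h2 := IsPreconnected.union _ (mem_union_right _ (m (-1) 1 0 1 (by simp) (by simp) (by simp)))
    (m (-1) 1 (-1) 0 (by simp) (by simp) (by simp)) h1 (pc_Hf r (-1) 0)
  have h3 := IsPreconnected.union _
    (mem_union_right _ (m (-1) (-1) (-1) 0 (by simp) (by simp) (by simp)))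
    (m (-1) (-1) 0 (-1) (by simp) (by simp) (by simp)) h2 (pc_Hf r 0 (-1))
  convert h3 using 1
  ext z
  simp only [Hf, mem_inter_iff, mem_union, mem_ofPred_eq]
  constructor
  · rintro ⟨h4, h5⟩
    by_contra hc
    simp only [h4, true_and, not_or, not_lt] at hc
    obtain ⟨⟨⟨c1, c2⟩, c3⟩, c4⟩ := hc
    have e1 : z.1 = 0 := by linarith
    have e2 : z.2 = 0 := by linarith
    simp [e1, e2] at h5
  · rintro (((h | h) | h) | h) <;> exact ⟨h.1, by nlinarith [h.2, sq_nonneg z.1, sq_nonneg z.2]⟩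

namespace Bx

variable {f : X → ℝ} {p : X} {k : Fin 4} {e : OpenPartialHomeomorph X (ℝ × ℝ)} {r : ℝ}
  (h : Bx f p k e r)
include h

omit h in
theorem op : IsOpen (dom e r) := e.isOpen_inter_preimage isOpen_ball

theorem mem : p ∈ dom e r := ⟨h.src, by rw [mem_preimage, h.zero]; exact mem_ball_self h.pos⟩

theorem symm_mem {z : ℝ × ℝ} (hz : z ∈ ball (0 : ℝ × ℝ) r) : e.symm z ∈ dom e r :=
  ⟨e.map_target (h.sub hz), by rw [mem_preimage, e.right_inv (h.sub hz)]; exact hz⟩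

theorem val' {z : ℝ × ℝ} (hz : z ∈ ball (0 : ℝ × ℝ) r) : f (e.symm z) = f p + model k z := by
  rw [h.val _ (e.map_target (h.sub hz)), e.right_inv (h.sub hz)]

theorem pc {A : Set (ℝ × ℝ)} (hA : IsPreconnected A) (hs : A ⊆ ball 0 r) :
    IsPreconnected (e.symm '' A) := hA.image _ (e.continuousOn_symm.mono (hs.trans h.sub))

theorem mem_cl {z w : ℝ × ℝ} (hz : z ∈ ball (0 : ℝ × ℝ) r) {A : Set (ℝ × ℝ)}
    (hA : ∀ ε : ℝ, 0 < ε → z + ε • w ∈ ball (0 : ℝ × ℝ) r → z + ε • w ∈ A) :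
    e.symm z ∈ closure (e.symm '' A) := by
  have t1 : Tendsto (fun ε : ℝ => z + ε • w) (𝓝[>] 0) (𝓝 z) := by
    have : Continuous fun ε : ℝ => z + ε • w := by fun_prop
    exact (this.tendsto' 0 z (by simp)).mono_left nhdsWithin_le_nhds
  refine mem_closure_of_tendsto ((e.continuousAt_symm (h.sub hz)).tendsto.comp t1) ?_
  filter_upwards [t1.eventually (isOpen_ball.mem_nhds hz), self_mem_nhdsWithin] with ε h1 h2
  exact mem_image_of_mem _ (hA ε h2 h1)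

theorem symm_zero : e.symm 0 = p := by rw [← h.zero, e.left_inv h.src]

theorem sp (τ : ℝ) {A : Set (ℝ × ℝ)} (hA : ∀ z ∈ A, z ∈ ball (0 : ℝ × ℝ) r ∧ 0 < τ * model k z) :
    e.symm '' A ⊆ Sp (fun x => τ * f x) (τ * f p) := by
  rintro _ ⟨z, hz, rfl⟩
  show τ * f p < τ * f (e.symm z)
  rw [h.val' (hA z hz).1]
  linarith [(hA z hz).2]

theorem sp' (τ : ℝ) {A : Set (ℝ × ℝ)}
    (hA : ∀ z ∈ ball (0 : ℝ × ℝ) r, 0 < τ * model k z → z ∈ A) :
    dom e r ∩ Sp (fun x => τ * f x) (τ * f p) ⊆ e.symm '' A := by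
  rintro q ⟨h1, h2⟩
  refine ⟨e q, hA _ h1.2 ?_, e.left_inv h1.1⟩
  have h3 : τ * f p < τ * f q := h2
  rw [h.val q h1.1] at h3
  linarith

theorem not_max (τ : ℝ) (w : ℝ × ℝ) (hw : ∀ ε : ℝ, 0 < ε → 0 < τ * model k (ε • w)) :
    ¬ IsLocalMax (fun x => τ * f x) p := by
  intro hm
  have h1 := h.mem_cl (w := w) (mem_ball_self h.pos)
    (A := {z | z ∈ ball (0 : ℝ × ℝ) r ∧ 0 < τ * model k z})
    fun ε hε hb => ⟨hb, by rw [zero_add]; exact hw ε hε⟩
  rw [h.symm_zero] at h1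
  obtain ⟨y, h2, h3⟩ := ((mem_closure_iff_frequently.1 h1).and_eventually hm).exists
  exact absurd (h.sp τ (fun z hz => hz) h2) (not_lt.2 h3)

theorem is_max (τ : ℝ) (hw : ∀ z, τ * model k z ≤ 0) : IsLocalMax (fun x => τ * f x) p := by
  filter_upwards [e.open_source.mem_nhds h.src] with q hq
  rw [h.val q hq]
  linarith [hw (e q)]

theorem loc_conn : ∀ U ∈ 𝓝 p, ∃ V ∈ 𝓝 p, IsPreconnected V ∧ V ⊆ U := by
  intro U hU
  have h1 : e.symm ⁻¹' U ∈ 𝓝 (0 : ℝ × ℝ) :=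
    e.continuousAt_symm (h.sub (mem_ball_self h.pos)) (h.symm_zero.symm ▸ hU)
  obtain ⟨ρ, hρ, h2⟩ := Metric.mem_nhds_iff.1 (inter_mem h1 (ball_mem_nhds _ h.pos))
  refine ⟨e.symm '' ball 0 ρ, ?_, h.pc (convex_ball _ _).isPreconnected fun z hz => (h2 hz).2, ?_⟩
  · rw [← h.symm_zero]
    exact e.symm.image_mem_nhds (h.sub (mem_ball_self h.pos)) (ball_mem_nhds _ hρ)
  · rintro _ ⟨z, hz, rfl⟩
    exact (h2 hz).1

end Bx

theorem tc_two {O N A B U : Set X} {q : X} (hN : IsOpen N) (hq : q ∈ N) (hA : IsPreconnected A)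
    (hB : IsPreconnected B) (hAO : A ⊆ O) (hBO : B ⊆ O) (hc : N ∩ O ⊆ A ∪ B) (h : Tc O q U) :
    (A.Nonempty ∧ A ⊆ U) ∨ (B.Nonempty ∧ B ⊆ U) := by
  obtain ⟨⟨a, -, rfl⟩, h1⟩ := h
  obtain ⟨z, h2, h3⟩ := _root_.mem_closure_iff.1 h1 N hN hq
  rcases hc ⟨h2, connectedComponentIn_subset _ _ h3⟩ with h4 | h4
  · exact Or.inl ⟨⟨z, h4⟩, (hA.subset_connectedComponentIn h4 hAO).trans
      (connectedComponentIn_eq h3).ge⟩
  · exact Or.inr ⟨⟨z, h4⟩, (hB.subset_connectedComponentIn h4 hBO).trans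
      (connectedComponentIn_eq h3).ge⟩

theorem tc_eq {O A U U' : Set X} {q q' : X} (h : Tc O q U) (h' : Tc O q' U') (hA : A.Nonempty)
    (h1 : A ⊆ U) (h2 : A ⊆ U') : U = U' := by
  obtain ⟨⟨a, -, rfl⟩, -⟩ := h
  obtain ⟨⟨b, -, rfl⟩, -⟩ := h'
  obtain ⟨z, hz⟩ := hA
  exact cc_eq (h1 hz) (h2 hz)

theorem model0 (z : ℝ × ℝ) : model 0 z = z.2 := rfl
theorem model1 (z : ℝ × ℝ) : model 1 z = -(z.1 ^ 2 + z.2 ^ 2) := rfl
theorem model2 (z : ℝ × ℝ) : model 2 z = z.1 ^ 2 + z.2 ^ 2 := rfl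
theorem model3 (z : ℝ × ℝ) : model 3 z = z.1 * z.2 := rfl

theorem qd1 {r τ : ℝ} (a : ℝ) (ha : a = 1 ∨ a = -1) :
    ∀ z ∈ Qd r a (τ * a), z ∈ ball (0 : ℝ × ℝ) r ∧ 0 < τ * model 3 z := by
  rintro z ⟨h1, h2, h3⟩
  refine ⟨h1, ?_⟩
  have := mul_pos (show 0 < a * z.1 from h2) (show 0 < τ * a * z.2 from h3)
  rw [model3]
  rcases ha with rfl | rfl <;> nlinarith

theorem qd2 {r τ : ℝ} : ∀ z ∈ ball (0 : ℝ × ℝ) r, 0 < τ * model 3 z →
    z ∈ Qd r 1 (τ * 1) ∪ Qd r (-1) (τ * -1) := by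
  intro z h1 h2
  rw [model3] at h2
  have h3 : 0 < z.1 * (τ * z.2) := by linarith
  rcases pos_and_pos_or_neg_and_neg_of_mul_pos h3 with h4 | h4
  · exact Or.inl ⟨h1, show 0 < 1 * z.1 by linarith [h4.1], show 0 < τ * 1 * z.2 by linarith [h4.2]⟩
  · exact Or.inr ⟨h1, show 0 < -1 * z.1 by linarith [h4.1],
      show 0 < τ * -1 * z.2 by linarith [h4.2]⟩

/-- the positive part of a model has at most two pieces, one unless it is a saddle -/
theorem pieces {r τ : ℝ} (hr : 0 < r) (hτ : τ = 1 ∨ τ = -1) (k : Fin 4) :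
    ∃ A B : Set (ℝ × ℝ), IsPreconnected A ∧ IsPreconnected B ∧
      (∀ z ∈ A, z ∈ ball (0 : ℝ × ℝ) r ∧ 0 < τ * model k z) ∧
      (∀ z ∈ B, z ∈ ball (0 : ℝ × ℝ) r ∧ 0 < τ * model k z) ∧
      (∀ z ∈ ball (0 : ℝ × ℝ) r, 0 < τ * model k z → z ∈ A ∪ B) ∧ (k ≠ 3 → B = A) := by
  have one : IsPreconnected {z | z ∈ ball (0 : ℝ × ℝ) r ∧ 0 < τ * model k z} → ∃ A B,
      IsPreconnected A ∧ IsPreconnected B ∧
      (∀ z ∈ A, z ∈ ball (0 : ℝ × ℝ) r ∧ 0 < τ * model k z) ∧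
      (∀ z ∈ B, z ∈ ball (0 : ℝ × ℝ) r ∧ 0 < τ * model k z) ∧
      (∀ z ∈ ball (0 : ℝ × ℝ) r, 0 < τ * model k z → z ∈ A ∪ B) ∧ (k ≠ 3 → B = A) :=
    fun h => ⟨_, _, h, h, fun _ hz => hz, fun _ hz => hz, fun _ h1 h2 => Or.inl ⟨h1, h2⟩,
      fun _ => rfl⟩
  have emp : (∀ z, τ * model k z ≤ 0) →
      IsPreconnected {z | z ∈ ball (0 : ℝ × ℝ) r ∧ 0 < τ * model k z} := fun h => by
    convert isPreconnected_empty
    exact eq_empty_of_forall_notMem fun z hz => absurd hz.2 (not_lt.2 (h z))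
  have pun : (∀ z, τ * model k z = z.1 ^ 2 + z.2 ^ 2) →
      IsPreconnected {z | z ∈ ball (0 : ℝ × ℝ) r ∧ 0 < τ * model k z} := fun h => by
    simp only [h]
    exact pc_punct hr
  fin_cases k
  · refine one ?_
    convert pc_Hf r 0 τ using 1
    ext z
    simp [Hf, model]
  · rcases hτ with rfl | rfl
    · exact one (emp fun z => by simp only [model]; simp; nlinarith)
    · exact one (pun fun z => by simp [model])
  · rcases hτ with rfl | rfl
    · exact one (pun fun z => by simp [model])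
    · exact one (emp fun z => by simp only [model]; simp; nlinarith)
  · exact ⟨_, _, pc_Qd r 1 (τ * 1), pc_Qd r (-1) (τ * -1), qd1 1 (Or.inl rfl),
      qd1 (-1) (Or.inr rfl), qd2, fun h => absurd rfl h⟩

variable {f : X → ℝ} {p : X} {k : Fin 4} {τ : ℝ}

theorem NF.three (h : NF f p k) (hτ : τ = 1 ∨ τ = -1) :
    (Up (fun x => τ * f x) p → k = 3) ∧ ∀ U₁ U₂ U₃, Tc (Sp (fun x => τ * f x) (τ * f p)) p U₁ →
      Tc (Sp (fun x => τ * f x) (τ * f p)) p U₂ → Tc (Sp (fun x => τ * f x) (τ * f p)) p U₃ →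
      U₁ = U₂ ∨ U₁ = U₃ ∨ U₂ = U₃ := by
  obtain ⟨e, r, b⟩ := h.bx
  obtain ⟨A, B, h1, h2, h3, h4, h5, h6⟩ := pieces b.pos hτ k
  have key := fun U => tc_two (U := U) Bx.op b.mem (b.pc h1 fun z hz => (h3 z hz).1)
    (b.pc h2 fun z hz => (h4 z hz).1) (b.sp τ h3) (b.sp τ h4)
    (by rw [← image_union]; exact b.sp' τ h5)
  refine ⟨?_, fun U₁ U₂ U₃ t1 t2 t3 => ?_⟩
  · rintro ⟨U, U', t1, t2, hne⟩
    by_contra hk
    rw [h6 hk] at key
    exact hne (tc_eq t1 t2 (or_self_iff.1 (key U t1)).1 (or_self_iff.1 (key U t1)).2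
      (or_self_iff.1 (key U' t2)).2)
  · rcases key _ t1 with a | a <;> rcases key _ t2 with b | b <;> rcases key _ t3 with c | c
    all_goals first
      | exact Or.inl (tc_eq t1 t2 a.1 a.2 b.2)
      | exact Or.inr (Or.inl (tc_eq t1 t3 a.1 a.2 c.2))
      | exact Or.inr (Or.inr (tc_eq t2 t3 b.1 b.2 c.2))

theorem NF.max_iff (h : NF f p k) :
    (IsLocalMax (fun x => 1 * f x) p ↔ k = 1) ∧ (IsLocalMax (fun x => -1 * f x) p ↔ k = 2) := by
  obtain ⟨e, r, b⟩ := h.bx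
  fin_cases k
  · exact ⟨iff_of_false (b.not_max 1 (1, 1) fun ε hε => by simpa [model] using hε) (by simp),
      iff_of_false (b.not_max (-1) (1, -1) fun ε hε => by simpa [model] using hε) (by simp)⟩
  · exact ⟨iff_of_true (b.is_max 1 fun z => by simp only [model]; simp; nlinarith) rfl,
      iff_of_false (b.not_max (-1) (1, 1) fun ε hε => by simp [model]; nlinarith) (by simp)⟩
  · exact ⟨iff_of_false (b.not_max 1 (1, 1) fun ε hε => by simp [model]; nlinarith) (by simp),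
      iff_of_true (b.is_max (-1) fun z => by simp only [model]; simp; nlinarith) rfl⟩
  · exact ⟨iff_of_false (b.not_max 1 (1, 1) fun ε hε => by simp [model]; nlinarith) (by simp),
      iff_of_false (b.not_max (-1) (1, -1) fun ε hε => by simp [model]; nlinarith) (by simp)⟩

end Crest.Agent.N250.GB
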