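import Crest.Agent.N250.GB.Top3

/-!
# Row 250, local Gauss-Bonnet (helper74): the Morse inequality `TopS`
-/

set_option autoImplicit false
open Set Filter Topology Function Metric

namespace Crest.Agent.N250.GB

variable {X : Type} [TopologicalSpace X] {f : X → ℝ} {p : X}
  {e : OpenPartialHomeomorph X (ℝ × ℝ)} {r τ : ℝ}

theorem ax_mem {r x : ℝ} (hx : x ∈ Ioo (-r) r) : ((x, 0) : ℝ × ℝ) ∈ ball (0 : ℝ × ℝ) r := by
  rw [mem_ball_iff]
  exact ⟨abs_lt.2 hx, by simp; linarith [hx.1, hx.2]⟩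

theorem Bx.ch {k : Fin 4} (h : Bx f p k e r) {Γ : Set X} {I : Set ℝ} (hI : I.OrdConnected)
    (hs : I ⊆ Ioo (-r) r) (h1 : ∀ x ∈ I, e.symm (x, 0) ∈ Γ)
    (h2 : ∀ y ∈ Γ, y ∈ dom e r → (e y).1 ∈ I ∧ (e y).2 = 0) :
    Ch Γ (dom e r) (fun y => (e y).1) (fun x => e.symm (x, 0)) I where
  op := Bx.op
  cκ := (e.continuousOn.mono inter_subset_left).fst
  oc := hI
  cγ := e.continuousOn_symm.comp (by fun_prop) fun x hx => h.sub (ax_mem (hs hx))
  mem x hx := ⟨h1 x hx, h.symm_mem (ax_mem (hs hx))⟩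
  κγ x hx := by rw [e.right_inv (h.sub (ax_mem (hs hx)))]
  γκ y hy hN := ⟨(h2 y hy hN).1, by
    rw [← (h2 y hy hN).2]
    exact e.left_inv hN.1⟩

/-- the component that contains the right quadrant at a merging saddle -/
theorem Bx.side (h : Bx f p 3 e r) (hτ : τ = 1 ∨ τ = -1) (hu : Up (fun x => τ * f x) p) :
    ∃ U, (∃ a ∈ Sp (fun x => τ * f x) (τ * f p), U = cc (Sp (fun x => τ * f x) (τ * f p)) a) ∧
      (∀ x ∈ Ico 0 r, e.symm (x, 0) ∈ closure U) ∧
      ∀ y ∈ closure U, y ∈ dom e r → 0 ≤ (e y).1 ∧ 0 ≤ τ * (e y).2 := by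
  have q1 := qd1 (r := r) (τ := τ) 1 (Or.inl rfl)
  have q2 := qd1 (r := r) (τ := τ) (-1) (Or.inr rfl)
  have cov : dom e r ∩ Sp (fun x => τ * f x) (τ * f p) ⊆
      e.symm '' Qd r 1 (τ * 1) ∪ e.symm '' Qd r (-1) (τ * -1) := by
    rw [← image_union]; exact h.sp' τ qd2
  have key := fun U => tc_two (U := U) Bx.op h.mem (h.pc (pc_Qd _ _ _) fun z hz => (q1 z hz).1)
    (h.pc (pc_Qd _ _ _) fun z hz => (q2 z hz).1) (h.sp τ q1) (h.sp τ q2) cov
  have main : ∀ U U', Tc (Sp (fun x => τ * f x) (τ * f p)) p U →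
      Tc (Sp (fun x => τ * f x) (τ * f p)) p U' → U ≠ U' → e.symm '' Qd r 1 (τ * 1) ⊆ U →
      e.symm '' Qd r (-1) (τ * -1) ⊆ U' → (∀ x ∈ Ico 0 r, e.symm (x, 0) ∈ closure U) ∧
      ∀ y ∈ closure U, y ∈ dom e r → 0 ≤ (e y).1 ∧ 0 ≤ τ * (e y).2 := by
    intro U U' t1 t2 hne s1 s2
    refine ⟨fun x hx => closure_mono s1 (h.mem_cl (w := (1, τ))
      (ax_mem ⟨by linarith [hx.1, h.pos], hx.2⟩) fun ε hε hb => ⟨hb, ?_, ?_⟩), fun y hy hN => ?_⟩
    · show 0 < 1 * (x + ε * 1)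
      linarith [hx.1]
    · show 0 < τ * 1 * (0 + ε * τ)
      rcases hτ with rfl | rfl <;> linarith
    · have c1 : y ∈ closure (dom e r ∩ U) := Bx.op.inter_closure ⟨hN, hy⟩
      have c2 : IsClosed {z : ℝ × ℝ | 0 ≤ z.1 ∧ 0 ≤ τ * z.2} :=
        (isClosed_le continuous_const continuous_fst).inter
          (isClosed_le continuous_const (continuous_const.mul continuous_snd))
      refine c2.closure_subset (((e.continuousAt hN.1).continuousWithinAt).mem_closure c1 ?_)
      rintro w ⟨w1, w2⟩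
      have w3 : w ∈ Sp (fun x => τ * f x) (τ * f p) := by
        obtain ⟨⟨a, -, rfl⟩, -⟩ := t1
        exact connectedComponentIn_subset _ _ w2
      rcases cov ⟨w1, w3⟩ with h4 | h4
      · obtain ⟨z, hz, rfl⟩ := h4
        rw [e.right_inv (h.sub hz.1)]
        have a1 : 0 < 1 * z.1 := hz.2.1
        have a2 : 0 < τ * 1 * z.2 := hz.2.2
        exact ⟨by linarith, by linarith⟩
      · exact absurd (tc_eq t1 t2 (singleton_nonempty w) (singleton_subset_iff.2 w2)
          (singleton_subset_iff.2 (s2 h4))) hne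
  obtain ⟨U, U', t1, t2, hne⟩ := hu
  rcases key U t1 with a | a <;> rcases key U' t2 with b | b
  · exact absurd (tc_eq t1 t2 a.1 a.2 b.2) hne
  · exact ⟨U, t1.1, main U U' t1 t2 hne a.2 b.2⟩
  · exact ⟨U', t2.1, main U' U t2 t1 hne.symm b.2 a.2⟩
  · exact absurd (tc_eq t1 t2 a.1 a.2 b.2) hne

theorem Bx.reg (h : Bx f p 0 e r) (hτ : τ = 1 ∨ τ = -1) {U : Set X}
    (t : Tc (Sp (fun x => τ * f x) (τ * f p)) p U) : ∀ x ∈ Ioo (-r) r,
    e.symm (x, 0) ∈ closure U := by
  have q1 : ∀ z ∈ Hf r 0 τ, z ∈ ball (0 : ℝ × ℝ) r ∧ 0 < τ * model 0 z := fun z hz =>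
    ⟨hz.1, by have : 0 < 0 * z.1 + τ * z.2 := hz.2
              rw [model0]; linarith⟩
  have pc := h.pc (pc_Hf r 0 τ) fun z hz => hz.1
  have s1 := (or_self_iff.1 (tc_two Bx.op h.mem pc pc (h.sp τ q1) (h.sp τ q1)
    ((h.sp' τ (A := Hf r 0 τ) fun z h1 h2 => ⟨h1, show 0 < 0 * z.1 + τ * z.2 by
      rw [model0] at h2; linarith⟩).trans subset_union_left) t)).2
  refine fun x hx => closure_mono s1 (h.mem_cl (w := (0, τ)) (ax_mem hx) fun ε hε hb => ⟨hb, ?_⟩)
  show 0 < 0 * (x + ε * 0) + τ * (0 + ε * τ)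
  rcases hτ with rfl | rfl <;> linarith

variable [T2Space X] [CompactSpace X]

/-- a saddle does not merge both upwards and downwards -/
theorem not_both (hf : Continuous f) (hp : NF f p 3) (hq : ∀ q, q ≠ p → f q = f p → NF f q 0)
    (h1 : Up (fun x => 1 * f x) p) (h2 : Up (fun x => -1 * f x) p) : False := by
  obtain ⟨e, r, b⟩ := hp.bx
  obtain ⟨U, u1, u2, u3⟩ := b.side (Or.inl rfl) h1
  obtain ⟨D, d1, d2, d3⟩ := b.side (Or.inr rfl) h2
  have lev : ∀ y ∈ closure U ∩ closure D, f y = f p := by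
    rintro y ⟨y1, y2⟩
    obtain ⟨a, -, rfl⟩ := u1
    obtain ⟨c, -, rfl⟩ := d1
    have a1 := le_of_closure (f := fun x => 1 * f x) (by fun_prop) y1
    have a2 := le_of_closure (f := fun x => -1 * f x) (by fun_prop) y2
    linarith
  have m : ∀ x ∈ Ico 0 r, e.symm (x, 0) ∈ closure U ∩ closure D := fun x hx => ⟨u2 x hx, d2 x hx⟩
  refine OneEnd.false (Γ := closure U ∩ closure D) (p := p)
    ⟨(isClosed_closure.inter isClosed_closure).isCompact, ?_, ⟨_, _, _, r, b.pos,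
      b.ch ordConnected_Ico (fun x hx => ⟨by linarith [hx.1, b.pos], hx.2⟩) m fun y hy hN => ?_,
      b.mem, by simp [b.zero]⟩, fun q hΓ hne => ?_⟩
  · rw [← b.symm_zero]
    exact m 0 ⟨le_rfl, b.pos⟩
  · have a1 := u3 y hy.1 hN
    have a2 := d3 y hy.2 hN
    exact ⟨⟨a1.1, (abs_lt.1 (mem_ball_iff.1 hN.2).1).2⟩, by linarith [a1.2, a2.2]⟩
  · have hl := lev q hΓ
    obtain ⟨e', r', b'⟩ := (hq q hne hl).bx
    refine ⟨_, _, _, r', b'.pos, b'.ch ordConnected_Ioo subset_rfl (fun x hx =>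
      ⟨b'.reg (Or.inl rfl) ⟨hl ▸ u1, hΓ.1⟩ x hx, b'.reg (Or.inr rfl) ⟨hl ▸ d1, hΓ.2⟩ x hx⟩)
      fun y hy hN => ⟨abs_lt.1 (mem_ball_iff.1 hN.2).1, ?_⟩, b'.mem, by simp [b'.zero]⟩
    have := b'.val y hN.1
    rw [model0, lev y hy, hl] at this
    linarith

theorem card_eq_sum {α : Type*} [DecidableEq α] {F C : Finset α} (h : F ⊆ C) :
    (F.card : ℝ) = ∑ p ∈ C, if p ∈ F then 1 else 0 := by
  rw [Finset.sum_boole, Finset.filter_mem_eq_inter, Finset.inter_eq_right.2 h]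

omit [TopologicalSpace X] [T2Space X] [CompactSpace X] in
theorem exists_delta (C : Finset X) (t : ℝ) (h : ∀ p ∈ C, f p ≠ t) {a : ℝ} (ha : 0 < a) :
    ∃ δ, 0 < δ ∧ δ < a ∧ ∀ p ∈ C, δ < |f p - t| := by
  have h1 : ∀ᶠ δ in 𝓝[>] (0 : ℝ), ∀ p ∈ C, δ < |f p - t| := by
    rw [Filter.eventually_all_finset]
    exact fun p hp => nhdsWithin_le_nhds (Iio_mem_nhds (abs_pos.2 (sub_ne_zero.2 (h p hp))))
  obtain ⟨δ, h2, h3⟩ := (h1.and (Ioo_mem_nhdsGT ha)).exists
  exact ⟨δ, h3.1, h3.2, h2⟩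

theorem topS : TopS := by
  classical
  intro X _ _ _ _ f ty C hf hN hC hinj t ht ⟨p₀, hp₀⟩
  have : LocallyConnectedSpace X := by
    refine locallyConnectedSpace_iff_connected_subsets.2 fun x U hU => ?_
    obtain ⟨e, r, b⟩ := (hN x).bx
    exact b.loc_conn U hU
  have lc : ∀ τ : ℝ, τ = 1 ∨ τ = -1 → Lc (fun x => τ * f x) C := fun τ hτ =>
    ⟨by fun_prop, fun m hm => (hC m).2 fun h0 => by
      have := (hN m).max_iff
      rw [h0] at this
      rcases hτ with rfl | rfl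
      · exact absurd (this.1.1 hm) (by decide)
      · exact absurd (this.2.1 hm) (by decide),
    fun q hq => (hC q).2 (by rw [((hN q).three hτ).1 hq]; decide),
    fun q => ((hN q).three hτ).2, fun a ha c hc h => hinj ha hc (by
      rcases hτ with rfl | rfl <;> linarith [show _ * f a = _ * f c from h])⟩
  obtain ⟨δ, hδ, hδa, hδC⟩ := exists_delta C t ht (sub_pos.2 hp₀)
  obtain ⟨B, hB⟩ : ∃ B, ∀ x, f x < B := by
    obtain ⟨B, hB⟩ := (isCompact_range hf).bddAbove
    exact ⟨B + 1, fun x => by linarith [hB (mem_range_self x)]⟩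
  set g : X → ℝ := fun x => 1 * f x with hg
  set g' : X → ℝ := fun x => -1 * f x with hg'
  have l1 : Lc g C := lc 1 (Or.inl rfl)
  have l2 : Lc g' C := lc (-1) (Or.inr rfl)
  set K := Cp g C (t - δ) with hK
  refine ⟨δ, K.card, fun i => (K.equivFin.symm i).1, hδ, hδC, fun i => ?_, fun i j hij => ?_,
    fun x hx => ?_, fun i => ?_, ?_⟩
  all_goals beta_reduce
  · obtain ⟨m, -, h⟩ := mem_Cp.1 (K.equivFin.symm i).2
    rw [← h]
    exact (isOpen_Sp l1.ct _).connectedComponentIn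
  · obtain ⟨m, -, h⟩ := mem_Cp.1 (K.equivFin.symm i).2
    obtain ⟨m', -, h'⟩ := mem_Cp.1 (K.equivFin.symm j).2
    refine Set.disjoint_left.2 fun z h1 h2 => hij (K.equivFin.symm.injective (Subtype.ext ?_))
    beta_reduce at h1 h2
    rw [← h] at h1
    rw [← h'] at h2
    rw [← h, ← h']
    exact cc_eq h1 h2
  · have hx' : t - δ < g x := by simpa [hg] using hx
    obtain ⟨m, h1, h2, -⟩ := l1.exists_max hx'
    refine ⟨K.equivFin ⟨_, mem_Cp.2 ⟨m, h1, rfl⟩⟩, ?_⟩
    rw [Equiv.symm_apply_apply]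
    show x ∈ cc _ m
    rw [h2]
    exact mem_connectedComponentIn hx'
  · obtain ⟨m, hm, h⟩ := mem_Cp.1 (K.equivFin.symm i).2
    rw [← h]
    obtain ⟨m1, -, m2⟩ := mem_Mx.1 hm
    have m3 : t < f m := by
      have a1 := hδC m m1
      have a2 : t - δ < 1 * f m := m2
      rcases lt_abs.1 a1 with a3 | a3 <;> linarith
    have mm : m ∈ cc (Sp g (t - δ)) m := mem_connectedComponentIn m2
    obtain ⟨y, hy, hyt⟩ : ∃ y ∈ cc (Sp g (t - δ)) m, f y < t := by
      by_contra hc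
      push Not at hc
      have hcl : IsClosed (cc (Sp g (t - δ)) m) := by
        refine closure_subset_iff_isClosed.1 fun x hx => ?_
        have a1 : t ≤ f x := closure_minimal hc (isClosed_le continuous_const hf) hx
        have a2 : x ∈ Sp g (t - δ) := show t - δ < 1 * f x by linarith
        rw [← cc_of_closure (isOpen_Sp l1.ct _) a2 hx]
        exact mem_connectedComponentIn a2
      have a3 := IsClopen.eq_univ ⟨hcl, (isOpen_Sp l1.ct _).connectedComponentIn⟩ ⟨m, mm⟩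
      exact absurd (hc p₀ (a3 ▸ mem_univ _)) (not_le.2 hp₀)
    obtain ⟨q, h1, h2⟩ := isPreconnected_connectedComponentIn.intermediate_value hy mm
      hf.continuousOn ⟨hyt.le, m3.le⟩
    exact ⟨q, h1, h2⟩
  · have tB : t - δ ≤ max B t := by linarith [le_max_right B t]
    have a1 := l1.antitone tB
    have a2 := l2.antitone (show -max B t ≤ -t by linarith [le_max_right B t])
    have e1 : Mx g C (max B t) = ∅ := Finset.eq_empty_of_forall_notMem fun m hm => by
      have a3 : max B t < 1 * f m := (mem_Mx.1 hm).2.2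
      linarith [hB m, le_max_left B t]
    have e2 : (Cp g' C (-max B t)).card ≤ 1 := Finset.card_le_one.2 fun U hU V hV => by
      obtain ⟨m, -, rfl⟩ := mem_Cp.1 hU
      obtain ⟨m', -, rfl⟩ := mem_Cp.1 hV
      have : Sp g' (-max B t) = univ := eq_univ_of_forall fun x =>
        show -max B t < -1 * f x by linarith [hB x, le_max_left B t]
      simp only [this, cc, connectedComponentIn_univ, PreconnectedSpace.connectedComponent_eq_univ]
    have e3 : 1 ≤ (Cp g' C (-t)).card := by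
      obtain ⟨m, h1, -⟩ := l2.exists_max (show -t < -1 * f p₀ by linarith)
      exact Finset.card_pos.2 ⟨_, mem_Cp.2 ⟨m, h1, rfl⟩⟩
    have a4 : ((Mx g C (t - δ)).card : ℝ) - (Ud g C (t - δ)).card
        + ((Mx g' C (-max B t)).card - (Mx g' C (-t)).card)
        - ((Ud g' C (-max B t)).card - (Ud g' C (-t)).card) ≤ K.card := by
      simp only [Ph, e1, Finset.card_empty, ← hK] at a1 a2
      have : ((Mx g C (t - δ)).card : ℤ) - (Ud g C (t - δ)).card
        + ((Mx g' C (-max B t)).card - (Mx g' C (-t)).card)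
        - ((Ud g' C (-max B t)).card - (Ud g' C (-t)).card) ≤ K.card := by omega
      exact_mod_cast this
    refine le_trans ?_ a4
    have sM : ∀ (h : X → ℝ) s, Mx h C s ⊆ C := fun h s m hm => (mem_Mx.1 hm).1
    have sU : ∀ (h : X → ℝ) s, Ud h C s ⊆ C := fun h s m hm => (mem_Ud.1 hm).1
    simp only [card_eq_sum (sM _ _), card_eq_sum (sU _ _), Finset.sum_filter,
      ← Finset.sum_sub_distrib, ← Finset.sum_add_distrib]
    refine Finset.sum_le_sum fun p hp => ?_
    have b1 : -max B t < g' p := show -max B t < -1 * f p by linarith [hB p, le_max_left B t]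
    have b2 : t - δ < g p ↔ t < f p := by
      have a1 := hδC p hp
      refine ⟨fun a2 => ?_, fun a2 => show t - δ < 1 * f p by linarith⟩
      have a2 : t - δ < 1 * f p := a2
      rcases lt_abs.1 a1 with a3 | a3 <;> linarith
    have b3 : -t < g' p ↔ ¬ t < f p := by
      refine ⟨fun a2 a3 => ?_, fun a2 => ?_⟩
      · have a2 : -t < -1 * f p := a2
        linarith
      · have := (not_lt.1 a2).lt_of_ne (ht p hp)
        show -t < -1 * f p
        linarith
    have b4 : (IsLocalMax g p ↔ ty p = 1) ∧ (IsLocalMax g' p ↔ ty p = 2) := (hN p).max_iff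
    have b5 : Up g p → ty p = 3 := ((hN p).three (Or.inl rfl)).1
    have b6 : Up g' p → ty p = 3 := ((hN p).three (Or.inr rfl)).1
    have b7 : Up g p → Up g' p → False := fun u1 u2 =>
      not_both hf (b5 u1 ▸ hN p) (fun q hq hl => by
        have : ty q = 0 := by
          by_contra h0
          exact hq (hinj ((hC q).2 h0) hp hl)
        exact this ▸ hN q) u1 u2
    have b8 := (hC p).1 hp
    simp only [mem_Mx, mem_Ud, hp, true_and, b1, b2, b3, and_true, b4.1, b4.2]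
    by_cases c0 : t < f p
    · generalize ty p = k at b5 b6 b8
      by_cases c1 : Up g p <;> by_cases c2 : Up g' p
      · exact (b7 c1 c2).elim
      · obtain rfl := b5 c1
        simp [ind, c0, c1, c2]
      · obtain rfl := b6 c2
        simp [ind, c0, c1, c2]
      · fin_cases k <;> simp [ind, c0, c1, c2] at b8 ⊢
    · simp [c0]

end Crest.Agent.N250.GB
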